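import Mathlib

/-!
Shared definitions for the engine of the full Steinitz bound.
-/

open MeasureTheory ProbabilityTheory
open scoped ENNReal BigOperators Pointwise

namespace P262F

/-- A measure satisfies the midpoint Prekopa-Leindler inequality. -/
def MidPL {X : Type*} [MeasurableSpace X] [AddCommGroup X] [Module ℝ X] (μ : Measure X) : Prop :=
  ∀ f g h : X → ℝ≥0∞, Measurable f → Measurable g → Measurable h →
    (∀ x y, f x * g y ≤ (h ((1 / 2 : ℝ) • (x + y))) ^ 2) →
    (∫⁻ x, f x ∂μ) * (∫⁻ x, g x ∂μ) ≤ (∫⁻ x, h x ∂μ) ^ 2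

/-- closed, convex, symmetric sets -/
structure Good {E : Type*} [NormedAddCommGroup E] [NormedSpace ℝ E] (K : Set E) : Prop where
  closed : IsClosed K
  convex : Convex ℝ K
  symm : ∀ x ∈ K, -x ∈ K

/-- The Banaszczyk operation. -/
def ban {E : Type*} [NormedAddCommGroup E] [NormedSpace ℝ E] (K : Set E) (u : E) : Set E :=
  {x | ∃ t : ℝ, t ∈ Set.Icc (-1 : ℝ) 3 ∧ x - t • u ∈ K ∧ x + (2 - t) • u ∈ K}

end P262F
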