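import Vale.Agent.P262F.Defs

open MeasureTheory ProbabilityTheory Set
open scoped ENNReal BigOperators Pointwise

namespace P262F

/-- one-dimensional Brunn-Minkowski, compact sets. -/
theorem bm_compact {A B D : Set ℝ} (hA : IsCompact A) (hB : IsCompact B) (hA0 : A.Nonempty)
    (hB0 : B.Nonempty) (h : ∀ a ∈ A, ∀ b ∈ B, a + b ∈ D) :
    volume A + volume B ≤ volume D := by
  obtain ⟨a1, ha1, hmax⟩ := hA.exists_isGreatest hA0
  obtain ⟨b0, hb0, hmin⟩ := hB.exists_isLeast hB0
  have hAm := hA.measurableSet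
  have hBm := hB.measurableSet
  have vA : volume ((fun x : ℝ => x + -b0) ⁻¹' A) = volume A := measure_preimage_add_right _ _ _
  have vB : volume ((fun x : ℝ => x + -a1) ⁻¹' B) = volume B := measure_preimage_add_right _ _ _
  rw [← vA, ← vB]
  have hd : AEDisjoint volume ((fun x : ℝ => x + -b0) ⁻¹' A) ((fun x : ℝ => x + -a1) ⁻¹' B) := by
    refine measure_mono_null (t := {a1 + b0}) ?_ (by simp)
    rintro x ⟨hx1, hx2⟩
    have h1 : x + -b0 ≤ a1 := hmax hx1
    have h2 : b0 ≤ x + -a1 := hmin hx2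
    rw [mem_singleton_iff]
    linarith
  rw [← measure_union₀ ((hBm.preimage (by fun_prop)).nullMeasurableSet) hd]
  refine measure_mono (union_subset ?_ ?_)
  · intro x hx
    have := h _ hx _ hb0
    simpa using this
  · intro x hx
    have := h _ ha1 _ hx
    simpa using this

/-- one-dimensional Brunn-Minkowski for midpoints, measurable sets. -/
theorem bm_mid {A B C : Set ℝ} (hA : MeasurableSet A) (hB : MeasurableSet B) (hA0 : A.Nonempty)
    (hB0 : B.Nonempty) (h : ∀ a ∈ A, ∀ b ∈ B, (a + b) / 2 ∈ C) :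
    volume A + volume B ≤ 2 * volume C := by
  have hC : volume ((fun x : ℝ => x * (1 / 2)) ⁻¹' C) = 2 * volume C := by
    have := Real.volume_preimage_mul_right (a := (1 / 2 : ℝ)) (by norm_num) C
    rw [this]
    norm_num
  obtain ⟨a, ha⟩ := hA0
  obtain ⟨b, hb⟩ := hB0
  have e : ∀ S : Set ℝ, MeasurableSet S →
      volume S = ⨆ K : {K : Set ℝ // K ⊆ S ∧ IsCompact K}, volume K.1 := by
    intro S hS
    rw [hS.measure_eq_iSup_isCompact, iSup_subtype]
    simp only [iSup_and]
  rw [e A hA, e B hB, ← hC]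
  have : Nonempty {K : Set ℝ // K ⊆ A ∧ IsCompact K} := ⟨∅, empty_subset _, isCompact_empty⟩
  have : Nonempty {K : Set ℝ // K ⊆ B ∧ IsCompact K} := ⟨∅, empty_subset _, isCompact_empty⟩
  refine ENNReal.iSup_add_iSup_le ?_
  rintro ⟨K, hK, hKc⟩ ⟨K', hK', hKc'⟩
  refine le_trans (add_le_add (measure_mono (subset_insert a K))
    (measure_mono (subset_insert b K'))) ?_
  refine bm_compact (hKc.insert a) (hKc'.insert b) (insert_nonempty _ _) (insert_nonempty _ _) ?_
  intro x hx y hy
  have hx' : x ∈ A := by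
    rcases hx with rfl | hx
    · exact ha
    · exact hK hx
  have hy' : y ∈ B := by
    rcases hy with rfl | hy
    · exact hb
    · exact hK' hy
  have := h x hx' y hy'
  simpa [div_eq_mul_inv] using this

/- 1D Brunn-Minkowski, midpoint version, for measurable sets A B contained in C-mid -/
theorem bm1 (A B C : Set ℝ) (hA : MeasurableSet A) (hB : MeasurableSet B) (hC : MeasurableSet C)
    (hAn : A.Nonempty) (hBn : B.Nonempty)
    (h : ∀ a ∈ A, ∀ b ∈ B, (1 / 2 : ℝ) * (a + b) ∈ C) :
    volume A + volume B ≤ 2 * volume C := by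
  refine bm_mid hA hB hAn hBn fun a ha b hb => ?_
  have := h a ha b hb
  rwa [show (a + b) / 2 = (1 / 2 : ℝ) * (a + b) by ring]

end P262F
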