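import Vale.Agent.P262F.Defs
import Vale.Agent.P262F.M1

open MeasureTheory ProbabilityTheory
open scoped ENNReal BigOperators Pointwise

namespace P262F

/-- additive Prekopa-Leindler for real functions with supremum one -/
theorem m2_real (F G H : ℝ → ℝ) (hF : Measurable F) (hG : Measurable G) (hH : Measurable H)
    (hF0 : ∀ x, 0 ≤ F x) (hG0 : ∀ x, 0 ≤ G x) (hH0 : ∀ x, 0 ≤ H x)
    (hF1 : ∀ x, F x ≤ 1) (hG1 : ∀ x, G x ≤ 1)
    (hFs : ∀ t : ℝ, t < 1 → ∃ x, t < F x) (hGs : ∀ t : ℝ, t < 1 → ∃ x, t < G x)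
    (h : ∀ x y, F x * G y ≤ H ((1 / 2 : ℝ) * (x + y)) ^ 2) :
    (∫⁻ x, ENNReal.ofReal (F x)) + (∫⁻ x, ENNReal.ofReal (G x))
      ≤ 2 * ∫⁻ x, ENNReal.ofReal (H x) := by
  have meas_lt : ∀ K : ℝ → ℝ, Measurable (fun t : ℝ => (volume : Measure ℝ) {a : ℝ | t < K a}) := by
    intro K
    refine Antitone.measurable ?_
    intro s t hst
    exact measure_mono (fun x hx => lt_of_le_of_lt hst hx)
  rw [lintegral_eq_lintegral_meas_lt volume (Filter.Eventually.of_forall hF0) hF.aemeasurable,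
    lintegral_eq_lintegral_meas_lt volume (Filter.Eventually.of_forall hG0) hG.aemeasurable,
    lintegral_eq_lintegral_meas_lt volume (Filter.Eventually.of_forall hH0) hH.aemeasurable,
    ← lintegral_add_left (meas_lt F), ← lintegral_const_mul _ (meas_lt H)]
  refine setLIntegral_mono ((measurable_const.mul (meas_lt H))) ?_
  intro t ht
  have ht0 : (0 : ℝ) < t := ht
  show volume {a : ℝ | t < F a} + volume {a : ℝ | t < G a} ≤ 2 * volume {a : ℝ | t < H a}
  by_cases h1 : t < 1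
  · refine bm1 _ _ _ (measurableSet_lt measurable_const hF)
      (measurableSet_lt measurable_const hG) (measurableSet_lt measurable_const hH)
      (hFs t h1) (hGs t h1) ?_
    intro a ha b hb
    have ha' : t < F a := ha
    have hb' : t < G b := hb
    show t < H ((1 / 2 : ℝ) * (a + b))
    have h2 := h a b
    have h3 : t ^ 2 < H ((1 / 2 : ℝ) * (a + b)) ^ 2 := by
      refine lt_of_lt_of_le ?_ h2
      nlinarith
    exact lt_of_pow_lt_pow_left₀ 2 (hH0 _) h3
  · have e1 : {a : ℝ | t < F a} = ∅ := by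
      ext a; simp only [Set.mem_setOf_eq, Set.mem_empty_iff_false, iff_false, not_lt]
      exact (hF1 a).trans (not_lt.mp h1)
    have e2 : {a : ℝ | t < G a} = ∅ := by
      ext a; simp only [Set.mem_setOf_eq, Set.mem_empty_iff_false, iff_false, not_lt]
      exact (hG1 a).trans (not_lt.mp h1)
    rw [e1, e2]
    simp

theorem m2_amgm (u v w : ℝ≥0∞) (h : u + v ≤ 2 * w) : u * v ≤ w ^ 2 := by
  rcases eq_or_ne w ∞ with hw | hw
  · rw [hw]; simp
  have hu : u ≠ ∞ := by
    intro hu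
    rw [hu] at h
    simp only [top_add, top_le_iff] at h
    exact (ENNReal.mul_ne_top (by norm_num) hw) h
  have hv : v ≠ ∞ := by
    intro hv
    rw [hv] at h
    simp only [add_top, top_le_iff] at h
    exact (ENNReal.mul_ne_top (by norm_num) hw) h
  lift u to NNReal using hu
  lift v to NNReal using hv
  lift w to NNReal using hw
  norm_cast at h ⊢
  have h' : (u : ℝ) + v ≤ 2 * w := by exact_mod_cast h
  have : (u : ℝ) * v ≤ w ^ 2 := by
    nlinarith [sq_nonneg ((u : ℝ) - v), u.coe_nonneg, v.coe_nonneg, w.coe_nonneg]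
  exact_mod_cast this

/-- bounded case -/
theorem m2_bdd (f g h : ℝ → ℝ≥0∞) (hf : Measurable f) (hg : Measurable g) (hh : Measurable h)
    (N : ℝ≥0∞) (hN : N ≠ ∞) (hfN : ∀ x, f x ≤ N) (hgN : ∀ x, g x ≤ N) (hhN : ∀ x, h x ≤ N)
    (hfg : ∀ x y, f x * g y ≤ (h ((1 / 2 : ℝ) * (x + y))) ^ 2) :
    (∫⁻ x, f x) * (∫⁻ x, g x) ≤ (∫⁻ x, h x) ^ 2 := by
  set a : ℝ≥0∞ := ⨆ x, f x with ha
  set b : ℝ≥0∞ := ⨆ x, g x with hb
  have haN : a ≤ N := iSup_le hfN
  have hbN : b ≤ N := iSup_le hgN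
  have hat : a ≠ ∞ := ne_top_of_le_ne_top hN haN
  have hbt : b ≠ ∞ := ne_top_of_le_ne_top hN hbN
  by_cases ha0 : a = 0
  · have : ∀ x, f x = 0 := fun x => le_antisymm (ha0 ▸ le_iSup f x) bot_le
    simp [this]
  by_cases hb0 : b = 0
  · have : ∀ x, g x = 0 := fun x => le_antisymm (hb0 ▸ le_iSup g x) bot_le
    simp [this]
  set A : ℝ := a.toReal with hA
  set B : ℝ := b.toReal with hB
  have hA0 : 0 < A := ENNReal.toReal_pos ha0 hat
  have hB0 : 0 < B := ENNReal.toReal_pos hb0 hbt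
  set S : ℝ := Real.sqrt (A * B) with hS
  have hS0 : 0 < S := Real.sqrt_pos.mpr (mul_pos hA0 hB0)
  have hS2 : S ^ 2 = A * B := Real.sq_sqrt (mul_pos hA0 hB0).le
  have hft : ∀ x, f x ≠ ∞ := fun x => ne_top_of_le_ne_top hN (hfN x)
  have hgt : ∀ x, g x ≠ ∞ := fun x => ne_top_of_le_ne_top hN (hgN x)
  have hht : ∀ x, h x ≠ ∞ := fun x => ne_top_of_le_ne_top hN (hhN x)
  have key := m2_real (fun x => (f x).toReal / A) (fun x => (g x).toReal / B)
    (fun x => (h x).toReal / S) (hf.ennreal_toReal.div_const _) (hg.ennreal_toReal.div_const _)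
    (hh.ennreal_toReal.div_const _) (fun x => by positivity) (fun x => by positivity)
    (fun x => by positivity)
    (fun x => by
      rw [div_le_one hA0]
      exact ENNReal.toReal_mono hat (le_iSup f x))
    (fun x => by
      rw [div_le_one hB0]
      exact ENNReal.toReal_mono hbt (le_iSup g x))
    (by
      intro t ht
      by_cases ht0 : t < 0
      · exact ⟨0, lt_of_lt_of_le ht0 (by positivity)⟩
      have h1 : ENNReal.ofReal (t * A) < a := by
        rw [ENNReal.ofReal_lt_iff_lt_toReal (by nlinarith [not_lt.mp ht0]) hat]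
        nlinarith
      obtain ⟨x, hx⟩ := lt_iSup_iff.mp h1
      refine ⟨x, ?_⟩
      rw [lt_div_iff₀ hA0]
      exact (ENNReal.ofReal_lt_iff_lt_toReal (by nlinarith [not_lt.mp ht0]) (hft x)).mp hx)
    (by
      intro t ht
      by_cases ht0 : t < 0
      · exact ⟨0, lt_of_lt_of_le ht0 (by positivity)⟩
      have h1 : ENNReal.ofReal (t * B) < b := by
        rw [ENNReal.ofReal_lt_iff_lt_toReal (by nlinarith [not_lt.mp ht0]) hbt]
        nlinarith
      obtain ⟨x, hx⟩ := lt_iSup_iff.mp h1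
      refine ⟨x, ?_⟩
      rw [lt_div_iff₀ hB0]
      exact (ENNReal.ofReal_lt_iff_lt_toReal (by nlinarith [not_lt.mp ht0]) (hgt x)).mp hx)
    (by
      intro x y
      have h1 := ENNReal.toReal_mono (ENNReal.pow_ne_top (hht _)) (hfg x y)
      rw [ENNReal.toReal_mul, ENNReal.toReal_pow] at h1
      rw [div_pow, hS2, div_mul_div_comm]
      exact div_le_div_of_nonneg_right h1 (mul_pos hA0 hB0).le)
  have conv : ∀ (k : ℝ → ℝ≥0∞) (hk : Measurable k) (hkt : ∀ x, k x ≠ ∞) (c : ℝ), 0 < c →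
      ∫⁻ x, ENNReal.ofReal ((k x).toReal / c) = ENNReal.ofReal (1 / c) * ∫⁻ x, k x := by
    intro k hk hkt c hc
    rw [← lintegral_const_mul _ hk]
    refine lintegral_congr (fun x => ?_)
    rw [div_eq_mul_one_div, mul_comm, ENNReal.ofReal_mul (by positivity),
      ENNReal.ofReal_toReal (hkt x)]
  rw [conv f hf hft A hA0, conv g hg hgt B hB0, conv h hh hht S hS0] at key
  have h2 := m2_amgm _ _ _ key
  have hS1 : ENNReal.ofReal (1 / S) ^ 2 = ENNReal.ofReal (1 / A) * ENNReal.ofReal (1 / B) := by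
    rw [← ENNReal.ofReal_pow (by positivity), ← ENNReal.ofReal_mul (by positivity)]
    congr 1
    rw [div_pow, hS2]
    field_simp
  have h3 : (ENNReal.ofReal (1 / A) * ENNReal.ofReal (1 / B)) * ((∫⁻ x, f x) * (∫⁻ x, g x))
      ≤ (ENNReal.ofReal (1 / A) * ENNReal.ofReal (1 / B)) * (∫⁻ x, h x) ^ 2 := by
    calc (ENNReal.ofReal (1 / A) * ENNReal.ofReal (1 / B)) * ((∫⁻ x, f x) * (∫⁻ x, g x))
        = (ENNReal.ofReal (1 / A) * ∫⁻ x, f x) * (ENNReal.ofReal (1 / B) * ∫⁻ x, g x) := by ring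
      _ ≤ (ENNReal.ofReal (1 / S) * ∫⁻ x, h x) ^ 2 := h2
      _ = _ := by rw [mul_pow, hS1]
  have hc0 : ENNReal.ofReal (1 / A) * ENNReal.ofReal (1 / B) ≠ 0 := by
    refine mul_ne_zero ?_ ?_ <;>
    · rw [Ne, ENNReal.ofReal_eq_zero, not_le]; positivity
  have hct : ENNReal.ofReal (1 / A) * ENNReal.ofReal (1 / B) ≠ ∞ :=
    ENNReal.mul_ne_top ENNReal.ofReal_ne_top ENNReal.ofReal_ne_top
  exact (ENNReal.mul_le_mul_iff_right hc0 hct).mp h3

theorem m2_trunc (f : ℝ → ℝ≥0∞) (hf : Measurable f) :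
    ∫⁻ x, f x = ⨆ n : ℕ, ∫⁻ x, min (f x) n := by
  rw [← lintegral_iSup (fun n => hf.min measurable_const)]
  · refine lintegral_congr (fun x => ?_)
    refine le_antisymm ?_ (iSup_le fun n => min_le_left _ _)
    rcases eq_or_ne (f x) ∞ with h | h
    · rw [h]
      simp [ENNReal.iSup_natCast]
    · obtain ⟨n, hn⟩ := ENNReal.exists_nat_gt h
      exact le_iSup_of_le n (le_min le_rfl hn.le)
  · intro m n hmn x
    exact min_le_min le_rfl (by exact_mod_cast hmn)

theorem midPL_volume : MidPL (volume : Measure ℝ) := by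
  intro f g h hf hg hh hfg
  rw [m2_trunc f hf, m2_trunc g hg, ENNReal.iSup_mul]
  refine iSup_le fun m => ?_
  rw [ENNReal.mul_iSup]
  refine iSup_le fun n => ?_
  set N := max m n with hN
  have h1 : ∫⁻ x, min (f x) m ≤ ∫⁻ x, min (f x) N :=
    lintegral_mono fun x => min_le_min le_rfl (by exact_mod_cast le_max_left m n)
  have h2 : ∫⁻ x, min (g x) n ≤ ∫⁻ x, min (g x) N :=
    lintegral_mono fun x => min_le_min le_rfl (by exact_mod_cast le_max_right m n)
  have h3 : ∫⁻ x, min (h x) N ≤ ∫⁻ x, h x := lintegral_mono fun x => min_le_left _ _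
  refine (mul_le_mul' h1 h2).trans (le_trans ?_ (pow_le_pow_left' h3 2))
  refine m2_bdd _ _ _ (hf.min measurable_const) (hg.min measurable_const)
    (hh.min measurable_const) N (ENNReal.natCast_ne_top N) (fun x => min_le_right _ _)
    (fun x => min_le_right _ _) (fun x => min_le_right _ _) ?_
  intro x y
  have h4 := hfg x y
  rw [smul_eq_mul] at h4
  rcases le_total (h ((1 / 2 : ℝ) * (x + y))) N with h5 | h5
  · rw [min_eq_left h5]
    exact (mul_le_mul' (min_le_left _ _) (min_le_left _ _)).trans h4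
  · rw [min_eq_right h5, pow_two]
    exact mul_le_mul' (min_le_right _ _) (min_le_right _ _)

end P262F
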