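import Vale.Agent.P262F.Defs
import Vale.Agent.P262F.M2

open MeasureTheory ProbabilityTheory
open scoped ENNReal BigOperators Pointwise

namespace P262F

theorem midPL_gaussianReal : MidPL (gaussianReal 0 1) := by
  intro f g h hf hg hh hfg
  have h1 : (gaussianReal 0 1) = volume.withDensity (gaussianPDF 0 1) :=
    gaussianReal_of_var_ne_zero 0 one_ne_zero
  rw [h1]
  rw [lintegral_withDensity_eq_lintegral_mul _ (measurable_gaussianPDF 0 1) hf,
    lintegral_withDensity_eq_lintegral_mul _ (measurable_gaussianPDF 0 1) hg,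
    lintegral_withDensity_eq_lintegral_mul _ (measurable_gaussianPDF 0 1) hh]
  apply midPL_volume _ _ _ ((measurable_gaussianPDF 0 1).mul hf)
    ((measurable_gaussianPDF 0 1).mul hg) ((measurable_gaussianPDF 0 1).mul hh)
  intro x y
  have hp : gaussianPDF 0 1 x * gaussianPDF 0 1 y
      ≤ (gaussianPDF 0 1 ((1 / 2 : ℝ) • (x + y))) ^ 2 := by
    simp only [gaussianPDF]
    rw [← ENNReal.ofReal_mul (gaussianPDFReal_nonneg _ _ _),
      ← ENNReal.ofReal_pow (gaussianPDFReal_nonneg _ _ _)]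
    apply ENNReal.ofReal_le_ofReal
    simp only [gaussianPDFReal]
    have hc : 0 ≤ (√(2 * Real.pi * ((1 : NNReal) : ℝ)))⁻¹ := by positivity
    have : Real.exp (-(x - 0) ^ 2 / (2 * ((1 : NNReal) : ℝ)))
        * Real.exp (-(y - 0) ^ 2 / (2 * ((1 : NNReal) : ℝ)))
        ≤ (Real.exp (-((1 / 2 : ℝ) • (x + y) - 0) ^ 2 / (2 * ((1 : NNReal) : ℝ)))) ^ 2 := by
      rw [← Real.exp_add, ← Real.exp_nat_mul]
      apply Real.exp_le_exp.2
      simp only [NNReal.coe_one, smul_eq_mul]
      nlinarith [sq_nonneg (x - y)]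
    calc _ = (√(2 * Real.pi * ((1 : NNReal) : ℝ)))⁻¹ ^ 2
          * (Real.exp (-(x - 0) ^ 2 / (2 * ((1 : NNReal) : ℝ)))
            * Real.exp (-(y - 0) ^ 2 / (2 * ((1 : NNReal) : ℝ)))) := by ring
      _ ≤ (√(2 * Real.pi * ((1 : NNReal) : ℝ)))⁻¹ ^ 2
          * (Real.exp (-((1 / 2 : ℝ) • (x + y) - 0) ^ 2 / (2 * ((1 : NNReal) : ℝ)))) ^ 2 :=
          mul_le_mul_of_nonneg_left this (by positivity)
      _ = _ := by ring
  simp only [Pi.mul_apply]
  calc gaussianPDF 0 1 x * f x * (gaussianPDF 0 1 y * g y)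
      = (gaussianPDF 0 1 x * gaussianPDF 0 1 y) * (f x * g y) := by ring
    _ ≤ (gaussianPDF 0 1 ((1 / 2 : ℝ) • (x + y))) ^ 2 * (h ((1 / 2 : ℝ) • (x + y))) ^ 2 :=
        mul_le_mul' hp (hfg x y)
    _ = _ := by ring

theorem midPL_prod {X Y : Type*} [MeasurableSpace X] [AddCommGroup X] [Module ℝ X]
    [MeasurableSpace Y] [AddCommGroup Y] [Module ℝ Y] (μ : Measure X) (ν : Measure Y)
    [SFinite μ] [SFinite ν] (hμ : MidPL μ) (hν : MidPL ν) : MidPL (μ.prod ν) := by
  intro f g h hf hg hh hfg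
  rw [lintegral_prod _ hf.aemeasurable, lintegral_prod _ hg.aemeasurable,
    lintegral_prod _ hh.aemeasurable]
  apply hμ _ _ _ hf.lintegral_prod_right' hg.lintegral_prod_right' hh.lintegral_prod_right'
  intro x x'
  apply hν _ _ _ (hf.comp measurable_prodMk_left) (hg.comp measurable_prodMk_left)
    (hh.comp measurable_prodMk_left)
  intro y y'
  exact hfg (x, y) (x', y')

/-- transport of MidPL -/
theorem MidPL.map {X Y : Type*} [MeasurableSpace X] [AddCommGroup X] [Module ℝ X]
    [MeasurableSpace Y] [AddCommGroup Y] [Module ℝ Y] {μ : Measure X} (hμ : MidPL μ)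
    (T : X → Y) (hT : Measurable T)
    (hmid : ∀ x y, T ((1 / 2 : ℝ) • (x + y)) = (1 / 2 : ℝ) • (T x + T y)) :
    MidPL (μ.map T) := by
  intro f g h hf hg hh hfg
  rw [lintegral_map hf hT, lintegral_map hg hT, lintegral_map hh hT]
  apply hμ _ _ _ (hf.comp hT) (hg.comp hT) (hh.comp hT)
  intro x y
  have := hfg (T x) (T y)
  rw [← hmid] at this
  exact this

theorem midPL_pi (n : ℕ) : MidPL (Measure.pi (fun _ : Fin n => gaussianReal 0 1)) := by
  induction n with
  | zero =>
    intro f g h hf hg hh hfg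
    rw [Measure.pi_of_empty (fun _ : Fin 0 => gaussianReal 0 1) (fun i => i.elim0)]
    rw [lintegral_dirac' _ hf, lintegral_dirac' _ hg, lintegral_dirac' _ hh]
    have := hfg (fun i => i.elim0) (fun i => i.elim0)
    have e : (1 / 2 : ℝ) • ((fun i => i.elim0 : Fin 0 → ℝ) + (fun i => i.elim0)) =
      (fun i => i.elim0 : Fin 0 → ℝ) := Subsingleton.elim _ _
    rw [e] at this
    exact this
  | succ n ih =>
    have h1 := (measurePreserving_piFinSuccAbove
      (fun _ : Fin (n + 1) => gaussianReal 0 1) 0).symm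
    have h2 := h1.map_eq
    rw [← h2]
    apply MidPL.map
    · exact midPL_prod _ _ midPL_gaussianReal ih
    · exact (MeasurableEquiv.piFinSuccAbove (fun _ => ℝ) 0).symm.measurable
    · intro x y
      ext i
      refine Fin.cases ?_ (fun j => ?_) i
      · simp [MeasurableEquiv.piFinSuccAbove]
        ring
      · simp [MeasurableEquiv.piFinSuccAbove]
        ring

theorem midPL_stdGaussian (E : Type*) [NormedAddCommGroup E] [InnerProductSpace ℝ E]
    [FiniteDimensional ℝ E] [MeasurableSpace E] [BorelSpace E] : MidPL (stdGaussian E) := by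
  rw [stdGaussian_eq_map_pi_orthonormalBasis (stdOrthonormalBasis ℝ E)]
  apply (midPL_pi _).map
  · fun_prop
  · intro x y
    simp only [Pi.smul_apply, Pi.add_apply, smul_eq_mul, ← Finset.sum_add_distrib, Finset.smul_sum]
    refine Finset.sum_congr rfl fun i _ => ?_
    module

end P262F
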