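import Vale.Agent.P262F.Defs

open MeasureTheory ProbabilityTheory
open scoped ENNReal BigOperators Pointwise

namespace P262F

theorem m4_deriv (x : ℝ) :
    HasDerivAt (fun v => -gaussianPDFReal 0 1 v) (x * gaussianPDFReal 0 1 x) x := by
  have h1 : (fun v => -gaussianPDFReal 0 1 v)
      = fun v => -((√(2 * Real.pi))⁻¹ * Real.exp (-v ^ 2 / 2)) := by
    funext v
    simp [gaussianPDFReal]
  have h2 : gaussianPDFReal 0 1 x = (√(2 * Real.pi))⁻¹ * Real.exp (-x ^ 2 / 2) := by
    simp [gaussianPDFReal]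
  rw [h1, h2]
  have h3 : HasDerivAt (fun v : ℝ => -v ^ 2 / 2) (-x) x := by
    have := ((hasDerivAt_id x).pow 2).neg.div_const 2
    refine this.congr_deriv ?_
    simp
    ring
  have h4 := ((h3.exp).const_mul ((√(2 * Real.pi))⁻¹)).neg
  refine h4.congr_deriv ?_
  ring

theorem m4_tendsto : Filter.Tendsto (fun v => -gaussianPDFReal 0 1 v) Filter.atTop (nhds 0) := by
  have h1 : (fun v => -gaussianPDFReal 0 1 v)
      = fun v => -((√(2 * Real.pi))⁻¹ * Real.exp (-(v ^ 2 / 2))) := by
    funext v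
    simp [gaussianPDFReal, neg_div]
  rw [h1]
  have h2 : Filter.Tendsto (fun v : ℝ => v ^ 2 / 2) Filter.atTop Filter.atTop :=
    (Filter.tendsto_pow_atTop (by norm_num)).atTop_div_const (by norm_num)
  have h3 := (Real.tendsto_exp_neg_atTop_nhds_zero.comp h2).const_mul ((√(2 * Real.pi))⁻¹)
  have h4 := h3.neg
  simpa using h4

theorem m4_pdf (s : ℝ) : ∫⁻ v in Set.Ioi |s|, ENNReal.ofReal (v * gaussianPDFReal 0 1 v)
    = gaussianPDF 0 1 s := by
  have hnn : ∀ x ∈ Set.Ioi |s|, 0 ≤ x * gaussianPDFReal 0 1 x := by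
    intro x hx
    have : 0 < x := lt_of_le_of_lt (abs_nonneg s) hx
    exact mul_nonneg this.le (gaussianPDFReal_nonneg _ _ _)
  have hint := integrableOn_Ioi_deriv_of_nonneg' (fun x _ => m4_deriv x) hnn m4_tendsto
  have hval := integral_Ioi_of_hasDerivAt_of_nonneg' (fun x _ => m4_deriv x) hnn m4_tendsto
  rw [← ofReal_integral_eq_lintegral_ofReal hint
    ((ae_restrict_iff' measurableSet_Ioi).2 (Filter.Eventually.of_forall hnn)), hval,
    gaussianPDF]
  congr 1
  simp [gaussianPDFReal]

/- one dimensional layer cake: the gaussian measure of a measurable set -/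
theorem gauss_layer (A : Set ℝ) (hA : MeasurableSet A) :
    gaussianReal 0 1 A = ∫⁻ v in Set.Ioi (0 : ℝ),
      ENNReal.ofReal (v * gaussianPDFReal 0 1 v) * volume (A ∩ Set.Icc (-v) v) := by
  rw [gaussianReal_apply 0 one_ne_zero A]
  have hm : Measurable (fun v : ℝ => ENNReal.ofReal (v * gaussianPDFReal 0 1 v)) := by
    fun_prop
  -- pointwise formula
  have h1 : ∀ s : ℝ, gaussianPDF 0 1 s = ∫⁻ v in Set.Ioi (0 : ℝ),
      ({p : ℝ × ℝ | |p.1| < p.2}.indicator
        (fun p => ENNReal.ofReal (p.2 * gaussianPDFReal 0 1 p.2))) (s, v) := by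
    intro s
    rw [← m4_pdf s]
    have e : (fun v : ℝ => ({p : ℝ × ℝ | |p.1| < p.2}.indicator
        (fun p => ENNReal.ofReal (p.2 * gaussianPDFReal 0 1 p.2))) (s, v))
        = (Set.Ioi |s|).indicator (fun v => ENNReal.ofReal (v * gaussianPDFReal 0 1 v)) := by
      funext v
      by_cases h : |s| < v
      · rw [Set.indicator_of_mem (show v ∈ Set.Ioi |s| from h),
          Set.indicator_of_mem (show (s, v) ∈ {p : ℝ × ℝ | |p.1| < p.2} from h)]
      · rw [Set.indicator_of_notMem (show v ∉ Set.Ioi |s| from h),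
          Set.indicator_of_notMem (show (s, v) ∉ {p : ℝ × ℝ | |p.1| < p.2} from h)]
    rw [e, lintegral_indicator measurableSet_Ioi, Measure.restrict_restrict measurableSet_Ioi]
    congr 2
    ext v
    simp only [Set.mem_Ioi, Set.mem_inter_iff]
    exact ⟨fun h => ⟨h, (abs_nonneg s).trans_lt h⟩, fun h => h.1⟩
  have hset : MeasurableSet {p : ℝ × ℝ | |p.1| < p.2} :=
    (isOpen_lt (by fun_prop) (by fun_prop)).measurableSet
  have hF : Measurable ({p : ℝ × ℝ | |p.1| < p.2}.indicator
        (fun p => ENNReal.ofReal (p.2 * gaussianPDFReal 0 1 p.2))) :=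
    (hm.comp measurable_snd).indicator hset
  calc ∫⁻ x in A, gaussianPDF 0 1 x
      = ∫⁻ x in A, ∫⁻ v in Set.Ioi (0 : ℝ),
      ({p : ℝ × ℝ | |p.1| < p.2}.indicator
        (fun p => ENNReal.ofReal (p.2 * gaussianPDFReal 0 1 p.2))) (x, v) := by
        simp_rw [h1]
    _ = ∫⁻ v in Set.Ioi (0 : ℝ), ∫⁻ x in A,
      ({p : ℝ × ℝ | |p.1| < p.2}.indicator
        (fun p => ENNReal.ofReal (p.2 * gaussianPDFReal 0 1 p.2))) (x, v) :=
        lintegral_lintegral_swap hF.aemeasurable
    _ = _ := by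
        refine lintegral_congr fun v => ?_
        have e : (fun x : ℝ => ({p : ℝ × ℝ | |p.1| < p.2}.indicator
          (fun p => ENNReal.ofReal (p.2 * gaussianPDFReal 0 1 p.2))) (x, v))
          = (Set.Ioo (-v) v).indicator
            (fun _ => ENNReal.ofReal (v * gaussianPDFReal 0 1 v)) := by
          funext x
          by_cases h : |x| < v
          · rw [Set.indicator_of_mem (show x ∈ Set.Ioo (-v) v from abs_lt.1 h),
              Set.indicator_of_mem (show (x, v) ∈ {p : ℝ × ℝ | |p.1| < p.2} from h)]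
          · rw [Set.indicator_of_notMem (show x ∉ Set.Ioo (-v) v from
                fun h' => h (abs_lt.2 h')),
              Set.indicator_of_notMem (show (x, v) ∉ {p : ℝ × ℝ | |p.1| < p.2} from h)]
        rw [e, lintegral_indicator measurableSet_Ioo, setLIntegral_const,
          Measure.restrict_apply measurableSet_Ioo]
        congr 1
        rw [Set.inter_comm]
        exact measure_congr (Filter.EventuallyEq.rfl.inter Ioo_ae_eq_Icc)

end P262F
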