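import Vale.Agent.P262F.Defs

open MeasureTheory ProbabilityTheory
open scoped ENNReal BigOperators Pointwise

namespace P262F

/-! ### one dimensional chords -/

theorem m5_icc {A : Set ℝ} (hA : IsClosed A) (hAc : Convex ℝ A) {v : ℝ}
    (hne : (A ∩ Set.Icc (-v) v).Nonempty) :
    ∃ p q : ℝ, p ≤ q ∧ -v ≤ p ∧ q ≤ v ∧ A ∩ Set.Icc (-v) v = Set.Icc p q := by
  have hcomp : IsCompact (A ∩ Set.Icc (-v) v) := isCompact_Icc.inter_left hA
  have hconv : Convex ℝ (A ∩ Set.Icc (-v) v) := hAc.inter (convex_Icc _ _)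
  have hconn : IsConnected (A ∩ Set.Icc (-v) v) := ⟨hne, hconv.isPreconnected⟩
  have h := eq_Icc_of_connected_compact hconn hcomp
  refine ⟨sInf (A ∩ Set.Icc (-v) v), sSup (A ∩ Set.Icc (-v) v), ?_, ?_, ?_, h⟩
  · rw [h] at hne
    exact Set.nonempty_Icc.1 hne
  · have h1 : sInf (A ∩ Set.Icc (-v) v) ∈ A ∩ Set.Icc (-v) v := hcomp.sInf_mem hne
    exact h1.2.1
  · have h1 : sSup (A ∩ Set.Icc (-v) v) ∈ A ∩ Set.Icc (-v) v := hcomp.sSup_mem hne
    exact h1.2.2

theorem m5_mem_Icc {A : Set ℝ} (hAc : Convex ℝ A) {a b s : ℝ} (ha : a ∈ A) (hb : b ∈ A)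
    (h1 : a ≤ s) (h2 : s ≤ b) : s ∈ A := by
  have := hAc.segment_subset ha hb
  rw [segment_eq_Icc (h1.trans h2)] at this
  exact this ⟨h1, h2⟩

/-- the fattened chord -/
def m5_B (A : Set ℝ) (δ : ℝ) : Set ℝ :=
  {s | ∃ t : ℝ, t ∈ Set.Icc (-1 : ℝ) 3 ∧ s - t * δ ∈ A ∧ s + (2 - t) * δ ∈ A}

theorem m5_B_of {A : Set ℝ} {δ : ℝ} (hδ : 0 < δ) {a s : ℝ} (ha : a ∈ A) (ha2 : a + 2 * δ ∈ A)
    (h1 : a - δ ≤ s) (h2 : s ≤ a + 3 * δ) : s ∈ m5_B A δ := by
  refine ⟨(s - a) / δ, ⟨?_, ?_⟩, ?_, ?_⟩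
  · rw [le_div_iff₀ hδ]; linarith
  · rw [div_le_iff₀ hδ]; linarith
  · have : s - (s - a) / δ * δ = a := by field_simp; ring
    rw [this]; exact ha
  · have : s + (2 - (s - a) / δ) * δ = a + 2 * δ := by field_simp; ring
    rw [this]; exact ha2

theorem m5_sub_B {A : Set ℝ} (hAc : Convex ℝ A) {δ : ℝ} (hδ : 0 < δ)
    (hlong : ∃ s, s ∈ A ∧ s + 2 * δ ∈ A) : A ⊆ m5_B A δ := by
  obtain ⟨a0, h1, h2⟩ := hlong
  intro s hs
  rcases le_total s a0 with h | h
  · exact m5_B_of hδ hs (m5_mem_Icc hAc hs h2 (by linarith) (by linarith)) (by linarith)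
      (by linarith)
  · rcases le_total s (a0 + 2 * δ) with h' | h'
    · exact m5_B_of hδ h1 h2 (by linarith) (by linarith)
    · have h3 : s - 2 * δ ∈ A := m5_mem_Icc hAc h1 hs (by linarith) (by linarith)
      refine m5_B_of hδ h3 ?_ (by linarith) (by linarith)
      have : s - 2 * δ + 2 * δ = s := by ring
      rw [this]; exact hs

theorem m5_icc_sub_B {A : Set ℝ} (hAc : Convex ℝ A) {δ : ℝ} (hδ : 0 < δ) {p q : ℝ}
    (hp : p ∈ A) (hq : q ∈ A) (hpq : 2 * δ ≤ q - p) : Set.Icc (p - δ) (q + δ) ⊆ m5_B A δ := by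
  rintro s ⟨h1, h2⟩
  rcases le_total (s - δ) p with h | h
  · exact m5_B_of hδ hp (m5_mem_Icc hAc hp hq (by linarith) (by linarith)) h1 (by linarith)
  · rcases le_total (s - δ) (q - 2 * δ) with h' | h'
    · exact m5_B_of hδ (m5_mem_Icc hAc hp hq h (by linarith))
        (m5_mem_Icc hAc hp hq (by linarith) (by linarith)) (by linarith) (by linarith)
    · refine m5_B_of hδ (m5_mem_Icc hAc hp hq (by linarith : p ≤ q - 2 * δ) (by linarith))
        ?_ (by linarith) (by linarith)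
      have : q - 2 * δ + 2 * δ = q := by ring
      rw [this]; exact hq

/-- length of the chord -/
noncomputable def m5_len (A : Set ℝ) (v : ℝ) : ℝ≥0∞ := volume (A ∩ Set.Icc (-v) v)

theorem m5_len_zero_or {A : Set ℝ} (hA : IsClosed A) (hAc : Convex ℝ A) (v : ℝ) :
    (A ∩ Set.Icc (-v) v = ∅ ∧ m5_len A v = 0) ∨
    ∃ p q : ℝ, p ≤ q ∧ -v ≤ p ∧ q ≤ v ∧ A ∩ Set.Icc (-v) v = Set.Icc p q ∧ p ∈ A ∧ q ∈ A ∧
      m5_len A v = ENNReal.ofReal (q - p) := by
  rcases Set.eq_empty_or_nonempty (A ∩ Set.Icc (-v) v) with h | h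
  · left
    refine ⟨h, ?_⟩
    unfold m5_len; rw [h]; simp
  · right
    obtain ⟨p, q, h1, h2, h3, h4⟩ := m5_icc hA hAc h
    have hp : p ∈ A ∩ Set.Icc (-v) v := by rw [h4]; exact ⟨le_rfl, h1⟩
    have hq : q ∈ A ∩ Set.Icc (-v) v := by rw [h4]; exact ⟨h1, le_rfl⟩
    refine ⟨p, q, h1, h2, h3, h4, hp.1, hq.1, ?_⟩
    unfold m5_len; rw [h4, Real.volume_Icc]

/-- P2 -/
theorem m5_gain {A : Set ℝ} (hA : IsClosed A) (hAc : Convex ℝ A) {δ v : ℝ} (hδ : 0 < δ)
    (hδ' : δ ≤ 1 / 32) (hv : 1 ≤ v) (h1 : ENNReal.ofReal ((1 / 2 : ℝ) ^ 4) ≤ m5_len A v)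
    (h2 : m5_len A v < 1) :
    (∃ s, s ∈ A ∧ s + 2 * δ ∈ A) ∧ m5_len A v + ENNReal.ofReal δ ≤ m5_len (m5_B A δ) v := by
  rcases m5_len_zero_or hA hAc v with ⟨_, h⟩ | ⟨p, q, hpq, hp, hq, hI, hpA, hqA, hlen⟩
  · rw [h] at h1
    have : (0 : ℝ≥0∞) < ENNReal.ofReal ((1 / 2 : ℝ) ^ 4) := by
      rw [ENNReal.ofReal_pos]; norm_num
    exact absurd h1 (not_le.2 this)
  · rw [hlen] at h1 h2
    have hl1 : (1 / 2 : ℝ) ^ 4 ≤ q - p := (ENNReal.ofReal_le_ofReal_iff (by linarith)).1 h1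
    have hl2 : q - p < 1 := by
      rw [← ENNReal.ofReal_one, ENNReal.ofReal_lt_ofReal_iff one_pos] at h2
      exact h2
    have hl3 : 2 * δ ≤ q - p := by
      have : (1 / 2 : ℝ) ^ 4 = 1 / 16 := by norm_num
      rw [this] at hl1; linarith
    refine ⟨⟨p, hpA, m5_mem_Icc hAc hpA hqA (by linarith) (by linarith)⟩, ?_⟩
    rw [hlen, ← ENNReal.ofReal_add (by linarith) hδ.le]
    have hsub : Set.Icc (max (p - δ) (-v)) (min (q + δ) v) ⊆ m5_B A δ ∩ Set.Icc (-v) v := by
      rintro s ⟨a1, a2⟩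
      rw [max_le_iff] at a1
      rw [le_min_iff] at a2
      exact ⟨m5_icc_sub_B hAc hδ hpA hqA hl3 ⟨a1.1, a2.1⟩, a1.2, a2.2⟩
    unfold m5_len
    refine le_trans ?_ (measure_mono hsub)
    rw [Real.volume_Icc]
    refine ENNReal.ofReal_le_ofReal ?_
    rcases le_total δ (p + v) with h | h
    · have e1 : max (p - δ) (-v) = p - δ := max_eq_left (by linarith)
      have e2 : q ≤ min (q + δ) v := le_min (by linarith) hq
      rw [e1]; linarith
    · have e1 : min (q + δ) v = q + δ := min_eq_left (by linarith)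
      have e2 : max (p - δ) (-v) ≤ p := max_le (by linarith) hp
      rw [e1]; linarith

/-- P1 -/
theorem m5_mono {A : Set ℝ} (hAc : Convex ℝ A) {δ v : ℝ} (hδ : 0 < δ)
    (hlong : ∃ s, s ∈ A ∧ s + 2 * δ ∈ A) : m5_len A v ≤ m5_len (m5_B A δ) v :=
  measure_mono (Set.inter_subset_inter_left _ (m5_sub_B hAc hδ hlong))

/-- P3 -/
theorem m5_short {A : Set ℝ} (hA : IsClosed A) (hAc : Convex ℝ A) {δ v : ℝ} (hδ : 0 < δ)
    (hshort : ¬ ∃ s, s ∈ A ∧ s + 2 * δ ∈ A) : m5_len A v ≤ ENNReal.ofReal (2 * δ) := by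
  rcases m5_len_zero_or hA hAc v with ⟨_, h⟩ | ⟨p, q, hpq, hp, hq, hI, hpA, hqA, hlen⟩
  · rw [h]; exact zero_le
  · rw [hlen]
    refine ENNReal.ofReal_le_ofReal ?_
    by_contra hcon
    push Not at hcon
    exact hshort ⟨p, hpA, m5_mem_Icc hAc hpA hqA (by linarith) (by linarith)⟩

/-- long chords of length at least 1 -/
theorem m5_long_of_one {A : Set ℝ} (hA : IsClosed A) (hAc : Convex ℝ A) {δ v : ℝ} (hδ : 0 < δ)
    (hδ' : δ ≤ 1 / 32) (h1 : 1 ≤ m5_len A v) : ∃ s, s ∈ A ∧ s + 2 * δ ∈ A := by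
  by_contra hcon
  have h2 := m5_short (v := v) hA hAc hδ hcon
  have h3 : (1 : ℝ≥0∞) ≤ ENNReal.ofReal (2 * δ) := h1.trans h2
  rw [← ENNReal.ofReal_one, ENNReal.ofReal_le_ofReal_iff (by linarith)] at h3
  linarith

/-! ### gaussian half lines -/

theorem m5_pdf_le (x : ℝ) : gaussianPDFReal 0 1 x ≤ 1 / 2 := by
  unfold gaussianPDFReal
  have h1 : Real.exp (-(x - 0) ^ 2 / (2 * ((1 : NNReal) : ℝ))) ≤ 1 := by
    rw [Real.exp_le_one_iff]
    have : 0 ≤ (x - 0) ^ 2 := sq_nonneg _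
    have h2 : (0 : ℝ) < 2 * ((1 : NNReal) : ℝ) := by simp
    exact div_nonpos_of_nonpos_of_nonneg (by linarith) h2.le
  have h2 : (√(2 * Real.pi * ((1 : NNReal) : ℝ)))⁻¹ ≤ 1 / 2 := by
    rw [inv_le_comm₀ (Real.sqrt_pos.2 (by simp [Real.pi_pos])) (by norm_num)]
    apply Real.le_sqrt_of_sq_le
    have := Real.pi_gt_three
    push_cast
    nlinarith
  calc _ ≤ 1 / 2 * 1 := mul_le_mul h2 h1 (Real.exp_pos _).le (by norm_num)
    _ = 1 / 2 := by ring

theorem m5_gauss_mid : gaussianReal 0 1 (Set.Icc (-(1 / 2) : ℝ) (1 / 2)) ≤ ENNReal.ofReal (1 / 2) := by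
  rw [gaussianReal_apply 0 one_ne_zero]
  calc ∫⁻ x in Set.Icc (-(1 / 2) : ℝ) (1 / 2), gaussianPDF 0 1 x
      ≤ ∫⁻ _x in Set.Icc (-(1 / 2) : ℝ) (1 / 2), ENNReal.ofReal (1 / 2) := by
        refine lintegral_mono fun x => ?_
        exact ENNReal.ofReal_le_ofReal (m5_pdf_le x)
    _ = ENNReal.ofReal (1 / 2) := by
        rw [setLIntegral_const, Real.volume_Icc]
        have : (1 / 2 - -(1 / 2) : ℝ) = 1 := by norm_num
        rw [this, ENNReal.ofReal_one, mul_one]

theorem m5_gauss_symm : gaussianReal 0 1 (Set.Iio (-(1 / 2) : ℝ)) =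
    gaussianReal 0 1 (Set.Ioi (1 / 2 : ℝ)) := by
  have h := gaussianReal_map_neg (μ := 0) (v := 1)
  rw [neg_zero] at h
  conv_lhs => rw [← h]
  rw [Measure.map_apply (by fun_prop) measurableSet_Iio]
  congr 1
  ext x
  simp only [Set.mem_preimage, Set.mem_Iio, Set.mem_Ioi]
  constructor <;> intro h <;> linarith

theorem m5_gauss_half {A : Set ℝ} (hA : A ⊆ Set.Iio (1 / 2) ∨ A ⊆ Set.Ioi (-(1 / 2))) :
    gaussianReal 0 1 A ≤ ENNReal.ofReal (3 / 4) := by
  set a := gaussianReal 0 1 (Set.Ioi (1 / 2 : ℝ)) with ha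
  set m := gaussianReal 0 1 (Set.Icc (-(1 / 2) : ℝ) (1 / 2)) with hm
  have htot : a + a + m = 1 := by
    have h1 : (1 : ℝ≥0∞) = gaussianReal 0 1 (Set.univ : Set ℝ) := measure_univ.symm
    have hU : (Set.univ : Set ℝ) = (Set.Iio (-(1 / 2)) ∪ Set.Icc (-(1 / 2)) (1 / 2)) ∪
        Set.Ioi (1 / 2) := by
      rw [Set.Iio_union_Icc_eq_Iic (by norm_num), Set.Iic_union_Ioi]
    rw [h1, hU, measure_union _ measurableSet_Ioi, measure_union _ measurableSet_Icc, m5_gauss_symm,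
      ← ha, ← hm]
    · ring
    · rw [Set.disjoint_left]; rintro x hx ⟨h, _⟩; exact absurd hx (not_lt.2 h)
    · rw [Set.disjoint_left]
      rintro x (hx | hx) hx'
      · simp only [Set.mem_Iio, Set.mem_Ioi] at hx hx'; linarith
      · simp only [Set.mem_Icc, Set.mem_Ioi] at hx hx'; linarith
  have hmle := m5_gauss_mid
  rw [← hm] at hmle
  have hafin : a ≠ ∞ := measure_ne_top _ _
  have hmfin : m ≠ ∞ := measure_ne_top _ _
  have key : a + m ≤ ENNReal.ofReal (3 / 4) := by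
    have h1 : (a + a + m).toReal = 1 := by rw [htot]; simp
    rw [ENNReal.toReal_add (by simp [hafin]) hmfin, ENNReal.toReal_add hafin hafin] at h1
    have h2 : m.toReal ≤ 1 / 2 := by
      have := ENNReal.toReal_mono (by simp) hmle
      rwa [ENNReal.toReal_ofReal (by norm_num)] at this
    have h3 : (a + m).toReal ≤ 3 / 4 := by
      rw [ENNReal.toReal_add hafin hmfin]; linarith
    rw [← ENNReal.ofReal_toReal (a := a + m) (by simp [hafin, hmfin])]
    exact ENNReal.ofReal_le_ofReal h3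
  refine le_trans ?_ key
  rcases hA with hA | hA
  · have hsub : A ⊆ Set.Iio (-(1 / 2)) ∪ Set.Icc (-(1 / 2)) (1 / 2) := by
      intro x hx
      have := hA hx
      simp only [Set.mem_Iio] at this
      rcases lt_or_ge x (-(1 / 2)) with h | h
      · exact Or.inl h
      · exact Or.inr ⟨h, this.le⟩
    refine (measure_mono hsub).trans ((measure_union_le _ _).trans ?_)
    rw [m5_gauss_symm]
  · have hsub : A ⊆ Set.Ioi (1 / 2) ∪ Set.Icc (-(1 / 2)) (1 / 2) := by
      intro x hx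
      have := hA hx
      simp only [Set.mem_Ioi] at this
      rcases lt_or_ge (1 / 2) x with h | h
      · exact Or.inl h
      · exact Or.inr ⟨this.le, h⟩
    exact (measure_mono hsub).trans (measure_union_le _ _)

/-- P5 -/
theorem m5_gauss_small {A : Set ℝ} (hAc : Convex ℝ A) {v : ℝ} (hv : 1 ≤ v)
    (h : m5_len A v < 1) : gaussianReal 0 1 A ≤ ENNReal.ofReal (3 / 4) := by
  have h1 : ∃ c ∈ Set.Icc (-(1 / 2) : ℝ) (1 / 2), c ∉ A := by
    by_contra hcon
    push Not at hcon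
    have hsub : Set.Icc (-(1 / 2) : ℝ) (1 / 2) ⊆ A ∩ Set.Icc (-v) v := by
      intro x hx
      exact ⟨hcon x hx, by linarith [hx.1], by linarith [hx.2]⟩
    have h2 := measure_mono (μ := volume) hsub
    rw [Real.volume_Icc] at h2
    have : (1 / 2 - -(1 / 2) : ℝ) = 1 := by norm_num
    rw [this, ENNReal.ofReal_one] at h2
    exact absurd h (not_lt.2 h2)
  obtain ⟨c, ⟨hc1, hc2⟩, hc⟩ := h1
  apply m5_gauss_half
  by_contra hcon
  push Not at hcon
  obtain ⟨h3, h4⟩ := hcon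
  rw [Set.not_subset] at h3 h4
  obtain ⟨x, hx, hx'⟩ := h3
  obtain ⟨y, hy, hy'⟩ := h4
  simp only [Set.mem_Iio, not_lt, Set.mem_Ioi] at hx' hy'
  exact hc (m5_mem_Icc hAc hy hx (by linarith) (by linarith))

/-! ### sections -/

section slab
variable {F : Type*} [NormedAddCommGroup F] [NormedSpace ℝ F]

/-- vertical section -/
def m5_sec (K : Set (F × ℝ)) (y : F) : Set ℝ := {s | (y, s) ∈ K}

omit [NormedSpace ℝ F] in
theorem m5_sec_closed {K : Set (F × ℝ)} (hK : IsClosed K) (y : F) : IsClosed (m5_sec K y) :=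
  hK.preimage (by fun_prop : Continuous fun s : ℝ => (y, s))

theorem m5_comb {K : Set (F × ℝ)} (hKc : Convex ℝ K) {y y' : F} {s s' : ℝ}
    (h : s ∈ m5_sec K y) (h' : s' ∈ m5_sec K y') :
    (s + s') / 2 ∈ m5_sec K ((1 / 2 : ℝ) • (y + y')) := by
  have h1 := hKc h h' (by norm_num : (0 : ℝ) ≤ 1 / 2) (by norm_num : (0 : ℝ) ≤ 1 / 2)
    (by norm_num)
  have h2 : (1 / 2 : ℝ) • ((y, s) : F × ℝ) + (1 / 2 : ℝ) • ((y', s') : F × ℝ)
      = ((1 / 2 : ℝ) • (y + y'), (s + s') / 2) := by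
    ext
    · simp [smul_add]
    · simp; ring
  rw [h2] at h1
  exact h1

theorem m5_sec_convex {K : Set (F × ℝ)} (hKc : Convex ℝ K) (y : F) : Convex ℝ (m5_sec K y) := by
  intro s hs t ht a b ha hb hab
  have h1 := hKc hs ht ha hb hab
  have h2 : a • ((y, s) : F × ℝ) + b • ((y, t) : F × ℝ) = (y, a • s + b • t) := by
    ext
    · simp [← add_smul, hab]
    · simp
  rw [h2] at h1
  exact h1

/-- P4 -/
theorem m5_P4 {K : Set (F × ℝ)} (hK : IsClosed K) (hKc : Convex ℝ K) {v c : ℝ} (hc : 0 < c)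
    {y y' : F} (hy : 0 < m5_len (m5_sec K y) v)
    (hy' : ENNReal.ofReal c ≤ m5_len (m5_sec K y') v) :
    ENNReal.ofReal (c / 2) ≤ m5_len (m5_sec K ((1 / 2 : ℝ) • (y + y'))) v := by
  rcases m5_len_zero_or (m5_sec_closed hK y) (m5_sec_convex hKc y) v with
    ⟨_, h⟩ | ⟨p, q, hpq, hp, hq, hI, hpA, hqA, hlen⟩
  · rw [h] at hy; exact absurd hy (lt_irrefl _)
  rcases m5_len_zero_or (m5_sec_closed hK y') (m5_sec_convex hKc y') v with
    ⟨_, h⟩ | ⟨p', q', hpq', hp', hq', hI', hpA', hqA', hlen'⟩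
  · rw [h] at hy'
    have : (0 : ℝ≥0∞) < ENNReal.ofReal c := by rw [ENNReal.ofReal_pos]; exact hc
    exact absurd hy' (not_le.2 this)
  rw [hlen'] at hy'
  have hl : c ≤ q' - p' := (ENNReal.ofReal_le_ofReal_iff (by linarith)).1 hy'
  have h1 := m5_comb hKc hpA hpA'
  have h2 := m5_comb hKc hqA hqA'
  have hsub : Set.Icc ((p + p') / 2) ((q + q') / 2) ⊆
      m5_sec K ((1 / 2 : ℝ) • (y + y')) ∩ Set.Icc (-v) v := by
    rintro s ⟨a1, a2⟩
    exact ⟨m5_mem_Icc (m5_sec_convex hKc _) h1 h2 a1 a2, by linarith, by linarith⟩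
  have h3 := measure_mono (μ := volume) hsub
  rw [Real.volume_Icc] at h3
  exact (ENNReal.ofReal_le_ofReal (by linarith)).trans h3

theorem m5_ban_sec (K : Set (F × ℝ)) (δ : ℝ) (y : F) :
    m5_sec (ban K ((0, δ) : F × ℝ)) y = m5_B (m5_sec K y) δ := by
  ext s
  simp only [m5_sec, ban, m5_B, Set.mem_ofPred_eq]
  refine exists_congr fun t => and_congr_right fun _ => ?_
  simp

omit [NormedSpace ℝ F] in
theorem m5_meas [MeasurableSpace F] [BorelSpace F] [SecondCountableTopology F]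
    {K : Set (F × ℝ)} (hK : IsClosed K) (v : ℝ) :
    Measurable fun y => m5_len (m5_sec K y) v := by
  have hm : MeasurableSet (K ∩ {p : F × ℝ | p.2 ∈ Set.Icc (-v) v}) :=
    hK.measurableSet.inter (measurable_snd measurableSet_Icc)
  exact measurable_measure_prodMk_left hm

theorem m5_PL [MeasurableSpace F] [BorelSpace F] [SecondCountableTopology F]
    (μ : Measure F) (hμ : MidPL μ) {K : Set (F × ℝ)} (hK : IsClosed K) (hKc : Convex ℝ K)
    {v c : ℝ} (hc : 0 < c) :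
    μ {y | 0 < m5_len (m5_sec K y) v} * μ {y | ENNReal.ofReal c ≤ m5_len (m5_sec K y) v}
      ≤ (μ {y | ENNReal.ofReal (c / 2) ≤ m5_len (m5_sec K y) v}) ^ 2 := by
  have hm := m5_meas hK v
  have h0 : MeasurableSet {y | 0 < m5_len (m5_sec K y) v} := measurableSet_lt measurable_const hm
  have hQ : ∀ c : ℝ, MeasurableSet {y | ENNReal.ofReal c ≤ m5_len (m5_sec K y) v} := fun c =>
    measurableSet_le measurable_const hm
  have h := hμ (Set.indicator {y | 0 < m5_len (m5_sec K y) v} 1)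
    (Set.indicator {y | ENNReal.ofReal c ≤ m5_len (m5_sec K y) v} 1)
    (Set.indicator {y | ENNReal.ofReal (c / 2) ≤ m5_len (m5_sec K y) v} 1)
    (measurable_one.indicator h0) (measurable_one.indicator (hQ c))
    (measurable_one.indicator (hQ (c / 2))) (by
      intro x y
      by_cases h1 : 0 < m5_len (m5_sec K x) v
      · by_cases h2 : ENNReal.ofReal c ≤ m5_len (m5_sec K y) v
        · have h3 := m5_P4 hK hKc hc h1 h2
          rw [Set.indicator_of_mem (by exact h1), Set.indicator_of_mem (by exact h2),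
            Set.indicator_of_mem (by exact h3)]
          simp
        · rw [Set.indicator_of_notMem (s := {y | ENNReal.ofReal c ≤ m5_len (m5_sec K y) v})
            (by exact h2)]
          simp
      · rw [Set.indicator_of_notMem (s := {y | 0 < m5_len (m5_sec K y) v}) (by exact h1)]
        simp)
  rwa [lintegral_indicator_one h0, lintegral_indicator_one (hQ c),
    lintegral_indicator_one (hQ (c / 2))] at h

end slab

/-! ### numbers -/

theorem m5_step {p q q' : ℝ} (hp : 0 < p) (hp1 : p ≤ 1) (hq : 1 / 2 ≤ q) (hq' : 0 ≤ q')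
    (hqp' : q' ≤ p) (h : p * q ≤ q' ^ 2) : 17 * (p - q') ≤ 10 * (p - q) := by
  have h1 : p * p / 2 ≤ q' ^ 2 := by nlinarith
  have h2 : 7 / 10 * p ≤ q' := by
    by_contra hcon
    push Not at hcon
    have : q' ^ 2 < (7 / 10 * p) ^ 2 := by
      apply pow_lt_pow_left₀ hcon hq' (by norm_num)
    nlinarith
  have h3 : (p - q') * (p + q') ≤ p * (p - q) := by nlinarith
  have h4 : (p - q') * (17 / 10 * p) ≤ (p - q') * (p + q') :=
    mul_le_mul_of_nonneg_left (by linarith) (by linarith)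
  have h5 : p * (17 * (p - q')) ≤ p * (10 * (p - q)) := by nlinarith
  exact le_of_mul_le_mul_left h5 hp

theorem m5_num {p : ℝ} {q : ℕ → ℝ} (hp1 : p ≤ 1) (hq0 : 1 / 2 ≤ q 0) (hmono : Monotone q)
    (hqp : ∀ j, q j ≤ p) (h : ∀ j, p * q j ≤ q (j + 1) ^ 2) : 4 * (p - q 4) ≤ q 4 - q 0 := by
  have hq : ∀ j, 1 / 2 ≤ q j := fun j => hq0.trans (hmono (Nat.zero_le j))
  have hp : 0 < p := by have := hqp 0; linarith
  have hs : ∀ j, 17 * (p - q (j + 1)) ≤ 10 * (p - q j) := fun j =>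
    m5_step hp hp1 (hq j) (by have := hq (j + 1); linarith) (hqp _) (h j)
  have h0 := hs 0
  have h1 := hs 1
  have h2 := hs 2
  have h3 := hs 3
  have e1 : (0 + 1 : ℕ) = 1 := rfl
  have e2 : (1 + 1 : ℕ) = 2 := rfl
  have e3 : (2 + 1 : ℕ) = 3 := rfl
  have e4 : (3 + 1 : ℕ) = 4 := rfl
  rw [e1] at h0
  rw [e2] at h1
  rw [e3] at h2
  rw [e4] at h3
  have := hqp 0
  linarith

theorem m5_le_prod {α β : Type*} [MeasurableSpace α] [MeasurableSpace β] (μ : Measure α)
    (ν : Measure β) [SFinite ν] (s : Set (α × β)) :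
    ∫⁻ x, ν (Prod.mk x ⁻¹' s) ∂μ ≤ (μ.prod ν) s := by
  rw [← measure_toMeasurable s, Measure.prod_apply (measurableSet_toMeasurable _ _)]
  exact lintegral_mono fun x => measure_mono (Set.preimage_mono (subset_toMeasurable _ _))

open Classical in
theorem slab_ineq {F : Type*} [NormedAddCommGroup F] [NormedSpace ℝ F] [MeasurableSpace F]
    [BorelSpace F] [SecondCountableTopology F]
    (μ : Measure F) [IsProbabilityMeasure μ] (hμ : MidPL μ)
    (K : Set (F × ℝ)) (hK : IsClosed K) (hKc : Convex ℝ K)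
    (hKm : ENNReal.ofReal (7 / 8) ≤ (μ.prod (gaussianReal 0 1)) K)
    (δ : ℝ) (hδ0 : 0 < δ) (hδ : δ ≤ 1 / 32) (v : ℝ) (hv : 1 ≤ v) :
    (μ.prod volume) (K ∩ {p | p.2 ∈ Set.Icc (-v) v})
      + ∫⁻ y, (if ∃ s, (y, s) ∈ K ∧ (y, s + 2 * δ) ∈ K then 0
          else volume ({s : ℝ | (y, s) ∈ K} ∩ Set.Icc (-v) v)) ∂μ
      ≤ (μ.prod volume) (ban K ((0, δ) : F × ℝ) ∩ {p | p.2 ∈ Set.Icc (-v) v}) := by
  have hm := m5_meas hK v
  set L : F → ℝ≥0∞ := fun y => m5_len (m5_sec K y) v with hL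
  set P0 : Set F := {y | 0 < L y} with hP0
  set Q : ℕ → Set F := fun j => {y | ENNReal.ofReal ((1 / 2 : ℝ) ^ j) ≤ L y} with hQ
  have mP0 : MeasurableSet P0 := measurableSet_lt measurable_const hm
  have mQ : ∀ j, MeasurableSet (Q j) := fun j => measurableSet_le measurable_const hm
  have hQP : ∀ j, Q j ⊆ P0 := by
    intro j y hy
    have h1 : (0 : ℝ≥0∞) < ENNReal.ofReal ((1 / 2 : ℝ) ^ j) := by
      rw [ENNReal.ofReal_pos]; positivity
    exact lt_of_lt_of_le h1 hy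
  have hQmono : Monotone Q := by
    intro i j hij y hy
    refine le_trans (ENNReal.ofReal_le_ofReal ?_) hy
    exact pow_le_pow_of_le_one (by norm_num) (by norm_num) hij
  have hPL : ∀ j, μ P0 * μ (Q j) ≤ (μ (Q (j + 1))) ^ 2 := by
    intro j
    have h := m5_PL μ hμ hK hKc (v := v) (c := (1 / 2 : ℝ) ^ j) (by positivity)
    have e : (1 / 2 : ℝ) ^ j / 2 = (1 / 2) ^ (j + 1) := by rw [pow_succ]; ring
    rw [e] at h
    exact h
  -- the largest chords
  have hq0 : ENNReal.ofReal (7 / 8) ≤ ENNReal.ofReal (3 / 4) + ENNReal.ofReal (1 / 4) * μ (Q 0) := by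
    refine hKm.trans ?_
    rw [Measure.prod_apply hK.measurableSet]
    calc ∫⁻ y, gaussianReal 0 1 (Prod.mk y ⁻¹' K) ∂μ
        ≤ ∫⁻ y, (ENNReal.ofReal (3 / 4) + ENNReal.ofReal (1 / 4) * (Q 0).indicator 1 y) ∂μ := by
          refine lintegral_mono fun y => ?_
          by_cases hy : y ∈ Q 0
          · rw [Set.indicator_of_mem hy]
            simp only [Pi.one_apply, mul_one]
            rw [← ENNReal.ofReal_add (by norm_num) (by norm_num)]
            norm_num
            exact prob_le_one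
          · have h1 : L y < 1 := by
              simpa [hQ] using hy
            exact (m5_gauss_small (m5_sec_convex hKc y) hv h1).trans le_self_add
      _ = _ := by
          rw [lintegral_add_left measurable_const, lintegral_const, measure_univ, mul_one,
            lintegral_const_mul _ (measurable_one.indicator (mQ 0)), lintegral_indicator_one (mQ 0)]
  have hnum : 4 * ((μ P0).toReal - (μ (Q 4)).toReal) ≤ (μ (Q 4)).toReal - (μ (Q 0)).toReal := by
    refine m5_num (q := fun j => (μ (Q j)).toReal) ?_ ?_ ?_ ?_ ?_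
    · have := prob_le_one (μ := μ) (s := P0)
      have h := ENNReal.toReal_mono ENNReal.one_ne_top this
      simpa using h
    · have h := ENNReal.toReal_mono (by
        refine ENNReal.add_ne_top.2 ⟨ENNReal.ofReal_ne_top, ?_⟩
        exact ENNReal.mul_ne_top ENNReal.ofReal_ne_top (measure_ne_top _ _)) hq0
      rw [ENNReal.toReal_ofReal (by norm_num), ENNReal.toReal_add ENNReal.ofReal_ne_top
        (ENNReal.mul_ne_top ENNReal.ofReal_ne_top (measure_ne_top _ _)), ENNReal.toReal_mul,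
        ENNReal.toReal_ofReal (by norm_num), ENNReal.toReal_ofReal (by norm_num)] at h
      linarith
    · intro i j hij
      exact ENNReal.toReal_mono (measure_ne_top _ _) (measure_mono (hQmono hij))
    · intro j
      exact ENNReal.toReal_mono (measure_ne_top _ _) (measure_mono (hQP j))
    · intro j
      have h := ENNReal.toReal_mono (ENNReal.pow_ne_top (measure_ne_top _ _)) (hPL j)
      rwa [ENNReal.toReal_mul, ENNReal.toReal_pow] at h
  have hcmp : 4 * μ (P0 \ Q 4) ≤ μ (Q 4 \ Q 0) := by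
    rw [measure_sdiff (hQP 4) (mQ 4).nullMeasurableSet (measure_ne_top _ _),
      measure_sdiff (hQmono (Nat.zero_le 4)) (mQ 0).nullMeasurableSet (measure_ne_top _ _)]
    have h1 : μ (Q 4) ≤ μ P0 := measure_mono (hQP 4)
    have h2 : μ (Q 0) ≤ μ (Q 4) := measure_mono (hQmono (Nat.zero_le 4))
    have hf1 : 4 * (μ P0 - μ (Q 4)) ≠ ∞ :=
      ENNReal.mul_ne_top (by simp) (ne_top_of_le_ne_top (measure_ne_top μ P0) tsub_le_self)
    have hf2 : μ (Q 4) - μ (Q 0) ≠ ∞ := ne_top_of_le_ne_top (measure_ne_top μ (Q 4)) tsub_le_self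
    rw [← ENNReal.toReal_le_toReal hf1 hf2, ENNReal.toReal_mul,
      ENNReal.toReal_sub_of_le h1 (measure_ne_top _ _),
      ENNReal.toReal_sub_of_le h2 (measure_ne_top _ _)]
    simpa using hnum
  -- pointwise inequality
  set S : F → ℝ≥0∞ := fun y => if ∃ s, (y, s) ∈ K ∧ (y, s + 2 * δ) ∈ K then 0
          else volume ({s : ℝ | (y, s) ∈ K} ∩ Set.Icc (-v) v) with hS
  have hpt : ∀ y, L y + (S y + ENNReal.ofReal δ * (Q 4 \ Q 0).indicator 1 y) ≤
      m5_len (m5_B (m5_sec K y) δ) v + ENNReal.ofReal (4 * δ) * (P0 \ Q 4).indicator 1 y := by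
    intro y
    have hcl := m5_sec_closed hK y
    have hcv := m5_sec_convex hKc y
    by_cases h0 : y ∈ P0
    · by_cases hlong : ∃ s, s ∈ m5_sec K y ∧ s + 2 * δ ∈ m5_sec K y
      · have hS0 : S y = 0 := if_pos hlong
        rw [hS0, zero_add]
        by_cases h4 : y ∈ Q 4 \ Q 0
        · rw [Set.indicator_of_mem h4]
          simp only [Pi.one_apply, mul_one]
          have h1 : L y < 1 := by
            have := h4.2
            simpa [hQ] using this
          exact (m5_gain hcl hcv hδ0 hδ hv h4.1 h1).2.trans le_self_add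
        · rw [Set.indicator_of_notMem h4, mul_zero, add_zero]
          exact (m5_mono hcv hδ0 hlong).trans le_self_add
      · have hS0 : S y = L y := if_neg hlong
        have hlt : L y ≤ ENNReal.ofReal (2 * δ) := m5_short hcl hcv hδ0 hlong
        have h4 : y ∉ Q 4 := by
          intro h4
          have h5 : ENNReal.ofReal ((1 / 2 : ℝ) ^ 4) ≤ L y := h4
          by_cases h6 : L y < 1
          · exact hlong (m5_gain hcl hcv hδ0 hδ hv h5 h6).1
          · exact hlong (m5_long_of_one hcl hcv hδ0 hδ (not_lt.1 h6))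
        rw [hS0, Set.indicator_of_notMem (fun h => h4 h.1), mul_zero, add_zero,
          Set.indicator_of_mem (show y ∈ P0 \ Q 4 from ⟨h0, h4⟩)]
        simp only [Pi.one_apply, mul_one]
        calc L y + L y ≤ ENNReal.ofReal (2 * δ) + ENNReal.ofReal (2 * δ) := add_le_add hlt hlt
          _ = ENNReal.ofReal (4 * δ) := by
              rw [← ENNReal.ofReal_add (by positivity) (by positivity)]; congr 1; ring
          _ ≤ _ := le_add_self
    · have hL0 : L y = 0 := by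
        by_contra hne
        exact h0 (pos_iff_ne_zero.2 hne)
      have hS0 : S y = 0 := by
        by_cases hlong : ∃ s, (y, s) ∈ K ∧ (y, s + 2 * δ) ∈ K
        · exact if_pos hlong
        · exact (if_neg hlong).trans hL0
      rw [hL0, hS0, Set.indicator_of_notMem (fun h => h0 (hQP 4 h.1)), mul_zero, add_zero, add_zero]
      exact zero_le
  have hint := lintegral_mono (μ := μ) hpt
  rw [lintegral_add_left hm, lintegral_add_right _
    ((measurable_one.indicator ((mQ 4).diff (mQ 0))).const_mul _),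
    lintegral_add_right _ ((measurable_one.indicator (mP0.diff (mQ 4))).const_mul _),
    lintegral_const_mul _ (measurable_one.indicator ((mQ 4).diff (mQ 0))),
    lintegral_const_mul _ (measurable_one.indicator (mP0.diff (mQ 4))),
    lintegral_indicator_one ((mQ 4).diff (mQ 0)), lintegral_indicator_one (mP0.diff (mQ 4))] at hint
  have h4 : ENNReal.ofReal (4 * δ) * μ (P0 \ Q 4) ≤ ENNReal.ofReal δ * μ (Q 4 \ Q 0) := by
    have e : ENNReal.ofReal (4 * δ) = ENNReal.ofReal δ * 4 := by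
      rw [mul_comm, ENNReal.ofReal_mul hδ0.le]; norm_num
    rw [e, mul_assoc]
    gcongr
  have hK1 : (μ.prod volume) (K ∩ {p | p.2 ∈ Set.Icc (-v) v}) = ∫⁻ y, L y ∂μ :=
    Measure.prod_apply (hK.measurableSet.inter (measurable_snd measurableSet_Icc))
  have hK2 : ∫⁻ y, m5_len (m5_B (m5_sec K y) δ) v ∂μ ≤
      (μ.prod volume) (ban K ((0, δ) : F × ℝ) ∩ {p | p.2 ∈ Set.Icc (-v) v}) := by
    refine le_trans (le_of_eq ?_) (m5_le_prod _ _ _)
    refine lintegral_congr fun y => ?_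
    rw [← m5_ban_sec]
    rfl
  rw [hK1]
  refine le_trans ?_ hK2
  have hfin : ENNReal.ofReal δ * μ (Q 4 \ Q 0) ≠ ∞ :=
    ENNReal.mul_ne_top ENNReal.ofReal_ne_top (measure_ne_top _ _)
  refine ENNReal.le_of_add_le_add_right hfin ?_
  rw [add_assoc]
  exact hint.trans (add_le_add le_rfl h4)

end P262F
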