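import Vale.Agent.P262F.Defs
import Vale.Agent.P262F.M4
import Vale.Agent.P262F.M5

open MeasureTheory ProbabilityTheory
open scoped ENNReal BigOperators Pointwise

namespace P262F

/-- the Banaszczyk operation keeps closedness -/
theorem M6_ban_closed {E : Type*} [NormedAddCommGroup E] [NormedSpace ℝ E]
    {K : Set E} (hK : IsClosed K) (u : E) : IsClosed (ban K u) := by
  have h1 : ban K u = Prod.fst '' {p : E × Set.Icc (-1 : ℝ) 3 |
      p.1 - (p.2 : ℝ) • u ∈ K ∧ p.1 + (2 - (p.2 : ℝ)) • u ∈ K} := by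
    ext x
    constructor
    · rintro ⟨t, ht, h1, h2⟩
      exact ⟨(x, ⟨t, ht⟩), ⟨h1, h2⟩, rfl⟩
    · rintro ⟨⟨y, ⟨t, ht⟩⟩, ⟨h1, h2⟩, rfl⟩
      exact ⟨t, ht, h1, h2⟩
  rw [h1]
  apply isClosedMap_fst_of_compactSpace
  apply IsClosed.inter
  · apply hK.preimage (f := fun p : E × Set.Icc (-1 : ℝ) 3 => p.1 - (p.2 : ℝ) • u)
    fun_prop
  · apply hK.preimage (f := fun p : E × Set.Icc (-1 : ℝ) 3 => p.1 + (2 - (p.2 : ℝ)) • u)
    fun_prop

/-- measure of the truncated set at height v -/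
noncomputable def M6lam {F : Type*} [MeasurableSpace F] (μ : Measure F) (A : Set (F × ℝ)) (v : ℝ) :
    ℝ≥0∞ :=
  (μ.prod volume) (A ∩ {p | p.2 ∈ Set.Icc (-v) v})

noncomputable def M6w (v : ℝ) : ℝ≥0∞ := ENNReal.ofReal (v * gaussianPDFReal 0 1 v)

theorem M6w_meas : Measurable M6w := by
  unfold M6w
  have := measurable_gaussianPDFReal 0 1
  fun_prop

theorem M6_joint {F : Type*} [MeasurableSpace F] {A : Set (F × ℝ)} (hA : MeasurableSet A) :
    Measurable (fun q : F × ℝ => volume (Prod.mk q.1 ⁻¹' A ∩ Set.Icc (-q.2) q.2)) := by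
  let B : Set ((F × ℝ) × ℝ) :=
    {r | (r.1.1, r.2) ∈ A} ∩ ({r | -r.1.2 ≤ r.2} ∩ {r | r.2 ≤ r.1.2})
  have hB : MeasurableSet B := by
    apply MeasurableSet.inter
    · have : Measurable (fun r : (F × ℝ) × ℝ => (r.1.1, r.2)) := by fun_prop
      exact this hA
    · apply MeasurableSet.inter
      · exact measurableSet_le (by fun_prop) (by fun_prop)
      · exact measurableSet_le (by fun_prop) (by fun_prop)
  have h := measurable_measure_prodMk_left (ν := (volume : Measure ℝ)) hB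
  exact h

theorem M6lam_eq {F : Type*} [MeasurableSpace F] (μ : Measure F) [SFinite μ]
    {A : Set (F × ℝ)} (hA : MeasurableSet A) (v : ℝ) :
    M6lam μ A v = ∫⁻ y, volume (Prod.mk y ⁻¹' A ∩ Set.Icc (-v) v) ∂μ := by
  unfold M6lam
  have h2 : MeasurableSet {p : F × ℝ | p.2 ∈ Set.Icc (-v) v} :=
    measurable_snd measurableSet_Icc
  rw [Measure.prod_apply (hA.inter h2)]
  rfl

theorem M6lam_meas {F : Type*} [MeasurableSpace F] (μ : Measure F) [SFinite μ]
    {A : Set (F × ℝ)} (hA : MeasurableSet A) : Measurable (M6lam μ A) := by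
  have h1 : M6lam μ A = fun v => ∫⁻ y, volume (Prod.mk y ⁻¹' A ∩ Set.Icc (-v) v) ∂μ := by
    funext v
    exact M6lam_eq μ hA v
  rw [h1]
  have h2 := (M6_joint hA).comp measurable_swap
  exact h2.lintegral_prod_right'

theorem M6_layer {F : Type*} [MeasurableSpace F] (μ : Measure F) [IsProbabilityMeasure μ]
    {A : Set (F × ℝ)} (hA : MeasurableSet A) :
    (μ.prod (gaussianReal 0 1)) A = ∫⁻ v in Set.Ioi (0 : ℝ), M6w v * M6lam μ A v := by
  rw [Measure.prod_apply hA]
  have h1 : ∀ y, gaussianReal 0 1 (Prod.mk y ⁻¹' A) = ∫⁻ v in Set.Ioi (0 : ℝ),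
      M6w v * volume (Prod.mk y ⁻¹' A ∩ Set.Icc (-v) v) := by
    intro y
    exact gauss_layer _ (measurable_prodMk_left hA)
  simp_rw [h1]
  rw [lintegral_lintegral_swap]
  · apply lintegral_congr
    intro v
    rw [lintegral_const_mul, M6lam_eq μ hA]
    exact (M6_joint hA).comp (measurable_prodMk_right (y := v))
  · apply Measurable.aemeasurable
    have h2 := M6_joint hA
    have h3 : Measurable (fun q : F × ℝ => M6w q.2) := M6w_meas.comp measurable_snd
    exact h3.mul h2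

theorem M6_deriv (v : ℝ) :
    HasDerivAt (fun v => - gaussianPDFReal 0 1 v) (v * gaussianPDFReal 0 1 v) v := by
  have h1 : (fun v => - gaussianPDFReal 0 1 v)
      = fun v : ℝ => - ((√(2 * Real.pi * 1))⁻¹ * Real.exp (-(v - 0) ^ 2 / (2 * 1))) := by
    funext v
    simp [gaussianPDFReal]
  rw [h1]
  have h2 : HasDerivAt (fun v : ℝ => -(v - 0) ^ 2 / (2 * 1)) (-v) v := by
    have h5 : HasDerivAt (fun v : ℝ => (v - 0)) 1 v := (hasDerivAt_id v).sub_const 0
    have h6 := (h5.pow 2).neg.div_const (2 * 1 : ℝ)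
    have h7 : -(((2 : ℕ) : ℝ) * (v - 0) ^ (2 - 1) * 1) / (2 * 1) = -v := by
      norm_num
      ring
    rw [h7] at h6
    exact h6
  have h3 := ((h2.exp).const_mul (√(2 * Real.pi * 1))⁻¹).neg
  have h4 : v * gaussianPDFReal 0 1 v
      = -((√(2 * Real.pi * 1))⁻¹ * (Real.exp (-(v - 0) ^ 2 / (2 * 1)) * -v)) := by
    have h8 : gaussianPDFReal 0 1 v
      = ((√(2 * Real.pi * 1))⁻¹ * Real.exp (-(v - 0) ^ 2 / (2 * 1))) := by
      simp [gaussianPDFReal]
    rw [h8]
    ring
  rw [h4]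
  exact h3

theorem M6_lim : Filter.Tendsto (fun v => - gaussianPDFReal 0 1 v) Filter.atTop (nhds 0) := by
  have h1 : (fun v => - gaussianPDFReal 0 1 v)
      = fun v : ℝ => - ((√(2 * Real.pi * 1))⁻¹ * Real.exp (-(v ^ 2 / 2))) := by
    funext v
    simp [gaussianPDFReal]
    left
    ring
  rw [h1]
  have h2 : Filter.Tendsto (fun v : ℝ => v ^ 2 / 2) Filter.atTop Filter.atTop := by
    apply Filter.Tendsto.atTop_div_const (by norm_num)
    exact Filter.tendsto_pow_atTop (by norm_num)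
  have h3 := (Real.tendsto_exp_neg_atTop_nhds_zero).comp h2
  have h4 := (h3.const_mul (√(2 * Real.pi * 1))⁻¹).neg
  simpa using h4

theorem M6_I2 : ∫⁻ v in Set.Ioi (1 : ℝ), M6w v = ENNReal.ofReal (gaussianPDFReal 0 1 1) := by
  have hint : IntegrableOn (fun v => v * gaussianPDFReal 0 1 v) (Set.Ioi 1) := by
    apply integrableOn_Ioi_deriv_of_nonneg' (fun x _ => M6_deriv x) _ M6_lim
    intro x hx
    have : (0 : ℝ) < x := lt_trans one_pos hx
    exact mul_nonneg this.le (gaussianPDFReal_nonneg _ _ _)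
  have h1 : ∫ v in Set.Ioi (1 : ℝ), v * gaussianPDFReal 0 1 v = 0 - (- gaussianPDFReal 0 1 1) := by
    apply integral_Ioi_of_hasDerivAt_of_nonneg' (fun x _ => M6_deriv x) _ M6_lim
    intro x hx
    have : (0 : ℝ) < x := lt_trans one_pos hx
    exact mul_nonneg this.le (gaussianPDFReal_nonneg _ _ _)
  have h2 := ofReal_integral_eq_lintegral_ofReal hint (by
    filter_upwards [ae_restrict_mem measurableSet_Ioi] with x hx
    have : (0 : ℝ) < x := lt_trans one_pos hx
    exact mul_nonneg this.le (gaussianPDFReal_nonneg _ _ _))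
  unfold M6w
  rw [← h2, h1]
  simp

theorem M6_I1 : ∫⁻ v in Set.Ioc (0 : ℝ) 1, M6w v
    = ENNReal.ofReal (gaussianPDFReal 0 1 0 - gaussianPDFReal 0 1 1) := by
  have hcont : Continuous (fun v => v * gaussianPDFReal 0 1 v) := by
    have h1 : (fun v => v * gaussianPDFReal 0 1 v)
      = fun v : ℝ => v * ((√(2 * Real.pi * 1))⁻¹ * Real.exp (-(v - 0) ^ 2 / (2 * 1))) := by
      funext v
      simp [gaussianPDFReal]
    rw [h1]
    fun_prop
  have hint : IntervalIntegrable (fun v => v * gaussianPDFReal 0 1 v) volume 0 1 :=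
    hcont.intervalIntegrable _ _
  have h1 : ∫ v in (0 : ℝ)..1, v * gaussianPDFReal 0 1 v
      = (- gaussianPDFReal 0 1 1) - (- gaussianPDFReal 0 1 0) :=
    intervalIntegral.integral_eq_sub_of_hasDerivAt (fun x _ => M6_deriv x) hint
  rw [intervalIntegral.integral_of_le (by norm_num)] at h1
  have hint2 := (intervalIntegrable_iff_integrableOn_Ioc_of_le (by norm_num)).1 hint
  have h2 := ofReal_integral_eq_lintegral_ofReal hint2 (by
    filter_upwards [ae_restrict_mem measurableSet_Ioc] with x hx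
    exact mul_nonneg hx.1.le (gaussianPDFReal_nonneg _ _ _))
  unfold M6w
  rw [← h2, h1]
  congr 1
  ring

theorem M6_I1_le_I2 : ∫⁻ v in Set.Ioc (0 : ℝ) 1, M6w v ≤ ∫⁻ v in Set.Ioi (1 : ℝ), M6w v := by
  rw [M6_I1, M6_I2]
  apply ENNReal.ofReal_le_ofReal
  have h0 : gaussianPDFReal 0 1 0 = (√(2 * Real.pi * 1))⁻¹ := by
    simp [gaussianPDFReal]
  have h1 : gaussianPDFReal 0 1 1 = (√(2 * Real.pi * 1))⁻¹ * Real.exp (-(1 / 2)) := by
    simp [gaussianPDFReal]
    left
    norm_num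
  rw [h0, h1]
  have h2 : (0 : ℝ) ≤ (√(2 * Real.pi * 1))⁻¹ := by positivity
  have h3 : (1 / 2 : ℝ) ≤ Real.exp (-(1 / 2)) := by
    have := Real.add_one_le_exp (-(1 / 2 : ℝ))
    linarith
  nlinarith [mul_le_mul_of_nonneg_left h3 h2]

open Classical in
/-- the loss term -/
noncomputable def M6loss {F : Type*} [MeasurableSpace F] (μ : Measure F) (K : Set (F × ℝ))
    (δ v : ℝ) : ℝ≥0∞ :=
  ∫⁻ y, (if ∃ s, (y, s) ∈ K ∧ (y, s + 2 * δ) ∈ K then 0
          else volume ({s : ℝ | (y, s) ∈ K} ∩ Set.Icc (-v) v)) ∂μ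

theorem M6loss_mono {F : Type*} [MeasurableSpace F] (μ : Measure F) (K : Set (F × ℝ))
    (δ : ℝ) {v v' : ℝ} (h : v ≤ v') : M6loss μ K δ v ≤ M6loss μ K δ v' := by
  classical
  unfold M6loss
  apply lintegral_mono
  intro y
  dsimp only
  split_ifs with h1
  · exact le_rfl
  · exact measure_mono (Set.inter_subset_inter_right _ (Set.Icc_subset_Icc (by linarith) h))

theorem M6loss_fin {F : Type*} [MeasurableSpace F] (μ : Measure F) [IsProbabilityMeasure μ]
    (K : Set (F × ℝ)) (δ v : ℝ) : M6loss μ K δ v ≠ ⊤ := by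
  classical
  have h1 : M6loss μ K δ v ≤ ∫⁻ _, volume (Set.Icc (-v) v) ∂μ := by
    unfold M6loss
    apply lintegral_mono
    intro y
    dsimp only
    split_ifs with h1
    · exact bot_le
    · exact measure_mono Set.inter_subset_right
  apply ne_top_of_le_ne_top _ h1
  simp

theorem M6_long_sub {F : Type*} [NormedAddCommGroup F] [NormedSpace ℝ F]
    (K : Set (F × ℝ)) (hKc : Convex ℝ K) (δ : ℝ) (hδ0 : 0 < δ) (y : F)
    (h : ∃ s, (y, s) ∈ K ∧ (y, s + 2 * δ) ∈ K) (s : ℝ) (hs : (y, s) ∈ K) :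
    (y, s) ∈ ban K ((0, δ) : F × ℝ) := by
  obtain ⟨a, ha1, ha2⟩ := h
  -- interval membership
  have hconv : ∀ p q r : ℝ, (y, p) ∈ K → (y, q) ∈ K → p ≤ r → r ≤ q → (y, r) ∈ K := by
    intro p q r hp hq hpr hrq
    rcases eq_or_lt_of_le (hpr.trans hrq) with hpq | hpq
    · have : r = p := le_antisymm (by linarith) hpr
      rw [this]; exact hp
    · have hpos : 0 < q - p := by linarith
      have h1 := hKc hp hq (a := (q - r) / (q - p)) (b := (r - p) / (q - p))
        (div_nonneg (by linarith) hpos.le) (div_nonneg (by linarith) hpos.le) (by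
          field_simp
          ring)
      have h2 : ((q - r) / (q - p)) • ((y, p) : F × ℝ) + ((r - p) / (q - p)) • ((y, q) : F × ℝ)
          = (y, r) := by
        ext
        · simp only [Prod.fst_add, Prod.smul_fst]
          rw [← add_smul]
          have : (q - r) / (q - p) + (r - p) / (q - p) = 1 := by
            field_simp
            ring
          rw [this, one_smul]
        · simp only [Prod.snd_add, Prod.smul_snd, smul_eq_mul]
          field_simp
          ring
      rw [h2] at h1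
      exact h1
  have key : ∀ (t r : ℝ), t ∈ Set.Icc (-1 : ℝ) 3 → r = s - t * δ → (y, r) ∈ K →
      (y, r + 2 * δ) ∈ K → (y, s) ∈ ban K ((0, δ) : F × ℝ) := by
    intro t r ht hr h1 h2
    refine ⟨t, ht, ?_, ?_⟩
    · have : ((y, s) : F × ℝ) - t • ((0, δ) : F × ℝ) = (y, r) := by
        ext
        · simp
        · simp [hr]
      rw [this]; exact h1
    · have : ((y, s) : F × ℝ) + (2 - t) • ((0, δ) : F × ℝ) = (y, r + 2 * δ) := by
        ext
        · simp
        · simp [hr]; ring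
      rw [this]; exact h2
  rcases le_total s a with h1 | h1
  · -- s ≤ a : take r = s, t = 0
    exact key 0 s (by constructor <;> norm_num) (by ring) hs
      (hconv s (a + 2 * δ) _ hs ha2 (by linarith) (by linarith))
  · rcases le_total (a + 2 * δ) s with h2 | h2
    · -- s ≥ a + 2δ: take r = s - 2δ, t = 2
      refine key 2 (s - 2 * δ) (by constructor <;> norm_num) (by ring)
        (hconv a s _ ha1 hs (by linarith) (by linarith)) ?_
      have : s - 2 * δ + 2 * δ = s := by ring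
      rw [this]; exact hs
    · -- in between: r = a, t = (s-a)/δ ∈ [0,2]
      refine key ((s - a) / δ) a ⟨?_, ?_⟩ ?_ ha1 ha2
      · have : 0 ≤ (s - a) / δ := div_nonneg (by linarith) hδ0.le
        linarith
      · rw [div_le_iff₀ hδ0]
        linarith
      · field_simp
        ring

theorem M6_small {F : Type*} [NormedAddCommGroup F] [NormedSpace ℝ F] [MeasurableSpace F]
    [BorelSpace F] [SecondCountableTopology F]
    (μ : Measure F) [IsProbabilityMeasure μ]
    (K : Set (F × ℝ)) (hK : IsClosed K) (hKc : Convex ℝ K)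
    (δ : ℝ) (hδ0 : 0 < δ) (v : ℝ) :
    M6lam μ K v ≤ M6lam μ (ban K ((0, δ) : F × ℝ)) v + M6loss μ K δ v := by
  classical
  have hBm : MeasurableSet (ban K ((0, δ) : F × ℝ)) := (M6_ban_closed hK _).measurableSet
  rw [M6lam_eq μ hK.measurableSet, M6lam_eq μ hBm]
  unfold M6loss
  rw [← lintegral_add_left]
  · apply lintegral_mono
    intro y
    dsimp only
    split_ifs with h1
    · rw [add_zero]
      apply measure_mono
      rintro s ⟨hs, hs2⟩
      exact ⟨M6_long_sub K hKc δ hδ0 y h1 s hs, hs2⟩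
    · exact le_add_left le_rfl
  · exact (M6_joint hBm).comp (measurable_prodMk_right (y := v))

theorem ban_prod {F : Type*} [NormedAddCommGroup F] [NormedSpace ℝ F] [MeasurableSpace F]
    [BorelSpace F] [SecondCountableTopology F]
    (μ : Measure F) [IsProbabilityMeasure μ] (hμ : MidPL μ)
    (K : Set (F × ℝ)) (hK : IsClosed K) (hKc : Convex ℝ K)
    (hKm : ENNReal.ofReal (7 / 8) ≤ (μ.prod (gaussianReal 0 1)) K)
    (δ : ℝ) (hδ0 : 0 ≤ δ) (hδ : δ ≤ 1 / 32) :
    (μ.prod (gaussianReal 0 1)) K ≤ (μ.prod (gaussianReal 0 1)) (ban K ((0, δ) : F × ℝ)) := by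
  rcases eq_or_lt_of_le hδ0 with h0 | hpos
  · apply measure_mono
    intro x hx
    refine ⟨0, by constructor <;> norm_num, ?_, ?_⟩
    · have : x - (0 : ℝ) • ((0, δ) : F × ℝ) = x := by simp
      rw [this]; exact hx
    · have : x + (2 - (0 : ℝ)) • ((0, δ) : F × ℝ) = x := by
        rw [← h0]
        have : ((0, 0) : F × ℝ) = 0 := rfl
        rw [this, smul_zero, add_zero]
      rw [this]; exact hx
  · have hBm : MeasurableSet (ban K ((0, δ) : F × ℝ)) := (M6_ban_closed hK _).measurableSet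
    have hKmeas := hK.measurableSet
    have hlamK := M6lam_meas μ hKmeas
    have hlamB := M6lam_meas μ hBm
    have hw := M6w_meas
    set B := ban K ((0, δ) : F × ℝ) with hBdef
    set Lo := M6loss μ K δ 1 with hLdef
    have hLfin : Lo ≠ ⊤ := M6loss_fin μ K δ 1
    have hsplit : ∀ f : ℝ → ℝ≥0∞, ∫⁻ v in Set.Ioi (0 : ℝ), f v
        = (∫⁻ v in Set.Ioc (0 : ℝ) 1, f v) + ∫⁻ v in Set.Ioi (1 : ℝ), f v := by
      intro f
      have h1 : Set.Ioi (0 : ℝ) = Set.Ioc 0 1 ∪ Set.Ioi 1 := by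
        rw [Set.Ioc_union_Ioi_eq_Ioi (by norm_num)]
      rw [h1]
      apply lintegral_union measurableSet_Ioi
      exact Set.Ioc_disjoint_Ioi le_rfl
    -- low part
    have hlow : ∫⁻ v in Set.Ioc (0 : ℝ) 1, M6w v * M6lam μ K v
        ≤ (∫⁻ v in Set.Ioc (0 : ℝ) 1, M6w v * M6lam μ B v)
          + (∫⁻ v in Set.Ioc (0 : ℝ) 1, M6w v) * Lo := by
      rw [← lintegral_mul_const _ hw]
      have hmm : Measurable (fun v => M6w v * M6lam μ B v) := hw.mul hlamB
      rw [← lintegral_add_left hmm]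
      apply setLIntegral_mono_ae' measurableSet_Ioc
      filter_upwards with v hv
      rw [← mul_add]
      gcongr
      refine (M6_small μ K hK hKc δ hpos v).trans ?_
      gcongr
      exact M6loss_mono μ K δ hv.2
    have hhigh : (∫⁻ v in Set.Ioi (1 : ℝ), M6w v * M6lam μ K v)
          + (∫⁻ v in Set.Ioi (1 : ℝ), M6w v) * Lo
        ≤ ∫⁻ v in Set.Ioi (1 : ℝ), M6w v * M6lam μ B v := by
      rw [← lintegral_mul_const _ hw]
      have hmm : Measurable (fun v => M6w v * M6lam μ K v) := hw.mul hlamK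
      rw [← lintegral_add_left hmm]
      apply setLIntegral_mono_ae' measurableSet_Ioi
      filter_upwards with v hv
      rw [← mul_add]
      gcongr
      have hv1 : (1 : ℝ) ≤ v := le_of_lt hv
      have h5 := slab_ineq μ hμ K hK hKc hKm δ hpos hδ v hv1
      have h6 : M6lam μ K v + M6loss μ K δ v ≤ M6lam μ B v := h5
      refine le_trans ?_ h6
      gcongr
      exact M6loss_mono μ K δ hv1
    have hI := M6_I1_le_I2
    have hI2fin : (∫⁻ v in Set.Ioi (1 : ℝ), M6w v) * Lo ≠ ⊤ := by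
      apply ENNReal.mul_ne_top _ hLfin
      rw [M6_I2]
      exact ENNReal.ofReal_ne_top
    rw [M6_layer μ hKmeas, M6_layer μ hBm, hsplit, hsplit]
    rw [← ENNReal.add_le_add_iff_right hI2fin]
    generalize (∫⁻ v in Set.Ioc (0 : ℝ) 1, M6w v * M6lam μ K v) = a1 at *
    generalize (∫⁻ v in Set.Ioi (1 : ℝ), M6w v * M6lam μ K v) = a2 at *
    generalize (∫⁻ v in Set.Ioc (0 : ℝ) 1, M6w v * M6lam μ B v) = b1 at *
    generalize (∫⁻ v in Set.Ioi (1 : ℝ), M6w v * M6lam μ B v) = b2 at *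
    generalize (∫⁻ v in Set.Ioc (0 : ℝ) 1, M6w v) = i1 at *
    generalize (∫⁻ v in Set.Ioi (1 : ℝ), M6w v) = i2 at *
    calc (a1 + a2) + i2 * Lo = a1 + (a2 + i2 * Lo) := by rw [add_assoc]
      _ ≤ (b1 + i1 * Lo) + b2 := add_le_add hlow hhigh
      _ ≤ (b1 + i2 * Lo) + b2 := by gcongr
      _ = (b1 + b2) + i2 * Lo := by ring

end P262F
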