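import Vale.Agent.P262F.Defs
import Vale.Agent.P262F.M3
import Vale.Agent.P262F.M6

open MeasureTheory ProbabilityTheory
open scoped ENNReal BigOperators Pointwise

namespace P262F

theorem ban_good {E : Type*} [NormedAddCommGroup E] [NormedSpace ℝ E]
    {K : Set E} (hK : Good K) (u : E) : Good (ban K u) := by
  refine ⟨?_, ?_, ?_⟩
  · -- closed
    have h1 : ban K u = Prod.fst '' {p : E × Set.Icc (-1 : ℝ) 3 |
        p.1 - (p.2 : ℝ) • u ∈ K ∧ p.1 + (2 - (p.2 : ℝ)) • u ∈ K} := by
      ext x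
      constructor
      · rintro ⟨t, ht, h1, h2⟩
        exact ⟨(x, ⟨t, ht⟩), ⟨h1, h2⟩, rfl⟩
      · rintro ⟨⟨y, t⟩, ⟨h1, h2⟩, rfl⟩
        exact ⟨t, t.2, h1, h2⟩
    rw [h1]
    apply isClosedMap_fst_of_compactSpace
    apply IsClosed.inter
    · exact hK.closed.preimage (by fun_prop)
    · exact hK.closed.preimage (by fun_prop)
  · -- convex
    rintro x ⟨s, hs, hx1, hx2⟩ y ⟨t, ht, hy1, hy2⟩ a b ha hb hab
    refine ⟨a * s + b * t, ?_, ?_, ?_⟩
    · exact convex_Icc (-1 : ℝ) 3 hs ht ha hb hab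
    · have := hK.convex hx1 hy1 ha hb hab
      have e : a • x + b • y - (a * s + b * t) • u = a • (x - s • u) + b • (y - t • u) := by
        simp only [smul_sub, smul_smul, add_smul]
        abel
      rw [e]; exact this
    · have := hK.convex hx2 hy2 ha hb hab
      have e : a • x + b • y + (2 - (a * s + b * t)) • u
          = a • (x + (2 - s) • u) + b • (y + (2 - t) • u) := by
        have e2 : (2 : ℝ) - (a * s + b * t) = a * (2 - s) + b * (2 - t) := by
          linear_combination (-2 : ℝ) * hab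
        rw [e2]
        simp only [smul_add, smul_smul, add_smul]
        abel
      rw [e]; exact this
  · -- symmetric
    rintro x ⟨t, ht, h1, h2⟩
    refine ⟨2 - t, ⟨by linarith [ht.2], by linarith [ht.1]⟩, ?_, ?_⟩
    · have := hK.symm _ h2
      have e : -x - (2 - t) • u = -(x + (2 - t) • u) := by abel
      rw [e]; exact this
    · have := hK.symm _ h1
      have e : -x + (2 - (2 - t)) • u = -(x - t • u) := by
        rw [show (2 : ℝ) - (2 - t) = t by ring]; abel
      rw [e]; exact this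

theorem ban_subset {E : Type*} [NormedAddCommGroup E] [NormedSpace ℝ E]
    {K : Set E} (hK : Good K) (u : E) {x : E} (hx : x ∈ ban K u) : x + u ∈ K ∨ x - u ∈ K := by
  obtain ⟨t, ht, h1, h2⟩ := hx
  rcases le_total t 1 with h | h
  · left
    -- x + u = (1-λ) (x - t u) + λ (x + (2-t) u), λ = (t+1)/2
    have := hK.convex h1 h2 (a := (1 - t) / 2) (b := (1 + t) / 2) (by linarith)
      (by linarith [ht.1]) (by ring)
    have e : x + u = ((1 - t) / 2) • (x - t • u) + ((1 + t) / 2) • (x + (2 - t) • u) := by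
      match_scalars <;> ring
    rw [e]; exact this
  · right
    have := hK.convex h1 h2 (a := (3 - t) / 2) (b := (t - 1) / 2) (by linarith [ht.2])
      (by linarith) (by ring)
    have e : x - u = ((3 - t) / 2) • (x - t • u) + ((t - 1) / 2) • (x + (2 - t) • u) := by
      match_scalars <;> ring
    rw [e]; exact this

theorem ban_zero {E : Type*} [NormedAddCommGroup E] [NormedSpace ℝ E]
    (K : Set E) : ban K 0 = K := by
  ext x
  constructor
  · rintro ⟨t, ht, h1, h2⟩
    simpa using h1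
  · intro h
    exact ⟨0, by norm_num, by simpa using h, by simpa using h⟩

/-- splitting of the standard Gaussian measure along a unit vector -/
theorem stdGaussian_split {E : Type*} [NormedAddCommGroup E] [InnerProductSpace ℝ E]
    [FiniteDimensional ℝ E] [MeasurableSpace E] [BorelSpace E] (e : E) (he : ‖e‖ = 1) :
    stdGaussian E = ((stdGaussian (Submodule.span ℝ {e})ᗮ).prod (gaussianReal 0 1)).map
      (fun p => (p.1 : E) + p.2 • e) := by
  have hmeas : Measurable (fun p : (Submodule.span ℝ {e})ᗮ × ℝ => (p.1 : E) + p.2 • e) := by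
    fun_prop
  have : IsProbabilityMeasure
      (((stdGaussian (Submodule.span ℝ {e})ᗮ).prod (gaussianReal 0 1)).map
      (fun p => (p.1 : E) + p.2 • e)) := Measure.isProbabilityMeasure_map hmeas.aemeasurable
  apply Measure.ext_of_charFun
  ext t
  rw [charFun_stdGaussian, charFun_apply, integral_map hmeas.aemeasurable (by fun_prop)]
  have h1 : ∀ p : (Submodule.span ℝ {e})ᗮ × ℝ,
      Complex.exp ((inner ℝ ((p.1 : E) + p.2 • e) t : ℝ) * Complex.I)
      = Complex.exp ((inner ℝ p.1 ((Submodule.span ℝ {e})ᗮ.orthogonalProjectionOnto t) : ℝ) * Complex.I)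
        * Complex.exp ((p.2 : ℂ) * ((inner ℝ e t : ℝ) : ℂ) * Complex.I) := by
    intro p
    rw [← Complex.exp_add]
    congr 1
    rw [inner_add_left, inner_smul_left]
    have : inner ℝ (p.1 : E) t
        = inner ℝ p.1 ((Submodule.span ℝ {e})ᗮ.orthogonalProjectionOnto t) := by
      simp
    rw [this]
    push_cast
    simp
    ring
  simp_rw [h1]
  rw [integral_prod_mul (fun y : (Submodule.span ℝ {e})ᗮ =>
      Complex.exp ((inner ℝ y ((Submodule.span ℝ {e})ᗮ.orthogonalProjectionOnto t) : ℝ) * Complex.I))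
    (fun s : ℝ => Complex.exp ((s : ℂ) * ((inner ℝ e t : ℝ) : ℂ) * Complex.I))]
  have hA : (∫ y : (Submodule.span ℝ {e})ᗮ,
      Complex.exp ((inner ℝ y ((Submodule.span ℝ {e})ᗮ.orthogonalProjectionOnto t) : ℝ)
        * Complex.I) ∂(stdGaussian (Submodule.span ℝ {e})ᗮ))
      = Complex.exp (- ‖(Submodule.span ℝ {e})ᗮ.orthogonalProjectionOnto t‖ ^ 2 / 2) := by
    rw [← charFun_stdGaussian, charFun_apply]
  have hB : (∫ s : ℝ, Complex.exp ((s : ℂ) * ((inner ℝ e t : ℝ) : ℂ) * Complex.I)
      ∂(gaussianReal 0 1)) = Complex.exp (- (((inner ℝ e t : ℝ) : ℂ)) ^ 2 / 2) := by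
    have h2 := charFun_gaussianReal (μ := 0) (v := 1) (inner ℝ e t)
    rw [charFun_apply_real] at h2
    have h3 : ∀ s : ℝ, (s : ℂ) * ((inner ℝ e t : ℝ) : ℂ) * Complex.I
        = ((inner ℝ e t : ℝ) : ℂ) * (s : ℂ) * Complex.I := by intro s; ring
    simp_rw [h3]
    rw [h2]
    congr 1
    simp
    ring
  rw [hA, hB, ← Complex.exp_add]
  congr 1
  have hP := Submodule.norm_sq_eq_add_norm_sq_starProjection t (Submodule.span ℝ {e})
  rw [Submodule.starProjection_unit_singleton ℝ he, norm_smul, he, mul_one, Real.norm_eq_abs,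
    sq_abs] at hP
  have hP2 : ‖(Submodule.span ℝ {e})ᗮ.starProjection t‖
      = ‖(Submodule.span ℝ {e})ᗮ.orthogonalProjectionOnto t‖ := rfl
  rw [hP2] at hP
  have hP3 : ((‖t‖ : ℂ)) ^ 2 = ((inner ℝ e t : ℝ) : ℂ) ^ 2
      + (‖(Submodule.span ℝ {e})ᗮ.orthogonalProjectionOnto t‖ : ℂ) ^ 2 := by
    exact_mod_cast hP
  rw [hP3]
  ring

theorem ban_gauss {E : Type*} [NormedAddCommGroup E] [InnerProductSpace ℝ E]
    [FiniteDimensional ℝ E] [MeasurableSpace E] [BorelSpace E]
    {K : Set E} (hK : Good K) (hKm : ENNReal.ofReal (7 / 8) ≤ stdGaussian E K)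
    (u : E) (hu : ‖u‖ ≤ 1 / 32) : stdGaussian E K ≤ stdGaussian E (ban K u) := by
  rcases eq_or_ne u 0 with rfl | hu0
  · rw [ban_zero]
  have hun : 0 < ‖u‖ := norm_pos_iff.2 hu0
  set e : E := (‖u‖⁻¹) • u with hedef
  have he : ‖e‖ = 1 := by
    rw [hedef, norm_smul, norm_inv, norm_norm, inv_mul_cancel₀ hun.ne']
  have hue : u = ‖u‖ • e := by
    rw [hedef, smul_smul, mul_inv_cancel₀ hun.ne', one_smul]
  set T : (Submodule.span ℝ {e})ᗮ × ℝ → E := fun p => (p.1 : E) + p.2 • e with hT
  have hmeas : Measurable T := by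
    simp only [hT]; fun_prop
  have hcont : Continuous T := by
    simp only [hT]; fun_prop
  have hsplit := stdGaussian_split e he
  have hclosed : IsClosed (T ⁻¹' K) := hK.closed.preimage hcont
  have hconv : Convex ℝ (T ⁻¹' K) := by
    rintro x hx y hy a b ha hb hab
    have := hK.convex hx hy ha hb hab
    have e1 : T (a • x + b • y) = a • T x + b • T y := by
      simp only [hT]
      simp only [Prod.fst_add, Prod.snd_add, Prod.smul_fst, Prod.smul_snd, Submodule.coe_add,
        Submodule.coe_smul, smul_eq_mul]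
      module
    rw [Set.mem_preimage, e1]; exact this
  have hKm' : ENNReal.ofReal (7 / 8) ≤
      ((stdGaussian (Submodule.span ℝ {e})ᗮ).prod (gaussianReal 0 1)) (T ⁻¹' K) := by
    rw [hsplit, Measure.map_apply hmeas hK.closed.measurableSet] at hKm
    exact hKm
  have key := ban_prod (stdGaussian (Submodule.span ℝ {e})ᗮ) (midPL_stdGaussian _) (T ⁻¹' K)
    hclosed hconv hKm' ‖u‖ (norm_nonneg u) hu
  have hsub : ban (T ⁻¹' K) ((0, ‖u‖) : (Submodule.span ℝ {e})ᗮ × ℝ) ⊆ T ⁻¹' (ban K u) := by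
    rintro x ⟨t, ht, h1, h2⟩
    refine ⟨t, ht, ?_, ?_⟩
    · have : T (x - t • ((0, ‖u‖) : (Submodule.span ℝ {e})ᗮ × ℝ)) = T x - t • u := by
        conv_rhs => rw [hue]
        simp only [hT, Prod.fst_sub, Prod.snd_sub, Prod.smul_fst, Prod.smul_snd, smul_zero,
          sub_zero, smul_eq_mul]
        module
      rw [← this]; exact h1
    · have : T (x + (2 - t) • ((0, ‖u‖) : (Submodule.span ℝ {e})ᗮ × ℝ)) = T x + (2 - t) • u := by
        conv_rhs => rw [hue]
        simp only [hT, Prod.fst_add, Prod.snd_add, Prod.smul_fst, Prod.smul_snd, smul_zero,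
          add_zero, smul_eq_mul]
        module
      rw [← this]; exact h2
  calc stdGaussian E K
      = ((stdGaussian (Submodule.span ℝ {e})ᗮ).prod (gaussianReal 0 1)) (T ⁻¹' K) := by
        rw [hsplit, Measure.map_apply hmeas hK.closed.measurableSet]
    _ ≤ _ := key
    _ ≤ ((stdGaussian (Submodule.span ℝ {e})ᗮ).prod (gaussianReal 0 1)) (T ⁻¹' (ban K u)) :=
        measure_mono hsub
    _ = stdGaussian E (ban K u) := by
        rw [hsplit, Measure.map_apply hmeas (ban_good hK u).closed.measurableSet]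

end P262F
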