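import Vale.Agent.P262F.Defs
import Vale.Agent.P262F.M7

open MeasureTheory ProbabilityTheory
open scoped ENNReal BigOperators Pointwise

namespace P262F

section aux

variable {E : Type*} [NormedAddCommGroup E] [NormedSpace ℝ E]

theorem good_univ : Good (Set.univ : Set E) :=
  ⟨isClosed_univ, convex_univ, fun _ _ => Set.mem_univ _⟩

theorem good_inter {A B : Set E} (hA : Good A) (hB : Good B) : Good (A ∩ B) :=
  ⟨hA.closed.inter hB.closed, hA.convex.inter hB.convex,
    fun x hx => ⟨hA.symm x hx.1, hB.symm x hx.2⟩⟩

theorem good_zero_mem {A : Set E} (hA : Good A) (hne : A.Nonempty) : (0 : E) ∈ A := by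
  obtain ⟨x, hx⟩ := hne
  have h := hA.convex hx (hA.symm x hx) (by norm_num : (0 : ℝ) ≤ 1 / 2)
    (by norm_num : (0 : ℝ) ≤ 1 / 2) (by norm_num)
  simpa using h

/-- backward bodies -/
def back (N : ℕ) (u : ℕ → E) (K : ℕ → Set E) : ℕ → Set E
  | 0 => Set.univ
  | j + 1 => ban (back N u K j ∩ K (N - j)) (u (N - j - 1))

theorem back_good (N : ℕ) (u : ℕ → E) (K : ℕ → Set E) (hK : ∀ i, Good (K i)) (j : ℕ) :
    Good (back N u K j) := by
  induction j with
  | zero => exact good_univ
  | succ j ih => exact ban_good (good_inter ih (hK _)) _

end aux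

/- prefix balancing, list version -/
theorem prefix_balance {E : Type*} [NormedAddCommGroup E] [InnerProductSpace ℝ E]
    [FiniteDimensional ℝ E] [MeasurableSpace E] [BorelSpace E]
    (N : ℕ) (u : ℕ → E) (hu : ∀ i, ‖u i‖ ≤ 1 / 32) (K : ℕ → Set E) (hK : ∀ i, Good (K i))
    (hsum : ∑ i ∈ Finset.range N, (1 - (stdGaussian E).real (K (i + 1))) ≤ 1 / 8) :
    ∃ ε : ℕ → ℝ, (∀ i, ε i = 1 ∨ ε i = -1) ∧
      ∀ k, k < N → ∑ i ∈ Finset.range (k + 1), ε i • u i ∈ K (k + 1) := by
  classical
  have hnn : ∀ A : Set E, 0 ≤ 1 - (stdGaussian E).real A := fun A => by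
    have := measureReal_le_one (μ := stdGaussian E) (s := A)
    linarith
  -- rewrite the sum backwards
  have hpart : ∀ j, j ≤ N →
      ∑ i ∈ Finset.range j, (1 - (stdGaussian E).real (K (N - i))) ≤ 1 / 8 := by
    intro j hj
    refine le_trans ?_ hsum
    have h1 : ∑ i ∈ Finset.range j, (1 - (stdGaussian E).real (K (N - i)))
        ≤ ∑ i ∈ Finset.range N, (1 - (stdGaussian E).real (K (N - i))) :=
      Finset.sum_le_sum_of_subset_of_nonneg (Finset.range_mono hj) (fun i _ _ => hnn _)
    refine h1.trans (le_of_eq ?_)
    rw [← Finset.sum_range_reflect (fun i => 1 - (stdGaussian E).real (K (i + 1))) N]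
    refine Finset.sum_congr rfl fun i hi => ?_
    have hi' := Finset.mem_range.1 hi
    have : N - 1 - i + 1 = N - i := by omega
    rw [this]
  have hinter : ∀ A B : Set E, MeasurableSet A → MeasurableSet B →
      1 - (stdGaussian E).real (A ∩ B)
        ≤ (1 - (stdGaussian E).real A) + (1 - (stdGaussian E).real B) := by
    intro A B hA hB
    have h1 := measureReal_union_add_inter (μ := stdGaussian E) (s := A) hB
    have h2 := measureReal_le_one (μ := stdGaussian E) (s := A ∪ B)
    linarith
  have hmeas : ∀ j, j ≤ N → 1 - (stdGaussian E).real (back N u K j)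
      ≤ ∑ i ∈ Finset.range j, (1 - (stdGaussian E).real (K (N - i))) := by
    intro j
    induction j with
    | zero => intro _; simp [back]
    | succ j ih =>
      intro hj
      have ih' := ih (by omega)
      have hb := back_good N u K hK j
      have h1 := hinter (back N u K j) (K (N - j)) hb.closed.measurableSet
        (hK _).closed.measurableSet
      have h2 := hpart (j + 1) hj
      rw [Finset.sum_range_succ] at h2 ⊢
      have h3 : 7 / 8 ≤ (stdGaussian E).real (back N u K j ∩ K (N - j)) := by linarith
      have h4 : ENNReal.ofReal (7 / 8) ≤ stdGaussian E (back N u K j ∩ K (N - j)) := by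
        rw [measureReal_def] at h3
        exact ENNReal.ofReal_le_of_le_toReal h3
      have h5 := ban_gauss (good_inter hb (hK (N - j))) h4 (u (N - j - 1)) (hu _)
      have h6 : (stdGaussian E).real (back N u K j ∩ K (N - j))
          ≤ (stdGaussian E).real (back N u K (j + 1)) := by
        rw [measureReal_def, measureReal_def]
        exact ENNReal.toReal_mono (measure_ne_top _ _) h5
      linarith
  have hzero : (0 : E) ∈ back N u K N := by
    refine good_zero_mem (back_good N u K hK N) ?_
    rw [Set.nonempty_iff_ne_empty]
    intro he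
    have h1 := hmeas N le_rfl
    have h2 := hpart N le_rfl
    rw [he] at h1
    simp only [measureReal_empty] at h1
    linarith
  have main : ∀ k, k ≤ N → ∃ ε : ℕ → ℝ, (∀ i, ε i = 1 ∨ ε i = -1) ∧
      (∑ i ∈ Finset.range k, ε i • u i ∈ back N u K (N - k)) ∧
      ∀ l, l < k → ∑ i ∈ Finset.range (l + 1), ε i • u i ∈ K (l + 1) := by
    intro k
    induction k with
    | zero =>
      intro _
      exact ⟨fun _ => 1, fun _ => Or.inl rfl, by simpa using hzero, fun l hl => by omega⟩
    | succ k ih =>
      intro hk
      obtain ⟨ε, h1, h2, h3⟩ := ih (by omega)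
      have hb : back N u K (N - k)
          = ban (back N u K (N - (k + 1)) ∩ K (k + 1)) (u k) := by
        have e1 : N - k = (N - (k + 1)) + 1 := by omega
        rw [e1]
        show ban (back N u K (N - (k + 1)) ∩ K (N - (N - (k + 1)))) (u (N - (N - (k + 1)) - 1)) = _
        have e2 : N - (N - (k + 1)) = k + 1 := by omega
        have e3 : N - (N - (k + 1)) - 1 = k := by omega
        rw [e3, e2]
      rw [hb] at h2
      have hgood := good_inter (back_good N u K hK (N - (k + 1))) (hK (k + 1))
      have hstep : ∀ c : ℝ, (c = 1 ∨ c = -1) →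
          (∑ i ∈ Finset.range k, ε i • u i) + c • u k
            ∈ back N u K (N - (k + 1)) ∩ K (k + 1) →
          ∃ ε : ℕ → ℝ, (∀ i, ε i = 1 ∨ ε i = -1) ∧
          (∑ i ∈ Finset.range (k + 1), ε i • u i ∈ back N u K (N - (k + 1))) ∧
          ∀ l, l < k + 1 → ∑ i ∈ Finset.range (l + 1), ε i • u i ∈ K (l + 1) := by
        intro c hc hmem
        refine ⟨Function.update ε k c, ?_, ?_, ?_⟩
        · intro i
          by_cases hi : i = k
          · subst hi; simpa using hc
          · simpa [Function.update_of_ne hi] using h1 i
        · have : ∑ i ∈ Finset.range (k + 1), (Function.update ε k c) i • u i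
              = (∑ i ∈ Finset.range k, ε i • u i) + c • u k := by
            rw [Finset.sum_range_succ]
            congr 1
            · refine Finset.sum_congr rfl fun i hi => ?_
              rw [Function.update_of_ne (by have := Finset.mem_range.1 hi; omega)]
            · simp
          rw [this]
          exact hmem.1
        · intro l hl
          rcases Nat.lt_succ_iff_lt_or_eq.1 hl with hl' | hl'
          · have : ∑ i ∈ Finset.range (l + 1), (Function.update ε k c) i • u i
                = ∑ i ∈ Finset.range (l + 1), ε i • u i := by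
              refine Finset.sum_congr rfl fun i hi => ?_
              rw [Function.update_of_ne (by have := Finset.mem_range.1 hi; omega)]
            rw [this]
            exact h3 l hl'
          · subst hl'
            have : ∑ i ∈ Finset.range (l + 1), (Function.update ε l c) i • u i
                = (∑ i ∈ Finset.range l, ε i • u i) + c • u l := by
              rw [Finset.sum_range_succ]
              congr 1
              · refine Finset.sum_congr rfl fun i hi => ?_
                rw [Function.update_of_ne (by have := Finset.mem_range.1 hi; omega)]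
              · simp
            rw [this]
            exact hmem.2
      rcases ban_subset hgood (u k) h2 with h | h
      · exact hstep 1 (Or.inl rfl) (by simpa using h)
      · exact hstep (-1) (Or.inr rfl) (by simpa [sub_eq_add_neg] using h)
  obtain ⟨ε, h1, _, h3⟩ := main N le_rfl
  exact ⟨ε, h1, h3⟩

end P262F
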