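import Vale.Agent.P262F.Defs
import Vale.Agent.P262F.M8

open MeasureTheory ProbabilityTheory
open scoped ENNReal BigOperators Pointwise

namespace P262F

theorem m10_good_univ {E : Type*} [NormedAddCommGroup E] [NormedSpace ℝ E] :
    Good (Set.univ : Set E) :=
  ⟨isClosed_univ, convex_univ, fun _ _ => Set.mem_univ _⟩

/-- a good body of positive measure contains `0` -/
theorem m10_zero_mem {E : Type*} [NormedAddCommGroup E] [NormedSpace ℝ E] {K : Set E}
    (hK : Good K) (hne : K.Nonempty) : (0 : E) ∈ K := by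
  obtain ⟨x, hx⟩ := hne
  have h := hK.convex hx (hK.symm x hx) (by norm_num : (0 : ℝ) ≤ 1 / 2)
    (by norm_num : (0 : ℝ) ≤ 1 / 2) (by norm_num)
  have e : (1 / 2 : ℝ) • x + (1 / 2 : ℝ) • (-x) = 0 := by
    rw [smul_neg]; exact add_neg_cancel _
  rw [e] at h
  exact h

section
variable {E : Type*} [NormedAddCommGroup E] [InnerProductSpace ℝ E]
    [FiniteDimensional ℝ E] [MeasurableSpace E] [BorelSpace E]
    {W : Type*} [Fintype W] [DecidableEq W]

omit [Fintype W] in
/-- one round of signing -/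
theorem m10_sign (u : W → E) (hu : ∀ w, ‖u w‖ ≤ 1 / 32)
    (K : Set E) (hK : Good K) (hm : 7 / 8 ≤ (stdGaussian E).real K) (h0 : (0 : E) ∈ K)
    (S : Finset W) :
    ∃ ε : W → ℝ, (∀ w, ε w = 1 ∨ ε w = -1) ∧ ∑ w ∈ S, ε w • u w ∈ K := by
  rcases Nat.eq_zero_or_pos S.card with hc | hc
  · rw [Finset.card_eq_zero] at hc
    refine ⟨fun _ => 1, fun _ => Or.inl rfl, ?_⟩
    rw [hc, Finset.sum_empty]
    exact h0
  · set N := S.card with hN
    let v : ℕ → E := fun i => if h : i < N then u (S.equivFin.symm ⟨i, h⟩) else 0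
    let K' : ℕ → Set E := fun i => if i = N then K else Set.univ
    have hv : ∀ i, ‖v i‖ ≤ 1 / 32 := by
      intro i
      by_cases h : i < N
      · simp only [v, dif_pos h]; exact hu _
      · simp only [v, dif_neg h, norm_zero]; norm_num
    have hK' : ∀ i, Good (K' i) := by
      intro i
      by_cases h : i = N
      · simp only [K', if_pos h]; exact hK
      · simp only [K', if_neg h]; exact m10_good_univ
    have hsum : ∑ i ∈ Finset.range N, (1 - (stdGaussian E).real (K' (i + 1))) ≤ 1 / 8 := by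
      have h1 : ∀ i ∈ Finset.range N, i ≠ N - 1 →
          (1 - (stdGaussian E).real (K' (i + 1))) = 0 := by
        intro i hi hne
        have : i + 1 ≠ N := by omega
        simp only [K', if_neg this]
        rw [probReal_univ]; ring
      rw [Finset.sum_eq_single_of_mem (N - 1) (Finset.mem_range.2 (by omega)) h1]
      have : N - 1 + 1 = N := by omega
      simp only [K', this, if_true]
      linarith
    obtain ⟨ε, hε, hbal⟩ := prefix_balance N v hv K' hK' hsum
    refine ⟨fun w => if h : w ∈ S then ε (S.equivFin ⟨w, h⟩) else 1, ?_, ?_⟩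
    · intro w
      by_cases h : w ∈ S
      · simp only [dif_pos h]; exact hε _
      · simp only [dif_neg h]; exact Or.inl trivial
    · have h2 := hbal (N - 1) (by omega)
      have h3 : N - 1 + 1 = N := by omega
      rw [h3] at h2
      have h4 : K' N = K := by simp [K']
      rw [h4] at h2
      have h5 : ∑ w ∈ S, (if h : w ∈ S then ε (S.equivFin ⟨w, h⟩) else 1) • u w
          = ∑ i ∈ Finset.range N, ε i • v i := by
        rw [← Finset.sum_coe_sort S, Finset.sum_range, ← Equiv.sum_comp S.equivFin]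
        refine Finset.sum_congr rfl fun w _ => ?_
        have hlt : ((S.equivFin w : Fin S.card) : ℕ) < N := (S.equivFin w).2
        simp only [v, dif_pos hlt, Subtype.coe_eta, dif_pos w.2, Fin.eta,
          Equiv.symm_apply_apply]
      rw [h5]; exact h2

/-- rounding of dyadic points -/
theorem m10_dyadic (u : W → E) (hu : ∀ w, ‖u w‖ ≤ 1 / 32)
    (K : Set E) (hK : Good K) (hm : 7 / 8 ≤ (stdGaussian E).real K) (h0 : (0 : E) ∈ K)
    (T : ℕ) : ∀ a : W → ℕ, (∀ w, a w ≤ 2 ^ T) →
    ∃ X : Finset W, ∃ k ∈ K, (∑ w ∈ X, u w) - ∑ w, ((a w : ℝ) / 2 ^ T) • u w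
      = (1 - 1 / 2 ^ T : ℝ) • k := by
  induction T with
  | zero =>
    intro a ha
    refine ⟨Finset.univ.filter (fun w => a w = 1), 0, h0, ?_⟩
    rw [Finset.sum_filter, ← Finset.sum_sub_distrib]
    simp only [pow_zero, div_one, sub_self, zero_smul]
    refine Finset.sum_eq_zero fun w _ => ?_
    have := ha w
    rw [pow_zero] at this
    interval_cases h : a w
    · simp
    · simp
  | succ T ih =>
    intro a ha
    obtain ⟨ε, hε, hεK⟩ := m10_sign u hu K hK hm h0 (Finset.univ.filter (fun w => a w % 2 = 1))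
    have hb : ∀ w, ∃ b : ℕ, b ≤ 2 ^ T ∧
        ((b : ℝ) = ((a w : ℝ) + (if a w % 2 = 1 then ε w else 0)) / 2) := by
      intro w
      have h1 := ha w
      rw [pow_succ] at h1
      by_cases hodd : a w % 2 = 1
      · rcases hε w with he | he
        · refine ⟨(a w + 1) / 2, by omega, ?_⟩
          rw [if_pos hodd, he]
          obtain ⟨c, hc⟩ : ∃ c, a w = 2 * c + 1 := ⟨a w / 2, by omega⟩
          have : (a w + 1) / 2 = c + 1 := by omega
          rw [this, hc]; push_cast; ring
        · refine ⟨(a w - 1) / 2, by omega, ?_⟩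
          rw [if_pos hodd, he]
          obtain ⟨c, hc⟩ : ∃ c, a w = 2 * c + 1 := ⟨a w / 2, by omega⟩
          have : (a w - 1) / 2 = c := by omega
          rw [this, hc]; push_cast; ring
      · refine ⟨a w / 2, by omega, ?_⟩
        rw [if_neg hodd]
        obtain ⟨c, hc⟩ : ∃ c, a w = 2 * c := ⟨a w / 2, by omega⟩
        have : a w / 2 = c := by omega
        rw [this, hc]; push_cast; ring
    choose b hb1 hb2 using hb
    obtain ⟨X, k, hk, hX⟩ := ih b hb1
    set k0 := ∑ w ∈ Finset.univ.filter (fun w => a w % 2 = 1), ε w • u w with hk0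
    have hp : (0 : ℝ) < 2 ^ T := by positivity
    have hp1 : (1 : ℝ) ≤ 2 ^ T := one_le_pow₀ (by norm_num)
    have hdiff : ∑ w, ((b w : ℝ) / 2 ^ T) • u w - ∑ w, ((a w : ℝ) / 2 ^ (T + 1)) • u w
        = (1 / 2 ^ (T + 1) : ℝ) • k0 := by
      rw [hk0, Finset.smul_sum, Finset.sum_filter, ← Finset.sum_sub_distrib]
      refine Finset.sum_congr rfl fun w _ => ?_
      rw [← sub_smul, hb2 w]
      by_cases hodd : a w % 2 = 1
      · rw [if_pos hodd, if_pos hodd, smul_smul]
        congr 1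
        rw [pow_succ]; field_simp; ring
      · rw [if_neg hodd, if_neg hodd]
        have : ((a w : ℝ) + 0) / 2 / 2 ^ T - (a w : ℝ) / 2 ^ (T + 1) = 0 := by
          rw [pow_succ]; field_simp; ring
        rw [this, zero_smul]
    have hs : (0 : ℝ) < 1 - 1 / 2 ^ (T + 1) := by
      have : (1 : ℝ) / 2 ^ (T + 1) < 1 := by
        rw [div_lt_one (by positivity)]
        exact one_lt_pow₀ (by norm_num) (by omega)
      linarith
    refine ⟨X, ((1 - 1 / 2 ^ T) / (1 - 1 / 2 ^ (T + 1)) : ℝ) • k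
      + ((1 / 2 ^ (T + 1)) / (1 - 1 / 2 ^ (T + 1)) : ℝ) • k0, ?_, ?_⟩
    · refine hK.convex hk hεK ?_ ?_ ?_
      · apply div_nonneg _ hs.le
        have : (1 : ℝ) / 2 ^ T ≤ 1 := by rw [div_le_one hp]; exact hp1
        linarith
      · positivity
      · rw [← add_div, div_eq_one_iff_eq hs.ne']
        rw [pow_succ]; field_simp; ring
    · rw [smul_add, smul_smul, smul_smul, mul_div_cancel₀ _ hs.ne', mul_div_cancel₀ _ hs.ne',
        ← hX, ← hdiff]
      abel

theorem m10_round (u : W → E) (hu : ∀ w, ‖u w‖ ≤ 1 / 32)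
    (K : Set E) (hK : Good K) (hm : 7 / 8 ≤ (stdGaussian E).real K)
    (x : W → ℝ) (hx : ∀ w, 0 ≤ x w ∧ x w ≤ 1) :
    ∃ X : Finset W, (∑ w ∈ X, u w) - ∑ w, x w • u w ∈ K := by
  have hne : K.Nonempty := by
    rw [Set.nonempty_iff_ne_empty]
    rintro rfl
    rw [measureReal_empty] at hm
    norm_num at hm
  have h0 := m10_zero_mem hK hne
  have hex : ∀ T : ℕ, ∃ X : Finset W,
      (∑ w ∈ X, u w) - ∑ w, ((⌊x w * 2 ^ T⌋₊ : ℝ) / 2 ^ T) • u w ∈ K := by
    intro T
    have hle : ∀ w, ⌊x w * 2 ^ T⌋₊ ≤ 2 ^ T := by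
      intro w
      apply Nat.floor_le_of_le
      push_cast
      have : (0 : ℝ) < 2 ^ T := by positivity
      nlinarith [(hx w).2]
    obtain ⟨X, k, hk, hX⟩ := m10_dyadic u hu K hK hm h0 T (fun w => ⌊x w * 2 ^ T⌋₊) hle
    refine ⟨X, ?_⟩
    rw [hX]
    have h1 : (1 : ℝ) / 2 ^ T ≤ 1 := by
      rw [div_le_one (by positivity)]; exact one_le_pow₀ (by norm_num)
    have h2 := hK.convex hk h0 (by linarith : (0 : ℝ) ≤ 1 - 1 / 2 ^ T)
      (by positivity : (0 : ℝ) ≤ 1 / 2 ^ T) (by ring)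
    rw [smul_zero, add_zero] at h2
    exact h2
  choose X hX using hex
  obtain ⟨Y, hY⟩ := Finite.exists_infinite_fiber X
  refine ⟨Y, ?_⟩
  have hfreq : ∃ᶠ T in Filter.atTop,
      (∑ w ∈ Y, u w) - ∑ w, ((⌊x w * 2 ^ T⌋₊ : ℝ) / 2 ^ T) • u w ∈ K := by
    rw [Nat.frequently_atTop_iff_infinite]
    refine Set.Infinite.mono ?_ (Set.infinite_coe_iff.1 hY)
    intro T hT
    have hT' : X T = Y := hT
    have := hX T
    rw [hT'] at this
    exact this
  refine hK.closed.mem_of_frequently_of_tendsto hfreq ?_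
  refine tendsto_const_nhds.sub (tendsto_finsetSum _ fun w _ => Filter.Tendsto.smul_const ?_ _)
  have h1 := tendsto_nat_floor_mul_div_atTop (R := ℝ) (hx w).1
  exact h1.comp (tendsto_pow_atTop_atTop_of_one_lt (by norm_num : (1 : ℝ) < 2))

end

/- rounding of a fractional point -/
theorem round_body {E : Type*} [NormedAddCommGroup E] [InnerProductSpace ℝ E]
    [FiniteDimensional ℝ E] [MeasurableSpace E] [BorelSpace E]
    {W : Type*} [Fintype W] [DecidableEq W] (u : W → E) (hu : ∀ w, ‖u w‖ ≤ 1 / 32)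
    (K : Set E) (hK : Good K) (hm : 7 / 8 ≤ (stdGaussian E).real K)
    (x : W → ℝ) (hx : ∀ w, 0 ≤ x w ∧ x w ≤ 1) :
    ∃ X : Finset W, (∑ w ∈ X, u w) - ∑ w, x w • u w ∈ K :=
  m10_round u hu K hK hm x hx

end P262F
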