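import Vale.Agent.P262F.Defs

open MeasureTheory ProbabilityTheory
open scoped ENNReal BigOperators Pointwise

namespace P262F

theorem m11_integral : ∫ x, Real.exp (x ^ 2 / 4) ∂(gaussianReal 0 1) = √2 := by
  rw [integral_gaussianReal_eq_integral_smul one_ne_zero]
  have h1 : ∀ x : ℝ, gaussianPDFReal 0 1 x • Real.exp (x ^ 2 / 4)
      = (√(2 * Real.pi))⁻¹ * Real.exp (-(1 / 4) * x ^ 2) := by
    intro x
    rw [gaussianPDFReal, smul_eq_mul, mul_assoc, ← Real.exp_add]
    congr 2
    · simp
    · simp; ring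
  simp_rw [h1]
  rw [integral_const_mul, integral_gaussian, ← Real.sqrt_inv, ← Real.sqrt_mul (by positivity)]
  congr 1
  have := Real.pi_ne_zero
  field_simp
  ring

theorem m11_integrable : Integrable (fun x : ℝ => Real.exp (x ^ 2 / 4)) (gaussianReal 0 1) := by
  by_contra h
  have h1 := integral_undef h
  rw [m11_integral] at h1
  have : (0 : ℝ) < √2 := Real.sqrt_pos.2 (by norm_num)
  linarith

/- gaussian tails -/
theorem tail_block {ι : Type*} [Fintype ι] (S : Finset ι) (s : ℝ) (hs : 0 ≤ s) :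
    (stdGaussian (EuclideanSpace ℝ ι)).real {x | 8 * ((S.card : ℝ) + s) < ∑ i ∈ S, (x i) ^ 2}
      ≤ Real.exp (-((S.card : ℝ) + s)) := by
  classical
  set n : ℝ := (S.card : ℝ) with hn
  have hn0 : 0 ≤ n := Nat.cast_nonneg _
  let f : ι → ℝ → ℝ := fun i x => if i ∈ S then Real.exp (x ^ 2 / 4) else 1
  have hfint : ∀ i, Integrable (f i) (gaussianReal 0 1) := by
    intro i
    by_cases h : i ∈ S
    · simp only [f, if_pos h]; exact m11_integrable
    · simp only [f, if_neg h]; exact integrable_const _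
  have hprod : ∀ x : ι → ℝ, ∏ i, f i (x i) = Real.exp ((∑ i ∈ S, (x i) ^ 2) / 4) := by
    intro x
    simp only [f]
    rw [Finset.prod_ite_mem, Finset.univ_inter, ← Real.exp_sum, Finset.sum_div]
  have hint : Integrable (fun x : ι → ℝ => Real.exp ((∑ i ∈ S, (x i) ^ 2) / 4))
      (Measure.pi (fun _ : ι => gaussianReal 0 1)) := by
    have := Integrable.fintype_prod (μ := fun _ : ι => gaussianReal 0 1) hfint
    simp_rw [hprod] at this
    exact this
  have hval : ∫ x : ι → ℝ, Real.exp ((∑ i ∈ S, (x i) ^ 2) / 4)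
      ∂(Measure.pi (fun _ : ι => gaussianReal 0 1)) = √2 ^ S.card := by
    have := integral_fintype_prod_eq_prod (𝕜 := ℝ) f (μ := fun _ : ι => gaussianReal 0 1)
    simp_rw [hprod] at this
    rw [this]
    have h2 : ∀ i, ∫ x, f i x ∂(gaussianReal 0 1) = if i ∈ S then √2 else 1 := by
      intro i
      by_cases h : i ∈ S
      · simp only [f, if_pos h]; exact m11_integral
      · simp only [f, if_neg h]; simp
    simp_rw [h2]
    rw [Finset.prod_ite_mem, Finset.univ_inter, Finset.prod_const]
  have hmar := mul_meas_ge_le_integral_of_nonneg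
    (μ := Measure.pi (fun _ : ι => gaussianReal 0 1))
    (Filter.Eventually.of_forall fun x : ι → ℝ => (Real.exp_pos ((∑ i ∈ S, (x i) ^ 2) / 4)).le)
    hint (Real.exp (2 * (n + s)))
  rw [hval] at hmar
  have hmeas : MeasurableSet {x : EuclideanSpace ℝ ι | 8 * (n + s) < ∑ i ∈ S, (x i) ^ 2} := by
    apply IsOpen.measurableSet
    apply isOpen_lt continuous_const
    fun_prop
  have hpush : (stdGaussian (EuclideanSpace ℝ ι)).real
      {x | 8 * (n + s) < ∑ i ∈ S, (x i) ^ 2}
      = (Measure.pi (fun _ : ι => gaussianReal 0 1)).real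
        {x : ι → ℝ | 8 * (n + s) < ∑ i ∈ S, (x i) ^ 2} := by
    rw [← map_pi_eq_stdGaussian, measureReal_def, measureReal_def,
      Measure.map_apply (by fun_prop) hmeas]
    rfl
  rw [hpush]
  have hmono : (Measure.pi (fun _ : ι => gaussianReal 0 1)).real
        {x : ι → ℝ | 8 * (n + s) < ∑ i ∈ S, (x i) ^ 2}
      ≤ (Measure.pi (fun _ : ι => gaussianReal 0 1)).real
        {x : ι → ℝ | Real.exp (2 * (n + s)) ≤ Real.exp ((∑ i ∈ S, (x i) ^ 2) / 4)} := by
    apply measureReal_mono
    · intro x hx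
      have hx' : 8 * (n + s) < ∑ i ∈ S, (x i) ^ 2 := hx
      apply Real.exp_le_exp.2
      linarith
    · exact measure_ne_top _ _
  refine hmono.trans ?_
  set p := (Measure.pi (fun _ : ι => gaussianReal 0 1)).real
        {x : ι → ℝ | Real.exp (2 * (n + s)) ≤ Real.exp ((∑ i ∈ S, (x i) ^ 2) / 4)} with hp
  have h3 : √2 ^ S.card ≤ Real.exp (n + s) := by
    have h4 : √2 ≤ Real.exp 1 := by
      have h5 : √2 ≤ 2 := by
        rw [Real.sqrt_le_left (by norm_num)]; norm_num
      have h6 := Real.add_one_le_exp (1 : ℝ)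
      linarith
    calc √2 ^ S.card ≤ Real.exp 1 ^ S.card :=
          pow_le_pow_left₀ (Real.sqrt_nonneg _) h4 _
      _ = Real.exp n := by rw [← Real.exp_nat_mul, mul_one]
      _ ≤ Real.exp (n + s) := Real.exp_le_exp.2 (by linarith)
  have h7 : Real.exp (2 * (n + s)) = Real.exp (n + s) * Real.exp (n + s) := by
    rw [← Real.exp_add]; congr 1; ring
  have h8 : Real.exp (n + s) * p ≤ 1 := by
    have h9 := Real.exp_pos (n + s)
    rw [h7] at hmar
    have : Real.exp (n + s) * (Real.exp (n + s) * p) ≤ Real.exp (n + s) * 1 := by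
      linarith
    exact le_of_mul_le_mul_left this h9
  rw [Real.exp_neg, ← one_div, le_div_iff₀ (Real.exp_pos _), mul_comm]
  exact h8

/-- the body given by block constraints -/
def blockBody {ι G : Type*} [Fintype ι] [DecidableEq G] (grp : ι → G) (c : G → ℝ) :
    Set (EuclideanSpace ℝ ι) :=
  {x | ∀ g, ∑ i ∈ Finset.univ.filter (fun i => grp i = g), (x i) ^ 2 ≤ c g}

theorem blockBody_good {ι G : Type*} [Fintype ι] [DecidableEq G] (grp : ι → G) (c : G → ℝ)
    (hc : ∀ g, 0 ≤ c g) : Good (blockBody grp c) := by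
  refine ⟨?_, ?_, ?_⟩
  · have : blockBody grp c = ⋂ g, {x : EuclideanSpace ℝ ι |
        ∑ i ∈ Finset.univ.filter (fun i => grp i = g), (x i) ^ 2 ≤ c g} := by
      ext x; simp [blockBody]
    rw [this]
    refine isClosed_iInter fun g => isClosed_le ?_ continuous_const
    fun_prop
  · intro x hx y hy a b ha hb hab g
    have h1 : ∑ i ∈ Finset.univ.filter (fun i => grp i = g), ((a • x + b • y) i) ^ 2
        ≤ a * ∑ i ∈ Finset.univ.filter (fun i => grp i = g), (x i) ^ 2
          + b * ∑ i ∈ Finset.univ.filter (fun i => grp i = g), (y i) ^ 2 := by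
      rw [Finset.mul_sum, Finset.mul_sum, ← Finset.sum_add_distrib]
      refine Finset.sum_le_sum fun i _ => ?_
      have h2 : (a • x + b • y) i = a * x i + b * y i := rfl
      rw [h2]
      have hb' : b = 1 - a := by linarith
      have h3 : 0 ≤ a * b * (x i - y i) ^ 2 := by positivity
      rw [hb'] at h3 ⊢
      nlinarith [h3]
    have h4 := hx g
    have h5 := hy g
    calc _ ≤ _ := h1
      _ ≤ a * c g + b * c g := add_le_add (mul_le_mul_of_nonneg_left h4 ha)
          (mul_le_mul_of_nonneg_left h5 hb)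
      _ = c g := by rw [← add_mul, hab, one_mul]
  · intro x hx g
    have h1 : ∀ i, (-x) i = -(x i) := fun i => rfl
    simp only [h1, neg_sq]
    exact hx g

theorem blockBody_measure {ι G : Type*} [Fintype ι] [Fintype G] [DecidableEq G] (grp : ι → G) (s : G → ℝ)
    (hs : ∀ g, 0 ≤ s g) :
    1 - (stdGaussian (EuclideanSpace ℝ ι)).real
      (blockBody grp (fun g => 8 * (((Finset.univ.filter (fun i => grp i = g)).card : ℝ) + s g)))
      ≤ ∑ g, Real.exp (-(s g)) := by
  set B := blockBody grp
    (fun g => 8 * (((Finset.univ.filter (fun i => grp i = g)).card : ℝ) + s g)) with hB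
  have hgood : Good B := blockBody_good _ _ fun g => by
    have := hs g
    positivity
  rw [← probReal_compl_eq_one_sub hgood.closed.measurableSet]
  have hsub : Bᶜ ⊆ ⋃ g, {x : EuclideanSpace ℝ ι |
      8 * (((Finset.univ.filter (fun i => grp i = g)).card : ℝ) + s g)
        < ∑ i ∈ Finset.univ.filter (fun i => grp i = g), (x i) ^ 2} := by
    intro x hx
    rw [Set.mem_compl_iff] at hx
    by_contra hcon
    apply hx
    intro g
    by_contra hg
    apply hcon
    rw [Set.mem_iUnion]
    exact ⟨g, not_le.1 hg⟩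
  calc (stdGaussian (EuclideanSpace ℝ ι)).real Bᶜ
      ≤ (stdGaussian (EuclideanSpace ℝ ι)).real (⋃ g, {x : EuclideanSpace ℝ ι |
      8 * (((Finset.univ.filter (fun i => grp i = g)).card : ℝ) + s g)
        < ∑ i ∈ Finset.univ.filter (fun i => grp i = g), (x i) ^ 2}) :=
        measureReal_mono hsub (measure_ne_top _ _)
    _ ≤ ∑ g, (stdGaussian (EuclideanSpace ℝ ι)).real {x : EuclideanSpace ℝ ι |
      8 * (((Finset.univ.filter (fun i => grp i = g)).card : ℝ) + s g)
        < ∑ i ∈ Finset.univ.filter (fun i => grp i = g), (x i) ^ 2} :=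
        measureReal_iUnion_fintype_le _
    _ ≤ ∑ g, Real.exp (-(s g)) := by
        refine Finset.sum_le_sum fun g _ => (tail_block _ (s g) (hs g)).trans ?_
        apply Real.exp_le_exp.2
        have : (0 : ℝ) ≤ ((Finset.univ.filter (fun i => grp i = g)).card : ℝ) :=
          Nat.cast_nonneg _
        linarith

end P262F
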