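import Vale.Agent.P262F.Defs
import Vale.Agent.P262F.M8

open MeasureTheory ProbabilityTheory
open scoped ENNReal BigOperators Pointwise

namespace P262F

/-- for a monotone `p`, the set `p < r` is an initial segment. -/
theorem m9_initial {N : ℕ} {p : Fin N → ℕ} (hp : Monotone p) (r : ℕ) (i : Fin N) :
    p i < r ↔ (i : ℕ) < (Finset.univ.filter (fun j => p j < r)).card := by
  constructor
  · intro h
    have hsub : Finset.Iic i ⊆ Finset.univ.filter (fun j => p j < r) := by
      intro j hj
      rw [Finset.mem_filter]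
      exact ⟨Finset.mem_univ _, lt_of_le_of_lt (hp (Finset.mem_Iic.1 hj)) h⟩
    have := Finset.card_le_card hsub
    rw [Fin.card_Iic] at this
    omega
  · intro h
    by_contra hn
    have hsub : Finset.univ.filter (fun j => p j < r) ⊆ Finset.Iio i := by
      intro j hj
      rw [Finset.mem_filter] at hj
      rw [Finset.mem_Iio]
      by_contra hji
      exact hn (lt_of_le_of_lt (hp (not_lt.1 hji)) hj.2)
    have := Finset.card_le_card hsub
    rw [Fin.card_Iio] at this
    omega

section

variable {E : Type*} [NormedAddCommGroup E] [InnerProductSpace ℝ E]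
    [FiniteDimensional ℝ E] [MeasurableSpace E] [BorelSpace E]

theorem m9_ball {K : Set E} (hK : Good K) (hm : 1 - (stdGaussian E).real K ≤ 1 / 8) {x : E}
    (hx : ‖x‖ ≤ 1 / 32) : x ∈ K := by
  obtain ⟨ε, hε, h⟩ := prefix_balance 1 (fun _ => x) (fun _ => hx) (fun _ => K) (fun _ => hK)
    (by simpa using hm)
  have h0 := h 0 (by norm_num)
  simp only [zero_add, Finset.sum_range_one] at h0
  rcases hε 0 with h1 | h1
  · rwa [h1, one_smul] at h0
  · rw [h1] at h0
    have := hK.symm _ h0
    simpa using this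

/-- signs of `W` with all prefix sums (in the order of `q`) in `K`. -/
theorem m9_signs {W : Type*} [Fintype W] (u : W → E) (hu : ∀ w, ‖u w‖ ≤ 1 / 32)
    (K : Set E) (hK : Good K) (M : ℕ) (hM : 1 ≤ M)
    (hm : (M : ℝ) * (1 - (stdGaussian E).real K) ≤ 1 / 8) (q : W → ℕ) :
    ∃ ε : W → ℝ, (∀ w, ε w = 1 ∨ ε w = -1) ∧ ∀ r ≤ M,
      ∑ w ∈ Finset.univ.filter (fun w => q w < r), ε w • u w ∈ K := by
  classical
  have hγ1 : (stdGaussian E).real K ≤ 1 := measureReal_le_one
  have hγ : 1 - (stdGaussian E).real K ≤ 1 / 8 := by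
    have h1 : (1 : ℝ) ≤ M := by exact_mod_cast hM
    nlinarith
  have h0K : (0 : E) ∈ K := m9_ball hK hγ (by simp)
  let e0 : Fin (Fintype.card W) ≃ W := (Fintype.equivFin W).symm
  let e : Fin (Fintype.card W) ≃ W := (Tuple.sort (q ∘ e0)).trans e0
  have hmono : Monotone (q ∘ e) := Tuple.monotone_sort (q ∘ e0)
  let N := Fintype.card W
  let u' : ℕ → E := fun i => if h : i < N then u (e ⟨i, h⟩) else 0
  let b : ℕ → ℕ := fun r => (Finset.univ.filter (fun j : Fin N => (q ∘ e) j < r)).card
  have hbN : ∀ r, b r ≤ N := by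
    intro r
    have := Finset.card_filter_le (Finset.univ : Finset (Fin N)) (fun j => (q ∘ e) j < r)
    simpa [b] using this
  let B : Finset ℕ := (Finset.Icc 1 M).image b
  have hBcard : B.card ≤ M := by
    refine Finset.card_image_le.trans ?_
    simp
  obtain ⟨ε, hε, h⟩ := prefix_balance N u' (by
      intro i
      by_cases hi : i < N
      · simp only [u', dif_pos hi]
        exact hu _
      · simp only [u', dif_neg hi]
        norm_num) (fun k => if k ∈ B then K else Set.univ) (by
      intro i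
      by_cases hi : i ∈ B
      · simp only [if_pos hi]
        exact hK
      · simp only [if_neg hi]
        exact ⟨isClosed_univ, convex_univ, fun _ _ => Set.mem_univ _⟩) (by
      refine le_trans ?_ hm
      have h1 : ∀ i ∈ Finset.range N, (1 - (stdGaussian E).real
          (if i + 1 ∈ B then K else Set.univ)) =
          if i + 1 ∈ B then (1 - (stdGaussian E).real K) else 0 := by
        intro i _
        by_cases hi : i + 1 ∈ B
        · simp only [if_pos hi]
        · simp only [if_neg hi]
          simp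
      rw [Finset.sum_congr rfl h1, ← Finset.sum_filter, Finset.sum_const, nsmul_eq_mul]
      refine mul_le_mul_of_nonneg_right ?_ (by linarith)
      have h2 : ((Finset.range N).filter (fun i => i + 1 ∈ B)).card ≤ B.card := by
        refine Finset.card_le_card_of_injOn (fun i => i + 1) ?_ ?_
        · intro i hi
          simp only [Finset.coe_filter, Set.mem_ofPred_eq] at hi
          exact hi.2
        · intro i _ j _ hij
          simpa using hij
      exact_mod_cast h2.trans hBcard)
  refine ⟨fun w => ε (e.symm w), fun w => hε _, fun r hr => ?_⟩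
  have hsum : ∑ w ∈ Finset.univ.filter (fun w => q w < r), ε (e.symm w) • u w =
      ∑ i ∈ Finset.range (b r), ε i • u' i := by
    have h1 : ∑ w ∈ Finset.univ.filter (fun w => q w < r), ε (e.symm w) • u w =
        ∑ i : Fin N, if (i : ℕ) < b r then ε i • u' i else 0 := by
      rw [Finset.sum_filter, ← Equiv.sum_comp e]
      refine Finset.sum_congr rfl fun i _ => ?_
      have h2 : q (e i) < r ↔ (i : ℕ) < b r := m9_initial hmono r i
      by_cases h3 : q (e i) < r
      · rw [if_pos h3, if_pos (h2.1 h3)]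
        simp [u', N]
      · rw [if_neg h3, if_neg (fun h4 => h3 (h2.2 h4))]
    rw [h1, Fin.sum_univ_eq_sum_range (fun i => if i < b r then ε i • u' i else 0) N,
      ← Finset.sum_filter]
    congr 1
    ext i
    simp only [Finset.mem_filter, Finset.mem_range]
    have := hbN r
    omega
  rw [hsum]
  rcases Nat.eq_zero_or_pos (b r) with h0 | h0
  · rw [h0, Finset.sum_range_zero]
    exact h0K
  · have hr1 : 1 ≤ r := by
      by_contra hr0
      have : r = 0 := by omega
      subst this
      simp [b] at h0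
    obtain ⟨k, hk⟩ : ∃ k, b r = k + 1 := ⟨b r - 1, by omega⟩
    have h1 := h k (by have := hbN r; omega)
    have h2 : k + 1 ∈ B := by
      rw [← hk]
      exact Finset.mem_image.2 ⟨r, Finset.mem_Icc.2 ⟨hr1, hr⟩, rfl⟩
    rw [if_pos h2] at h1
    rw [hk]
    exact h1

theorem m9_step {W : Type*} [Fintype W] (u : W → E) (hu : ∀ w, ‖u w‖ ≤ 1 / 32)
    (K : Set E) (hK : Good K) (l : ℕ)
    (hm : (2 : ℝ) ^ (l + 1) * (1 - (stdGaussian E).real K) ≤ 1 / 8) (c : ℝ) (hc : 0 ≤ c)
    (q : W → ℕ) (hq : ∀ w, q w < 2 ^ (l + 1))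
    (h : ∀ r : ℕ, r ≤ 2 ^ (l + 1) → ∃ y ∈ K,
      (∑ w ∈ Finset.univ.filter (fun w => q w < r), u w) -
        ((r : ℝ) / 2 ^ (l + 1)) • ∑ w, u w = c • y) :
    ∃ q' : W → ℕ, (∀ w, q' w < 2 ^ (l + 1)) ∧ ∀ r : ℕ, r ≤ 2 ^ (l + 1) → ∃ y ∈ K,
      (∑ w ∈ Finset.univ.filter (fun w => q' w < r), u w) -
        ((r : ℝ) / 2 ^ (l + 1)) • ∑ w, u w = ((c + 1) / 2) • y := by
  classical
  obtain ⟨ε, hε, hs⟩ := m9_signs u hu K hK (2 ^ (l + 1)) Nat.one_le_two_pow
    (by push_cast; exact hm) q
  have h2 : (2 : ℕ) ^ (l + 1) = 2 * 2 ^ l := by ring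
  -- convex combination
  have hcomb : ∀ y ∈ K, ∀ z ∈ K, ∃ x ∈ K, (1 / 2 : ℝ) • (c • y) + (1 / 2 : ℝ) • z =
      ((c + 1) / 2) • x := by
    intro y hy z hz
    refine ⟨(c / (c + 1)) • y + (1 / (c + 1)) • z, hK.convex hy hz (by positivity)
      (by positivity) (by field_simp), ?_⟩
    rw [smul_add, smul_smul, smul_smul, smul_smul]
    have : c + 1 ≠ 0 := by positivity
    congr 2
    · field_simp
    · field_simp
  -- sums over the plus part and over the minus part
  have hplus : ∀ r, ∑ w ∈ Finset.univ.filter (fun w => q w < r ∧ ε w = 1), u w =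
      (1 / 2 : ℝ) • (∑ w ∈ Finset.univ.filter (fun w => q w < r), u w) +
        (1 / 2 : ℝ) • ∑ w ∈ Finset.univ.filter (fun w => q w < r), ε w • u w := by
    intro r
    rw [Finset.smul_sum, Finset.smul_sum, ← Finset.sum_add_distrib, Finset.filter_and,
      ← Finset.filter_and, ← Finset.filter_filter, Finset.sum_filter]
    refine Finset.sum_congr rfl fun w _ => ?_
    rcases hε w with h1 | h1
    · rw [if_pos h1, h1, one_smul, ← add_smul]
      norm_num
    · rw [if_neg (by rw [h1]; norm_num), h1]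
      simp
  have hminus : ∀ r, ∑ w ∈ Finset.univ.filter (fun w => q w < r ∧ ε w = -1), u w =
      (1 / 2 : ℝ) • (∑ w ∈ Finset.univ.filter (fun w => q w < r), u w) -
        (1 / 2 : ℝ) • ∑ w ∈ Finset.univ.filter (fun w => q w < r), ε w • u w := by
    intro r
    rw [Finset.smul_sum, Finset.smul_sum, ← Finset.sum_sub_distrib,
      ← Finset.filter_filter, Finset.sum_filter]
    refine Finset.sum_congr rfl fun w _ => ?_
    rcases hε w with h1 | h1
    · rw [if_neg (by rw [h1]; norm_num), h1]
      simp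
    · rw [if_pos h1, h1, neg_one_smul, smul_neg, sub_neg_eq_add, ← add_smul]
      norm_num
  refine ⟨fun w => if ε w = 1 then q w / 2 else 2 ^ (l + 1) - 1 - q w / 2, ?_, ?_⟩
  · intro w
    have := hq w
    have h1 : 0 < 2 ^ l := Nat.two_pow_pos l
    by_cases hw : ε w = 1
    · simp only [if_pos hw]
      omega
    · simp only [if_neg hw]
      omega
  · intro r hr
    rcases le_or_gt r (2 ^ l) with hrl | hrl
    · -- first half
      have hf : Finset.univ.filter (fun w => (if ε w = 1 then q w / 2 else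
          2 ^ (l + 1) - 1 - q w / 2) < r) =
          Finset.univ.filter (fun w => q w < 2 * r ∧ ε w = 1) := by
        ext w
        simp only [Finset.mem_filter, Finset.mem_univ, true_and]
        have := hq w
        by_cases hw : ε w = 1
        · simp only [if_pos hw]
          constructor
          · intro h'
            exact ⟨by omega, hw⟩
          · rintro ⟨h', -⟩
            omega
        · simp only [if_neg hw]
          constructor
          · intro h'
            omega
          · rintro ⟨-, h'⟩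
            exact absurd h' hw
      rw [hf, hplus]
      obtain ⟨y, hy, hy'⟩ := h (2 * r) (by omega)
      obtain ⟨x, hx, hx'⟩ := hcomb y hy _ (hs (2 * r) (by omega))
      refine ⟨x, hx, ?_⟩
      rw [← hx', ← hy', smul_sub, smul_smul]
      have : (1 / 2 : ℝ) * (((2 * r : ℕ) : ℝ) / 2 ^ (l + 1)) = (r : ℝ) / 2 ^ (l + 1) := by
        push_cast
        ring
      rw [this]
      abel
    · -- second half
      obtain ⟨r', hr'⟩ : ∃ r', r = 2 ^ (l + 1) - r' ∧ r' ≤ 2 ^ (l + 1) :=
        ⟨2 ^ (l + 1) - r, by omega, by omega⟩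
      have hf : Finset.univ.filter (fun w => ¬ (if ε w = 1 then q w / 2 else
          2 ^ (l + 1) - 1 - q w / 2) < r) =
          Finset.univ.filter (fun w => q w < 2 * r' ∧ ε w = -1) := by
        ext w
        simp only [Finset.mem_filter, Finset.mem_univ, true_and]
        have := hq w
        rcases hε w with hw | hw
        · simp only [if_pos hw]
          constructor
          · intro h'
            omega
          · rintro ⟨-, h'⟩
            rw [hw] at h'
            norm_num at h'
        · have hw' : ε w ≠ 1 := by rw [hw]; norm_num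
          simp only [if_neg hw']
          constructor
          · intro h'
            exact ⟨by omega, hw⟩
          · rintro ⟨h', -⟩
            omega
      have hsplit : ∑ w ∈ Finset.univ.filter (fun w => (if ε w = 1 then q w / 2 else
          2 ^ (l + 1) - 1 - q w / 2) < r), u w = ∑ w, u w -
          ∑ w ∈ Finset.univ.filter (fun w => q w < 2 * r' ∧ ε w = -1), u w := by
        rw [← hf, ← Finset.sum_filter_add_sum_filter_not Finset.univ (fun w =>
          (if ε w = 1 then q w / 2 else 2 ^ (l + 1) - 1 - q w / 2) < r) u]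
        abel
      rw [hsplit, hminus]
      obtain ⟨y, hy, hy'⟩ := h (2 * r') (by omega)
      obtain ⟨x, hx, hx'⟩ := hcomb (-y) (hK.symm y hy) _ (hs (2 * r') (by omega))
      refine ⟨x, hx, ?_⟩
      rw [← hx', smul_neg, ← hy', smul_neg, smul_sub, smul_smul]
      have e1 : (1 / 2 : ℝ) * (((2 * r' : ℕ) : ℝ) / 2 ^ (l + 1)) = (r' : ℝ) / 2 ^ (l + 1) := by
        push_cast
        ring
      have e2 : (r : ℝ) / 2 ^ (l + 1) = 1 - (r' : ℝ) / 2 ^ (l + 1) := by
        rw [hr'.1, Nat.cast_sub hr'.2]
        push_cast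
        have : (2 : ℝ) ^ (l + 1) ≠ 0 := by positivity
        field_simp
      rw [e1, e2, sub_smul, one_smul]
      abel

end

/- M-way ordered partition by folding -/
theorem partition_body {E : Type*} [NormedAddCommGroup E] [InnerProductSpace ℝ E]
    [FiniteDimensional ℝ E] [MeasurableSpace E] [BorelSpace E]
    {W : Type*} [Fintype W] (u : W → E) (hu : ∀ w, ‖u w‖ ≤ 1 / 32)
    (K : Set E) (hK : Good K) (L : ℕ)
    (hm : (2 : ℝ) ^ L * (1 - (stdGaussian E).real K) ≤ 1 / 8) :
    ∃ q : W → ℕ, (∀ w, q w < 2 ^ L) ∧ ∀ r : ℕ, r ≤ 2 ^ L →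
      (∑ w ∈ Finset.univ.filter (fun w => q w < r), u w) - ((r : ℝ) / 2 ^ L) • ∑ w, u w ∈ K := by
  classical
  have hγ1 : (stdGaussian E).real K ≤ 1 := measureReal_le_one
  have hγ : 1 - (stdGaussian E).real K ≤ 1 / 8 := by
    have h1 : (1 : ℝ) ≤ 2 ^ L := one_le_pow₀ (by norm_num)
    nlinarith
  have h0K : (0 : E) ∈ K := m9_ball hK hγ (by simp)
  rcases L with _ | l
  · refine ⟨fun _ => 0, fun _ => by norm_num, fun r hr => ?_⟩
    rcases Nat.eq_zero_or_pos r with h0 | h0
    · subst h0
      simpa using h0K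
    · have : r = 1 := by
        simp at hr
        omega
      subst this
      simpa using h0K
  · -- the start
    have hstart : ∀ q : W → ℕ, ∃ c : ℝ, 0 ≤ c ∧ ∀ r : ℕ, r ≤ 2 ^ (l + 1) → ∃ y ∈ K,
        (∑ w ∈ Finset.univ.filter (fun w => q w < r), u w) -
        ((r : ℝ) / 2 ^ (l + 1)) • ∑ w, u w = (1 + c) • y := by
      intro q
      let v : ℕ → E := fun r => (∑ w ∈ Finset.univ.filter (fun w => q w < r), u w) -
        ((r : ℝ) / 2 ^ (l + 1)) • ∑ w, u w
      refine ⟨∑ r ∈ Finset.range (2 ^ (l + 1) + 1), 32 * ‖v r‖, by positivity, ?_⟩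
      intro r hr
      set c := ∑ r ∈ Finset.range (2 ^ (l + 1) + 1), 32 * ‖v r‖ with hc
      have hc0 : 0 ≤ c := by positivity
      have hcr : 32 * ‖v r‖ ≤ c :=
        Finset.single_le_sum (f := fun r => 32 * ‖v r‖) (fun i _ => by positivity)
          (Finset.mem_range.2 (by omega))
      refine ⟨(1 + c)⁻¹ • v r, m9_ball hK hγ ?_, ?_⟩
      · rw [norm_smul, norm_inv, Real.norm_of_nonneg (by positivity), inv_mul_le_iff₀
          (by positivity)]
        linarith
      · rw [smul_smul, mul_inv_cancel₀ (by positivity), one_smul]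
    obtain ⟨c0, hc0, hstart⟩ := hstart (fun _ => 0)
    have hall : ∀ n : ℕ, ∃ q : W → ℕ, (∀ w, q w < 2 ^ (l + 1)) ∧ ∀ r : ℕ, r ≤ 2 ^ (l + 1) →
        ∃ y ∈ K, (∑ w ∈ Finset.univ.filter (fun w => q w < r), u w) -
        ((r : ℝ) / 2 ^ (l + 1)) • ∑ w, u w = (1 + c0 / 2 ^ n) • y := by
      intro n
      induction n with
      | zero => exact ⟨fun _ => 0, fun _ => by positivity, by simpa using hstart⟩
      | succ n ih =>
        obtain ⟨q, hq, h⟩ := ih
        obtain ⟨q', hq', h'⟩ := m9_step u hu K hK l hm (1 + c0 / 2 ^ n) (by positivity) q hq h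
        refine ⟨q', hq', fun r hr => ?_⟩
        obtain ⟨y, hy, hy'⟩ := h' r hr
        refine ⟨y, hy, ?_⟩
        rw [hy']
        congr 1
        ring
    by_contra hno
    push Not at hno
    have hev : ∀ q : W → Fin (2 ^ (l + 1)), ∀ᶠ n : ℕ in Filter.atTop,
        ¬ ∀ r : ℕ, r ≤ 2 ^ (l + 1) →
        ∃ y ∈ K, (∑ w ∈ Finset.univ.filter (fun w => (q w : ℕ) < r), u w) -
        ((r : ℝ) / 2 ^ (l + 1)) • ∑ w, u w = (1 + c0 / 2 ^ n) • y := by
      intro q
      obtain ⟨r, hr, hrK⟩ := hno (fun w => (q w : ℕ)) (fun w => (q w).2)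
      set v := (∑ w ∈ Finset.univ.filter (fun w => (q w : ℕ) < r), u w) -
        ((r : ℝ) / 2 ^ (l + 1)) • ∑ w, u w with hv
      have hlim : Filter.Tendsto (fun n : ℕ => (1 + c0 / 2 ^ n)⁻¹ • v) Filter.atTop
          (nhds v) := by
        have h1 : Filter.Tendsto (fun n : ℕ => (1 + c0 / 2 ^ n)⁻¹) Filter.atTop
            (nhds (1 + 0)⁻¹) := by
          refine Filter.Tendsto.inv₀ (Filter.Tendsto.const_add 1 ?_) (by norm_num)
          refine Filter.Tendsto.const_div_atTop ?_ c0
          exact tendsto_pow_atTop_atTop_of_one_lt (by norm_num)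
        have h2 := h1.smul_const v
        simpa using h2
      have hopen : Kᶜ ∈ nhds v := hK.closed.isOpen_compl.mem_nhds hrK
      filter_upwards [hlim.eventually hopen] with n hn hall'
      obtain ⟨y, hy, hy'⟩ := hall' r hr
      apply hn
      have h3 : (1 + c0 / 2 ^ n : ℝ) ≠ 0 := by positivity
      rw [hv, hy', smul_smul, inv_mul_cancel₀ h3, one_smul]
      exact hy
    obtain ⟨n, hn⟩ := (Filter.eventually_all.2 hev).exists
    obtain ⟨q, hq, h⟩ := hall n
    exact hn (fun w => ⟨q w, hq w⟩) h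

end P262F
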