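import Vale.Agent.P262F.Defs
import Vale.Agent.P262F.M9
import Vale.Agent.P262F.M10
import Vale.Agent.P262F.M11

open MeasureTheory ProbabilityTheory
open scoped ENNReal BigOperators Pointwise

namespace P262F

theorem m12_exp3 : Real.exp (-3) ≤ 1 / 8 := by
  rw [Real.exp_neg, ← one_div]
  apply one_div_le_one_div_of_le (by norm_num)
  have h1 : (2 : ℝ) ≤ Real.exp 1 := by
    have := Real.add_one_le_exp (1 : ℝ); linarith
  have h2 : Real.exp 3 = Real.exp 1 ^ 3 := by
    rw [← Real.exp_nat_mul]; norm_num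
  rw [h2]
  calc (8 : ℝ) = 2 ^ 3 := by norm_num
    _ ≤ Real.exp 1 ^ 3 := pow_le_pow_left₀ (by norm_num) h1 3

section
variable {W ι G : Type} [Fintype ι] [Fintype G] [DecidableEq G]

/-- scaled vectors -/
noncomputable def m12v (u : W → ι → ℝ) (w : W) : EuclideanSpace ℝ ι :=
  WithLp.toLp 2 (fun i => u w i / 32)

omit [Fintype ι] in
theorem m12v_apply (u : W → ι → ℝ) (w : W) (i : ι) : m12v u w i = u w i / 32 := rfl

theorem m12v_norm (u : W → ι → ℝ) (hu : ∀ w, ∑ i, (u w i) ^ 2 ≤ 1) (w : W) :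
    ‖m12v u w‖ ≤ 1 / 32 := by
  rw [EuclideanSpace.norm_eq]
  apply Real.sqrt_le_iff.2
  refine ⟨by norm_num, ?_⟩
  have h1 : ∑ i, ‖m12v u w i‖ ^ 2 = (∑ i, (u w i) ^ 2) / 1024 := by
    rw [Finset.sum_div]
    refine Finset.sum_congr rfl fun i _ => ?_
    rw [m12v_apply, Real.norm_eq_abs, sq_abs]; ring
  rw [h1]
  have := hu w
  norm_num
  linarith

omit [Fintype ι] in
theorem m12_sum (X : Finset W) (u : W → ι → ℝ) (i : ι) :
    (∑ w ∈ X, m12v u w) i = (∑ w ∈ X, u w i) / 32 := by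
  rw [WithLp.ofLp_sum, Finset.sum_apply, Finset.sum_div]
  exact Finset.sum_congr rfl fun w _ => m12v_apply u w i

omit [Fintype ι] in
theorem m12_sum_smul (X : Finset W) (a : W → ℝ) (u : W → ι → ℝ) (i : ι) :
    (∑ w ∈ X, a w • m12v u w) i = (∑ w ∈ X, a w * u w i) / 32 := by
  rw [WithLp.ofLp_sum, Finset.sum_apply, Finset.sum_div]
  refine Finset.sum_congr rfl fun w _ => ?_
  show a w * (u w i / 32) = _
  ring

/-- reading off the block constraints -/
theorem m12_read (grp : ι → G) (s : G → ℝ) (hs : ∀ g, 1 ≤ s g) (y : EuclideanSpace ℝ ι)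
    (z : ι → ℝ) (hz : ∀ i, y i = z i / 32)
    (hy : y ∈ blockBody grp (fun g =>
      8 * (((Finset.univ.filter (fun i => grp i = g)).card : ℝ) + (s g + 3)))) (g : G) :
    ∑ i ∈ Finset.univ.filter (fun i => grp i = g), (z i) ^ 2
      ≤ 32768 * (((Finset.univ.filter (fun i => grp i = g)).card : ℝ) + s g) := by
  have h1 := hy g
  have h2 : ∑ i ∈ Finset.univ.filter (fun i => grp i = g), (y i) ^ 2
      = (∑ i ∈ Finset.univ.filter (fun i => grp i = g), (z i) ^ 2) / 1024 := by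
    rw [Finset.sum_div]
    refine Finset.sum_congr rfl fun i _ => ?_
    rw [hz]; ring
  rw [h2, div_le_iff₀ (by norm_num)] at h1
  have h3 : (0 : ℝ) ≤ ((Finset.univ.filter (fun i => grp i = g)).card : ℝ) := Nat.cast_nonneg _
  have h4 := hs g
  linarith

theorem m12_meas (grp : ι → G) (s : G → ℝ) (hs : ∀ g, 1 ≤ s g) (L : ℕ)
    (hL : ∑ g, Real.exp (-(s g)) ≤ 1 / 2 ^ L) :
    (2 : ℝ) ^ L * (1 - (stdGaussian (EuclideanSpace ℝ ι)).real (blockBody grp (fun g =>
      8 * (((Finset.univ.filter (fun i => grp i = g)).card : ℝ) + (s g + 3))))) ≤ 1 / 8 := by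
  have h1 := blockBody_measure grp (fun g => s g + 3) (fun g => by have := hs g; linarith)
  have h2 : ∑ g, Real.exp (-(s g + 3)) = (∑ g, Real.exp (-(s g))) * Real.exp (-3) := by
    rw [Finset.sum_mul]
    refine Finset.sum_congr rfl fun g _ => ?_
    rw [← Real.exp_add]; congr 1; ring
  rw [h2] at h1
  have h3 : (∑ g, Real.exp (-(s g))) * Real.exp (-3) ≤ 1 / 2 ^ L * (1 / 8) :=
    mul_le_mul hL m12_exp3 (Real.exp_pos _).le (by positivity)
  have hp : (0 : ℝ) < 2 ^ L := by positivity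
  calc _ ≤ (2 : ℝ) ^ L * (1 / 2 ^ L * (1 / 8)) :=
        mul_le_mul_of_nonneg_left (h1.trans h3) hp.le
    _ = 1 / 8 := by field_simp

end

/- the engine -/
theorem engine : ∃ C : ℝ, 0 < C ∧
    ∀ (W ι G : Type) [Fintype W] [DecidableEq W] [Fintype ι] [Fintype G] [DecidableEq G]
      (grp : ι → G) (s : G → ℝ) (u : W → ι → ℝ),
      (∀ w, ∑ i, (u w i) ^ 2 ≤ 1) → (∀ g, 1 ≤ s g) →
      (∀ L : ℕ, ∑ g, Real.exp (-(s g)) ≤ 1 / 2 ^ L →
        ∃ q : W → ℕ, (∀ w, q w < 2 ^ L) ∧ ∀ r : ℕ, r ≤ 2 ^ L → ∀ g,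
          ∑ i ∈ Finset.univ.filter (fun i => grp i = g),
            ((∑ w ∈ Finset.univ.filter (fun w => q w < r), u w i)
              - ((r : ℝ) / 2 ^ L) * ∑ w, u w i) ^ 2
          ≤ C * (((Finset.univ.filter (fun i => grp i = g)).card : ℝ) + s g)) ∧
      (∑ g, Real.exp (-(s g)) ≤ 1 → ∀ x : W → ℝ, (∀ w, 0 ≤ x w ∧ x w ≤ 1) →
        ∃ X : Finset W, ∀ g,
          ∑ i ∈ Finset.univ.filter (fun i => grp i = g),
            ((∑ w ∈ X, u w i) - ∑ w, x w * u w i) ^ 2
          ≤ C * (((Finset.univ.filter (fun i => grp i = g)).card : ℝ) + s g)) := by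
  refine ⟨32768, by norm_num, ?_⟩
  intro W ι G _ _ _ _ _ grp s u hu hs
  have hgood : Good (blockBody grp (fun g =>
      8 * (((Finset.univ.filter (fun i => grp i = g)).card : ℝ) + (s g + 3)))) := by
    refine blockBody_good _ _ fun g => ?_
    have := hs g
    positivity
  refine ⟨fun L hL => ?_, fun h1 x hx => ?_⟩
  · obtain ⟨q, hq, hqr⟩ := partition_body (m12v u) (m12v_norm u hu) _ hgood L
      (m12_meas grp s hs L hL)
    refine ⟨q, hq, fun r hr g => ?_⟩
    refine m12_read grp s hs _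
      (fun i => (∑ w ∈ Finset.univ.filter (fun w => q w < r), u w i)
              - ((r : ℝ) / 2 ^ L) * ∑ w, u w i) (fun i => ?_) (hqr r hr) g
    have e : ∀ (a b : EuclideanSpace ℝ ι) (c : ℝ), (a - c • b) i = a i - c * b i :=
      fun a b c => rfl
    rw [e, m12_sum, m12_sum]
    ring
  · have hm := m12_meas grp s hs 0 (by simpa using h1)
    rw [pow_zero, one_mul] at hm
    obtain ⟨X, hX⟩ := round_body (m12v u) (m12v_norm u hu) _ hgood (by linarith) x hx
    refine ⟨X, fun g => ?_⟩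
    refine m12_read grp s hs _
      (fun i => (∑ w ∈ X, u w i) - ∑ w, x w * u w i) (fun i => ?_) hX g
    have e : ∀ (a b : EuclideanSpace ℝ ι), (a - b) i = a i - b i := fun a b => rfl
    rw [e, m12_sum, m12_sum_smul]
    ring

end P262F
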