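import Vale.Agent.P262F.R1a
import Vale.Agent.P262F.M12

open scoped BigOperators
open Classical

namespace P262F
namespace Inst

variable {W J : Type} [Fintype W] [Fintype J] (I : Inst W J) (C0 : ℕ)

theorem r1_sg_pos (β : ℤ) (t : ℕ) : 0 < I.sg C0 β t := Real.rpow_pos_of_pos (by norm_num) _

/-- the vectors fed into the engine -/
noncomputable def EU (t T : ℕ) (w : W) : J ⊕ (J × J) ⊕ Fin (T + 1) → ℝ
  | Sum.inl j => (1 / 2) * (I.lt C0 t w j / I.sg C0 (I.b j) t)
  | Sum.inr (Sum.inl p) => (1 / 2) *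
      (if ¬ I.frozen C0 (I.b p.1) t ∧ ¬ I.frozen C0 (I.b p.2) t then I.v w p.1 * I.v w p.2 else 0)
  | Sum.inr (Sum.inr κ) => (1 / 2) *
      (if t < (κ : ℕ) then (1 / 2 : ℝ) ^ ((κ : ℕ) - t) * I.tau C0 κ w else 0)

/-- occurring blocks -/
noncomputable def BB : Finset ℤ := Finset.univ.image I.b

/-- groups -/
noncomputable def EG (t T : ℕ) : J ⊕ (J × J) ⊕ Fin (T + 1) → I.BB ⊕ (I.BB × I.BB) ⊕ Fin (T + 1)
  | Sum.inl j => Sum.inl ⟨I.b j, Finset.mem_image_of_mem _ (Finset.mem_univ _)⟩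
  | Sum.inr (Sum.inl p) => Sum.inr (Sum.inl
      (⟨I.b p.1, Finset.mem_image_of_mem _ (Finset.mem_univ _)⟩,
       ⟨I.b p.2, Finset.mem_image_of_mem _ (Finset.mem_univ _)⟩))
  | Sum.inr (Sum.inr κ) => Sum.inr (Sum.inr κ)

/-- slacks -/
noncomputable def ES (t T : ℕ) : I.BB ⊕ (I.BB × I.BB) ⊕ Fin (T + 1) → ℝ
  | Sum.inl β => (I.alt C0 t : ℝ) + |((β : ℤ) : ℝ) - I.lev C0 t|
  | Sum.inr (Sum.inl p) => (I.alt C0 t : ℝ) + |((p.1 : ℤ) : ℝ) - I.lev C0 t|
      + |((p.2 : ℤ) : ℝ) - I.lev C0 t|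
  | Sum.inr (Sum.inr κ) => (I.alt C0 t : ℝ) + |((κ : ℕ) : ℝ) - t|

theorem r1_geo_aux (t n : ℕ) :
    ∑ κ ∈ Finset.range n, (if t < κ then (1 / 4 : ℝ) ^ (κ - t) else 0)
      + (if t < n then (1 / 3 : ℝ) * (1 / 4 : ℝ) ^ (n - 1 - t) else 1 / 3) ≤ 1 / 3 := by
  induction n with
  | zero => simp
  | succ n ih =>
    rw [Finset.sum_range_succ]
    rcases lt_trichotomy n t with h | h | h
    · have h1 : ¬ t < n := by omega
      have h2 : ¬ t < n + 1 := by omega
      rw [if_neg h1] at ih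
      rw [if_neg h1, if_neg h2]
      linarith
    · subst h
      simp only [lt_irrefl, if_false] at ih ⊢
      rw [if_pos (by omega : n < n + 1)]
      have : n + 1 - 1 - n = 0 := by omega
      rw [this]
      simp only [pow_zero]
      linarith
    · rw [if_pos h] at ih
      rw [if_pos h, if_pos (by omega : t < n + 1)]
      have h1 : n + 1 - 1 - t = (n - 1 - t) + 1 := by omega
      have h2 : n - t = (n - 1 - t) + 1 := by omega
      rw [h1, h2, pow_succ]
      linarith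

theorem r1_EU_norm (t T : ℕ) (w : W) : ∑ i, (I.EU C0 t T w i) ^ 2 ≤ 1 := by
  rw [Fintype.sum_sum_type, Fintype.sum_sum_type]
  have h1 : ∑ j, (I.EU C0 t T w (Sum.inl j)) ^ 2 ≤ 1 / 2 := by
    have : ∑ j, (I.EU C0 t T w (Sum.inl j)) ^ 2
        = (1 / 4) * ∑ j, (I.lt C0 t w j) ^ 2 / (I.sg C0 (I.b j) t) ^ 2 := by
      rw [Finset.mul_sum]
      refine Finset.sum_congr rfl fun j _ => ?_
      simp only [EU]
      rw [mul_pow, div_pow (I.lt C0 t w j)]
      norm_num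
    rw [this]
    have := I.light_norm C0 t w
    linarith
  have h2 : ∑ p : J × J, (I.EU C0 t T w (Sum.inr (Sum.inl p))) ^ 2 ≤ 1 / 4 := by
    have h3 : ∑ p : J × J, (I.EU C0 t T w (Sum.inr (Sum.inl p))) ^ 2
        ≤ ∑ p : J × J, (1 / 4) * ((I.v w p.1) ^ 2 * (I.v w p.2) ^ 2) := by
      refine Finset.sum_le_sum fun p _ => ?_
      simp only [EU]
      split_ifs
      · rw [mul_pow, mul_pow]; norm_num
      · simp only [mul_zero, ne_eq, OfNat.ofNat_ne_zero, not_false_eq_true, zero_pow]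
        positivity
    refine h3.trans ?_
    rw [← Finset.mul_sum, Fintype.sum_prod_type]
    have h4 : ∑ x, ∑ y, (I.v w x) ^ 2 * (I.v w y) ^ 2 = (∑ j, (I.v w j) ^ 2) ^ 2 := by
      rw [sq (∑ j, (I.v w j) ^ 2), Finset.sum_mul]
      refine Finset.sum_congr rfl fun j _ => ?_
      rw [Finset.mul_sum]
    simp only
    rw [h4]
    have h5 := I.hv w
    have h6 : 0 ≤ ∑ j, (I.v w j) ^ 2 := Finset.sum_nonneg fun j _ => sq_nonneg _
    nlinarith
  have h3 : ∑ κ : Fin (T + 1), (I.EU C0 t T w (Sum.inr (Sum.inr κ))) ^ 2 ≤ 1 / 4 := by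
    have h4 : ∑ κ : Fin (T + 1), (I.EU C0 t T w (Sum.inr (Sum.inr κ))) ^ 2
        ≤ ∑ κ : Fin (T + 1), (1 / 4) * (if t < (κ : ℕ) then (1 / 4 : ℝ) ^ ((κ : ℕ) - t) else 0) := by
      refine Finset.sum_le_sum fun κ _ => ?_
      simp only [EU]
      split_ifs
      · rw [mul_pow, mul_pow]
        have h5 := I.tau_nonneg C0 κ w
        have h6 := I.tau_le_one C0 κ w
        have h7 : ((1 / 2 : ℝ) ^ ((κ : ℕ) - t)) ^ 2 = (1 / 4 : ℝ) ^ ((κ : ℕ) - t) := by
          rw [← pow_mul, mul_comm, pow_mul]; norm_num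
        rw [h7]
        have h8 : (0 : ℝ) ≤ (1 / 4 : ℝ) ^ ((κ : ℕ) - t) := by positivity
        have h9 : (I.tau C0 κ w) ^ 2 ≤ 1 := by nlinarith
        nlinarith
      · simp
    refine h4.trans ?_
    rw [← Finset.mul_sum]
    have h5 := r1_geo_aux t (T + 1)
    rw [Finset.sum_range] at h5
    have h6 : (0 : ℝ) ≤ (if t < T + 1 then (1 / 3 : ℝ) * (1 / 4 : ℝ) ^ (T + 1 - 1 - t) else 1 / 3) := by
      split_ifs <;> positivity
    linarith
  linarith

theorem r1_alt_ge_one (hC : 64 ≤ C0) (t : ℕ) : (1 : ℝ) ≤ I.alt C0 t := by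
  have h : 16 * C0 ≤ I.alt C0 t := le_max_left _ _
  have : 1 ≤ I.alt C0 t := by omega
  exact_mod_cast this

theorem r1_ES_ge_one (hC : 64 ≤ C0) (t T : ℕ) (g) : 1 ≤ I.ES C0 t T g := by
  have h := I.r1_alt_ge_one C0 hC t
  rcases g with g | g | g
  · simp only [ES]; have := abs_nonneg (((g : ℤ) : ℝ) - I.lev C0 t); linarith
  · simp only [ES]
    have := abs_nonneg (((g.1 : ℤ) : ℝ) - I.lev C0 t)
    have := abs_nonneg (((g.2 : ℤ) : ℝ) - I.lev C0 t)
    linarith
  · simp only [ES]; have := abs_nonneg (((g : ℕ) : ℝ) - t); linarith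

theorem r1_ES_sum (hC : 64 ≤ C0) (t T : ℕ) :
    ∑ g, Real.exp (-(I.ES C0 t T g)) ≤ 1 / 2 ^ (I.Lam C0 t + 1) := by
  rw [Fintype.sum_sum_type, Fintype.sum_sum_type, Fintype.sum_prod_type]
  have h1 := I.slack_blocks C0 t hC I.BB
  have h2 := I.slack_kappa C0 t T hC
  rw [Finset.sum_range] at h2
  have h3 : ∑ β : I.BB, Real.exp (-(I.ES C0 t T (Sum.inl β)))
      = ∑ β ∈ I.BB, Real.exp (-((I.alt C0 t : ℝ) + |(β : ℝ) - I.lev C0 t|)) := by
    rw [← Finset.sum_coe_sort I.BB]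
    rfl
  have h4 : ∑ β : I.BB, ∑ γ : I.BB, Real.exp (-(I.ES C0 t T (Sum.inr (Sum.inl (β, γ)))))
      = ∑ β ∈ I.BB, ∑ γ ∈ I.BB,
        Real.exp (-((I.alt C0 t : ℝ) + |(β : ℝ) - I.lev C0 t| + |(γ : ℝ) - I.lev C0 t|)) := by
    rw [← Finset.sum_coe_sort I.BB]
    refine Finset.sum_congr rfl fun β _ => ?_
    rw [← Finset.sum_coe_sort I.BB]
    rfl
  have h5 : ∑ κ : Fin (T + 1), Real.exp (-(I.ES C0 t T (Sum.inr (Sum.inr κ))))
      = ∑ κ : Fin (T + 1), Real.exp (-((I.alt C0 t : ℝ) + |((κ : ℕ) : ℝ) - t|)) := rfl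
  rw [h3, h4, h5]
  have h6 : (0 : ℝ) < 1 / 2 ^ (I.Lam C0 t + 1) := by positivity
  linarith

theorem r1_sum_grp {M : Type} [AddCommMonoid M] (t T : ℕ) (F : J ⊕ (J × J) ⊕ Fin (T + 1) → M) (g) :
    ∑ i ∈ Finset.univ.filter (fun i => I.EG t T i = g), F i
      = (∑ j, if I.EG t T (Sum.inl j) = g then F (Sum.inl j) else 0)
      + ((∑ p : J × J, if I.EG t T (Sum.inr (Sum.inl p)) = g then F (Sum.inr (Sum.inl p)) else 0)
      + (∑ κ : Fin (T + 1), if I.EG t T (Sum.inr (Sum.inr κ)) = g then F (Sum.inr (Sum.inr κ)) else 0)) := by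
  rw [Finset.sum_filter, Fintype.sum_sum_type, Fintype.sum_sum_type]

theorem r1_sum_grp_inl {M : Type} [AddCommMonoid M] (t T : ℕ) (F : J ⊕ (J × J) ⊕ Fin (T + 1) → M)
    (β : I.BB) :
    ∑ i ∈ Finset.univ.filter (fun i => I.EG t T i = Sum.inl β), F i
      = ∑ j ∈ Finset.univ.filter (fun j => I.b j = β), F (Sum.inl j) := by
  rw [r1_sum_grp, Finset.sum_filter]
  simp [EG, Subtype.ext_iff]

theorem r1_sum_grp_inr {M : Type} [AddCommMonoid M] (t T : ℕ) (F : J ⊕ (J × J) ⊕ Fin (T + 1) → M)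
    (β γ : I.BB) :
    ∑ i ∈ Finset.univ.filter (fun i => I.EG t T i = Sum.inr (Sum.inl (β, γ))), F i
      = ∑ j ∈ Finset.univ.filter (fun j => I.b j = β),
        ∑ l ∈ Finset.univ.filter (fun l => I.b l = γ), F (Sum.inr (Sum.inl (j, l))) := by
  rw [r1_sum_grp, Finset.sum_filter]
  simp only [EG, reduceCtorEq, if_false, Finset.sum_const_zero, zero_add, add_zero,
    Sum.inr.injEq, Sum.inl.injEq, Prod.mk.injEq, Subtype.ext_iff, Fintype.sum_prod_type]
  refine Finset.sum_congr rfl fun j _ => ?_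
  by_cases h : I.b j = β
  · simp [h, Finset.sum_filter]
  · simp [h]

theorem r1_sum_grp_kap {M : Type} [AddCommMonoid M] (t T : ℕ) (F : J ⊕ (J × J) ⊕ Fin (T + 1) → M)
    (κ : Fin (T + 1)) :
    ∑ i ∈ Finset.univ.filter (fun i => I.EG t T i = Sum.inr (Sum.inr κ)), F i
      = F (Sum.inr (Sum.inr κ)) := by
  rw [r1_sum_grp]
  simp [EG]

theorem r1_card_grp (t T : ℕ) (g) :
    (((Finset.univ.filter (fun i => I.EG t T i = g)).card : ℕ) : ℝ)
      = ∑ i ∈ Finset.univ.filter (fun i => I.EG t T i = g), (1 : ℝ) := by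
  simp

theorem r1_ctl_of (C : ℝ) (hC : 0 < C) (E : ℝ) (hE : 2 * Real.sqrt C ≤ E) (t T : ℕ) (ω : W → ℝ)
    (h : ∀ g, ∑ i ∈ Finset.univ.filter (fun i => I.EG t T i = g), (∑ w, ω w * I.EU C0 t T w i) ^ 2
      ≤ C * (((Finset.univ.filter (fun i => I.EG t T i = g)).card : ℝ) + I.ES C0 t T g)) :
    I.Ctl C0 E t T ω := by
  have hE0 : 0 ≤ E := le_trans (by positivity) hE
  have hsq : ∀ a N : ℝ, 0 ≤ a → 0 ≤ N → a ^ 2 ≤ 4 * C * N → a ≤ E * Real.sqrt N := by
    intro a N ha hN h1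
    have h2 : a ≤ Real.sqrt (4 * C * N) := Real.le_sqrt_of_sq_le h1
    have h3 : Real.sqrt (4 * C * N) = 2 * Real.sqrt C * Real.sqrt N := by
      rw [Real.sqrt_mul (by positivity), Real.sqrt_mul (by norm_num)]
      have : Real.sqrt 4 = 2 := by
        rw [show (4 : ℝ) = 2 ^ 2 by norm_num]
        exact Real.sqrt_sq (by norm_num)
      rw [this]
    rw [h3] at h2
    exact h2.trans (mul_le_mul_of_nonneg_right hE (Real.sqrt_nonneg _))
  refine ⟨?_, ?_, ?_⟩
  · intro β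
    by_cases hβ : β ∈ I.BB
    · have h1 := h (Sum.inl ⟨β, hβ⟩)
      rw [r1_card_grp, r1_sum_grp_inl, r1_sum_grp_inl] at h1
      simp only [EU, ES, Finset.sum_const, nsmul_eq_mul, mul_one] at h1
      have hs := I.r1_sg_pos C0 β t
      have h2 : ∑ j ∈ Finset.univ.filter (fun j => I.b j = β),
          (∑ w, ω w * (1 / 2 * (I.lt C0 t w j / I.sg C0 (I.b j) t))) ^ 2
          = (∑ j ∈ Finset.univ.filter (fun j => I.b j = β), (I.ls C0 t ω j) ^ 2)
            / (4 * (I.sg C0 β t) ^ 2) := by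
        rw [Finset.sum_div]
        refine Finset.sum_congr rfl fun j hj => ?_
        rw [(Finset.mem_filter.1 hj).2]
        have : ∑ w, ω w * (1 / 2 * (I.lt C0 t w j / I.sg C0 β t))
            = (I.ls C0 t ω j) / (2 * I.sg C0 β t) := by
          rw [ls, Finset.sum_div]
          refine Finset.sum_congr rfl fun w _ => ?_
          field_simp
        rw [this, div_pow]
        congr 1
        ring
      rw [h2, div_le_iff₀ (by positivity)] at h1
      have h3 : (I.bn β (I.ls C0 t ω) / I.sg C0 β t) ≤ E * Real.sqrt (I.Nn C0 β t) := by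
        refine hsq _ _ (div_nonneg (Real.sqrt_nonneg _) hs.le) ?_ ?_
        · unfold Nn; positivity
        · rw [div_pow, div_le_iff₀ (by positivity)]
          unfold bn
          rw [Real.sq_sqrt (Finset.sum_nonneg fun j _ => sq_nonneg _)]
          refine h1.trans (le_of_eq ?_)
          unfold Nn nb
          ring
      rw [div_le_iff₀ hs] at h3
      linarith
    · have : Finset.univ.filter (fun j => I.b j = β) = ∅ := by
        refine Finset.filter_eq_empty_iff.2 fun j _ hj => hβ ?_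
        rw [← hj]
        exact Finset.mem_image_of_mem _ (Finset.mem_univ _)
      have h0 : I.bn β (I.ls C0 t ω) = 0 := by
        unfold bn; rw [this]; simp
      rw [h0]
      have hs := I.r1_sg_pos C0 β t
      positivity
  · intro β γ hfβ hfγ
    by_cases hβ : β ∈ I.BB ∧ γ ∈ I.BB
    · have h1 := h (Sum.inr (Sum.inl (⟨β, hβ.1⟩, ⟨γ, hβ.2⟩)))
      rw [r1_card_grp, r1_sum_grp_inr, r1_sum_grp_inr] at h1
      simp only [EU, ES, Finset.sum_const, nsmul_eq_mul, mul_one] at h1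
      have h2 : ∑ j ∈ Finset.univ.filter (fun j => I.b j = β),
          ∑ l ∈ Finset.univ.filter (fun l => I.b l = γ),
          (∑ w, ω w * (1 / 2 * (if ¬ I.frozen C0 (I.b j) t ∧ ¬ I.frozen C0 (I.b l) t
            then I.v w j * I.v w l else 0))) ^ 2
          = (∑ j ∈ Finset.univ.filter (fun j => I.b j = β),
          ∑ l ∈ Finset.univ.filter (fun l => I.b l = γ), (I.ms ω j l) ^ 2) / 4 := by
        rw [Finset.sum_div]
        refine Finset.sum_congr rfl fun j hj => ?_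
        rw [Finset.sum_div]
        refine Finset.sum_congr rfl fun l hl => ?_
        rw [(Finset.mem_filter.1 hj).2, (Finset.mem_filter.1 hl).2]
        simp only [hfβ, hfγ, not_false_eq_true, and_self, if_true]
        have : ∑ w, ω w * (1 / 2 * (I.v w j * I.v w l)) = (I.ms ω j l) / 2 := by
          rw [ms, Finset.sum_div]
          refine Finset.sum_congr rfl fun w _ => ?_
          ring
        rw [this, div_pow]
        norm_num
      rw [h2, div_le_iff₀ (by positivity)] at h1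
      refine hsq _ _ (Real.sqrt_nonneg _) ?_ ?_
      · unfold N2; positivity
      · unfold bn2
        rw [Real.sq_sqrt (Finset.sum_nonneg fun j _ => Finset.sum_nonneg fun l _ => sq_nonneg _)]
        refine h1.trans (le_of_eq ?_)
        unfold N2 nb
        ring
    · have h0 : I.bn2 β γ (I.ms ω) = 0 := by
        unfold bn2
        rw [Real.sqrt_eq_zero']
        refine le_of_eq (Finset.sum_eq_zero fun j hj => Finset.sum_eq_zero fun l hl => ?_)
        exfalso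
        apply hβ
        rw [← (Finset.mem_filter.1 hj).2, ← (Finset.mem_filter.1 hl).2]
        exact ⟨Finset.mem_image_of_mem _ (Finset.mem_univ _),
          Finset.mem_image_of_mem _ (Finset.mem_univ _)⟩
      rw [h0]
      positivity
  · intro κ h1 h2
    have h3 := h (Sum.inr (Sum.inr ⟨κ, by omega⟩))
    rw [r1_card_grp, r1_sum_grp_kap, r1_sum_grp_kap] at h3
    simp only [EU, ES, if_pos h1] at h3
    have h4 : ∑ w, ω w * (1 / 2 * ((1 / 2 : ℝ) ^ (κ - t) * I.tau C0 κ w))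
        = (I.ts C0 κ ω) / (2 * 2 ^ (κ - t)) := by
      rw [ts, Finset.sum_div]
      refine Finset.sum_congr rfl fun w _ => ?_
      rw [one_div_pow]
      field_simp
    rw [h4, div_pow, div_le_iff₀ (by positivity)] at h3
    have hκt : (0 : ℝ) ≤ (κ : ℝ) - t := by
      have : (t : ℝ) ≤ κ := by exact_mod_cast h1.le
      linarith
    rw [abs_of_nonneg hκt] at h3
    have h5 : |I.ts C0 κ ω| / 2 ^ (κ - t) ≤ E * Real.sqrt (1 + I.alt C0 t + ((κ : ℝ) - t)) := by
      refine hsq _ _ (by positivity) (by positivity) ?_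
      rw [div_pow, sq_abs, div_le_iff₀ (by positivity)]
      refine h3.trans (le_of_eq ?_)
      ring
    rw [div_le_iff₀ (by positivity)] at h5
    linarith

end Inst

/-- the engine specialised to an instance: partition and rounding with controlled errors -/
theorem engine_inst : ∃ E : ℝ, 1 ≤ E ∧
    ∀ (W J : Type) [Fintype W] [Fintype J] (I : Inst W J) (C0 : ℕ), 64 ≤ C0 → ∀ t T : ℕ,
      (∀ S : Finset W, ∃ q : W → ℕ, (∀ w, q w < 2 ^ (I.Lam C0 t + 1)) ∧
        ∀ i : ℕ, i ≤ 2 ^ (I.Lam C0 t + 1) →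
          I.Ctl C0 E t T (fun w => Inst.ind (fun w => w ∈ S ∧ q w < i) w
            - (i : ℝ) / 2 ^ (I.Lam C0 t + 1) * Inst.ind (fun w => w ∈ S) w)) ∧
      (∀ S : Finset W, ∀ x : W → ℝ, (∀ w, 0 ≤ x w ∧ x w ≤ 1) → ∃ X : Finset W, X ⊆ S ∧
          I.Ctl C0 E t T (fun w => Inst.ind (fun w => w ∈ X) w - Inst.ind (fun w => w ∈ S) w * x w)) := by
  obtain ⟨C, hC, heng⟩ := engine
  refine ⟨max 1 (2 * Real.sqrt C), le_max_left _ _, ?_⟩
  intro W J _ _ I C0 hC0 t T
  have hnorm : ∀ S : Finset W, ∀ w, ∑ i, ((if w ∈ S then I.EU C0 t T w i else 0)) ^ 2 ≤ 1 := by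
    intro S w
    by_cases hw : w ∈ S
    · simp only [if_pos hw]; exact I.r1_EU_norm C0 t T w
    · simp [hw]
  refine ⟨?_, ?_⟩
  · intro S
    obtain ⟨h1, -⟩ := heng W (J ⊕ (J × J) ⊕ Fin (T + 1)) (I.BB ⊕ (I.BB × I.BB) ⊕ Fin (T + 1))
      (I.EG t T) (I.ES C0 t T) (fun w i => if w ∈ S then I.EU C0 t T w i else 0) (hnorm S)
      (I.r1_ES_ge_one C0 hC0 t T)
    obtain ⟨q, hq, hq2⟩ := h1 (I.Lam C0 t + 1) (I.r1_ES_sum C0 hC0 t T)
    refine ⟨q, hq, fun r hr => ?_⟩
    refine I.r1_ctl_of C0 C hC _ (le_max_right _ _) t T _ fun g => ?_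
    refine le_trans (le_of_eq ?_) (hq2 r hr g)
    refine Finset.sum_congr rfl fun i _ => ?_
    congr 1
    rw [Finset.sum_filter, Finset.mul_sum, ← Finset.sum_sub_distrib]
    refine Finset.sum_congr rfl fun w _ => ?_
    simp only [Inst.ind]
    by_cases hw : w ∈ S <;> by_cases hq' : q w < r <;> simp [hw, hq'] <;> ring
  · intro S x hx
    obtain ⟨-, h1⟩ := heng W (J ⊕ (J × J) ⊕ Fin (T + 1)) (I.BB ⊕ (I.BB × I.BB) ⊕ Fin (T + 1))
      (I.EG t T) (I.ES C0 t T) (fun w i => if w ∈ S then I.EU C0 t T w i else 0) (hnorm S)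
      (I.r1_ES_ge_one C0 hC0 t T)
    have h2 : ∑ g, Real.exp (-(I.ES C0 t T g)) ≤ 1 := by
      refine (I.r1_ES_sum C0 hC0 t T).trans ?_
      rw [div_le_one (by positivity)]
      exact one_le_pow₀ (by norm_num)
    obtain ⟨X, hX⟩ := h1 h2 x hx
    refine ⟨X ∩ S, Finset.inter_subset_right, ?_⟩
    refine I.r1_ctl_of C0 C hC _ (le_max_right _ _) t T _ fun g => ?_
    refine le_trans (le_of_eq ?_) (hX g)
    refine Finset.sum_congr rfl fun i _ => ?_
    congr 1
    have : ∑ w ∈ X, (if w ∈ S then I.EU C0 t T w i else 0)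
        = ∑ w, if w ∈ X then (if w ∈ S then I.EU C0 t T w i else 0) else 0 := by
      rw [Finset.sum_ite_mem Finset.univ X (fun w => if w ∈ S then I.EU C0 t T w i else 0),
        Finset.univ_inter]
    rw [this, ← Finset.sum_sub_distrib]
    refine Finset.sum_congr rfl fun w _ => ?_
    simp only [Inst.ind, Finset.mem_inter]
    by_cases hw : w ∈ S <;> by_cases hq' : w ∈ X <;> simp [hw, hq'] <;> ring

end P262F
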