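import Vale.Agent.P262F.RDefs

open scoped BigOperators
open Classical

namespace P262F

/-- diagonalization: every zero-sum family is isometric to an instance with at most `d` coordinates -/
theorem exists_inst (d N : ℕ) (v : Fin N → EuclideanSpace ℝ (Fin d)) (hv : ∀ i, ‖v i‖ ≤ 1)
    (h0 : ∑ i, v i = 0) :
    ∃ (J : Type) (_ : Fintype J) (I : Inst (Fin N) J), Fintype.card J ≤ d ∧
      ∀ ω : Fin N → ℝ, ‖∑ i, ω i • v i‖ ^ 2 = ∑ j, (∑ i, ω i * I.v i j) ^ 2 := by
  classical
  let E := EuclideanSpace ℝ (Fin d)
  -- the second moment operator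
  let T : E →ₗ[ℝ] E := ∑ i, (LinearMap.smulRight (innerₗ E (v i)) (v i))
  have hTapp : ∀ x, T x = ∑ i, (inner ℝ (v i) x) • v i := by
    intro x
    simp [T, LinearMap.sum_apply]
  have hsym : T.IsSymmetric := by
    intro x y
    rw [hTapp, hTapp, sum_inner, inner_sum]
    refine Finset.sum_congr rfl fun i _ => ?_
    rw [inner_smul_left, inner_smul_right, real_inner_comm x (v i)]
    simp
    ring
  have hn : Module.finrank ℝ E = d := by simp [E]
  let e := hsym.eigenvectorBasis hn
  let lam := hsym.eigenvalues hn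
  have hinner : ∀ x y : E, inner ℝ (T x) y = ∑ i, inner ℝ (v i) x * inner ℝ (v i) y := by
    intro x y
    rw [hTapp, sum_inner]
    refine Finset.sum_congr rfl fun i _ => ?_
    rw [inner_smul_left]; simp
  have hmom : ∀ j l, ∑ i, inner ℝ (v i) (e j) * inner ℝ (v i) (e l) = if j = l then lam j else 0 := by
    intro j l
    rw [← hinner]
    have : T (e j) = lam j • e j := hsym.apply_eigenvectorBasis hn j
    rw [this, inner_smul_left]
    have h2 := (orthonormal_iff_ite.1 e.orthonormal) j l
    rw [h2]
    by_cases h : j = l <;> simp [h]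
  have hlam : ∀ j, ∑ i, (inner ℝ (v i) (e j)) ^ 2 = lam j := by
    intro j
    have := hmom j j
    simp only [if_true] at this
    rw [← this]
    exact Finset.sum_congr rfl fun i _ => by ring
  have hlam0 : ∀ j, 0 ≤ lam j := fun j => by
    rw [← hlam]; exact Finset.sum_nonneg fun i _ => sq_nonneg _
  have hzero : ∀ j, lam j = 0 → ∀ i, inner ℝ (v i) (e j) = 0 := by
    intro j hj i
    rw [← hlam] at hj
    have := (Finset.sum_eq_zero_iff_of_nonneg (fun i _ => sq_nonneg _)).1 hj i (Finset.mem_univ _)
    exact pow_eq_zero_iff (two_ne_zero) |>.1 this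
  have hpars : ∀ x : E, ∑ j, (inner ℝ x (e j)) ^ 2 = ‖x‖ ^ 2 := by
    intro x
    have := e.sum_sq_norm_inner_left x
    rw [← this]
    refine Finset.sum_congr rfl fun j _ => ?_
    rw [Real.norm_eq_abs, sq_abs]
  let J := {j : Fin d // lam j ≠ 0}
  -- sums over J
  have hJsum : ∀ f : Fin d → ℝ, (∀ j, lam j = 0 → f j = 0) → ∑ j : J, f j.1 = ∑ j, f j := by
    intro f hf
    have h1 : ∑ j ∈ Finset.univ.filter (fun j => lam j ≠ 0), f j = ∑ j : J, f j.1 :=
      Finset.sum_subtype _ (by simp) f
    rw [← h1, Finset.sum_filter]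
    refine Finset.sum_congr rfl fun j _ => ?_
    by_cases h : lam j = 0
    · simp [h, hf j h]
    · simp [h]
  refine ⟨J, inferInstance, ?_⟩
  refine ⟨{ v := fun i j => inner ℝ (v i) (e j.1)
            b := fun j => Int.log 2 (lam j.1)
            hv := ?_
            hsum := ?_
            horth := ?_
            hb1 := ?_
            hb2 := ?_ }, ?_, ?_⟩
  · intro i
    rw [hJsum (fun j => (inner ℝ (v i) (e j)) ^ 2) (fun j hj => by simp [hzero j hj i]), hpars]
    have h := hv i
    have h' := norm_nonneg (v i)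
    nlinarith
  · intro j
    rw [← sum_inner, h0, inner_zero_left]
  · intro j l hjl
    rw [hmom, if_neg]
    intro h; exact hjl (Subtype.ext h)
  · intro j
    rw [hlam]
    have := Int.zpow_log_le_self (b := 2) (r := lam j.1) (by norm_num) (lt_of_le_of_ne (hlam0 _) (Ne.symm j.2))
    exact_mod_cast this
  · intro j
    rw [hlam]
    have := Int.lt_zpow_succ_log_self (b := 2) (by norm_num) (lam j.1)
    exact_mod_cast this
  · calc Fintype.card J ≤ Fintype.card (Fin d) := Fintype.card_subtype_le _
      _ = d := Fintype.card_fin d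
  · intro ω
    have h1 : ∀ j : J, (∑ i, ω i * inner ℝ (v i) (e j.1)) = inner ℝ (∑ i, ω i • v i) (e j.1) := by
      intro j
      rw [sum_inner]
      refine Finset.sum_congr rfl fun i _ => ?_
      rw [inner_smul_left]; simp
    simp only [h1]
    rw [hJsum (fun j => (inner ℝ (∑ i, ω i • v i) (e j)) ^ 2), hpars]
    intro j hj
    have : inner ℝ (∑ i, ω i • v i) (e j) = 0 := by
      rw [sum_inner]
      refine Finset.sum_eq_zero fun i _ => ?_
      rw [inner_smul_left, hzero j hj i, mul_zero]
    rw [this]; norm_num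

end P262F
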