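import Vale.Agent.P262F.R9
import Vale.Agent.P262F.R10

open scoped BigOperators
open Classical

namespace P262F

/-- sorting by an injective key -/
theorem sort_key {N : ℕ} (c : Fin N → ℕ) (hc : Function.Injective c) :
    ∃ π : Equiv.Perm (Fin N), ∀ k ≤ N, ∃ r : ℕ, ∀ (M : Type) [AddCommMonoid M] (f : Fin N → M),
      (∑ i ∈ Finset.univ.filter (fun i : Fin N => i.val < k), f (π i)) =
        ∑ w ∈ Finset.univ.filter (fun w => c w < r), f w := by
  refine ⟨Tuple.sort c, fun k hk => ?_⟩
  have hmono : StrictMono (c ∘ Tuple.sort c) :=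
    (Tuple.monotone_sort c).strictMono_of_injective (hc.comp (Tuple.sort c).injective)
  rcases Nat.lt_or_ge k N with h | h
  · refine ⟨c (Tuple.sort c ⟨k, h⟩), fun M _ f => ?_⟩
    refine Finset.sum_bij (fun i _ => Tuple.sort c i) ?_ ?_ ?_ ?_
    · intro i hi
      simp only [Finset.mem_filter, Finset.mem_univ, true_and] at hi ⊢
      exact hmono (show i < ⟨k, h⟩ from hi)
    · intro a _ b _ hab
      exact (Tuple.sort c).injective hab
    · intro w hw
      simp only [Finset.mem_filter, Finset.mem_univ, true_and] at hw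
      refine ⟨(Tuple.sort c).symm w, ?_, by simp⟩
      simp only [Finset.mem_filter, Finset.mem_univ, true_and]
      have h1 : (c ∘ Tuple.sort c) ((Tuple.sort c).symm w) < (c ∘ Tuple.sort c) ⟨k, h⟩ := by
        simpa using hw
      exact hmono.lt_iff_lt.1 h1
    · intro i _
      rfl
  · have hkN : k = N := le_antisymm hk h
    subst hkN
    refine ⟨(Finset.univ.sup c) + 1, fun M _ f => ?_⟩
    have h1 : (Finset.univ.filter fun i : Fin k => i.val < k) = Finset.univ := by
      ext i; simp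
    have h2 : (Finset.univ.filter fun w : Fin k => c w < Finset.univ.sup c + 1) = Finset.univ := by
      ext w
      simp only [Finset.mem_filter, Finset.mem_univ, true_and, iff_true]
      exact Nat.lt_succ_of_le (Finset.le_sup (Finset.mem_univ w))
    rw [h1, h2]
    exact Equiv.sum_comp (Tuple.sort c) f

theorem perm_bound_full : ∃ C : ℝ, 0 < C ∧ ∀ (d : ℕ) (N : ℕ) (v : Fin N → EuclideanSpace ℝ (Fin d)),
    (∀ i, ‖v i‖ ≤ 1) → ∑ i, v i = 0 →
    ∃ π : Equiv.Perm (Fin N), ∀ k ≤ N,
      ‖∑ i ∈ Finset.univ.filter (fun i : Fin N => i.val < k), v (π i)‖ ≤ C * Real.sqrt d := by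
  obtain ⟨C, hC, h⟩ := inst_order
  refine ⟨Real.sqrt C, Real.sqrt_pos.2 hC, fun d N v hv h0 => ?_⟩
  obtain ⟨J, hJ, I, hcard, hnorm⟩ := exists_inst d N v hv h0
  obtain ⟨c, hc, hb⟩ := h (Fin N) J I
  obtain ⟨π, hπ⟩ := sort_key c hc
  refine ⟨π, fun k hk => ?_⟩
  obtain ⟨r, hr⟩ := hπ k hk
  rw [hr _ v]
  have h1 := hnorm (fun w => if c w < r then 1 else 0)
  simp only [ite_smul, one_smul, zero_smul, ite_mul, one_mul, zero_mul] at h1
  rw [← Finset.sum_filter] at h1
  simp only [← Finset.sum_filter] at h1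
  have h2 := hb r
  rw [← h1] at h2
  rw [← Real.sqrt_mul hC.le]
  apply Real.le_sqrt_of_sq_le
  refine h2.trans ?_
  exact mul_le_mul_of_nonneg_left (by exact_mod_cast hcard) hC.le

end P262F
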