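import Vale.Agent.P262F.R3

open scoped BigOperators
open Classical

namespace P262F
namespace Inst

variable {W J : Type} [Fintype W] [Fintype J] (I : Inst W J) (C0 : ℕ)

theorem r1a_load_nonneg (w : W) (t : ℕ) (D : ℤ → Prop) : 0 ≤ I.load C0 w t D := by
  unfold load
  refine Finset.sum_nonneg fun j _ => ?_
  split_ifs
  · positivity
  · exact le_rfl

theorem tau_nonneg (t : ℕ) (w : W) : 0 ≤ I.tau C0 t w :=
  le_min zero_le_one (r1a_load_nonneg I C0 w t _)

theorem tau_le_one (t : ℕ) (w : W) : I.tau C0 t w ≤ 1 := min_le_left _ _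

theorem r1a_dropPrev_succ (w : W) (t : ℕ) (β : ℤ) : I.dropPrev C0 w (t + 1) β ↔
    (I.dropPrev C0 w t β ∨ (I.frozen C0 β t ∧ 1 < I.load C0 w t (I.dropPrev C0 w t))) := Iff.rfl

theorem r1a_drop_iff (w : W) (t : ℕ) (β : ℤ) : I.drop C0 w β t ↔
    (I.dropPrev C0 w t β ∨ (I.frozen C0 β t ∧ 1 < I.load C0 w t (I.dropPrev C0 w t))) := Iff.rfl

theorem r1a_frozen_of_dropPrev {w : W} {β : ℤ} : ∀ {t : ℕ}, I.dropPrev C0 w t β →
    I.frozen C0 β t := by
  intro t
  induction t with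
  | zero => intro h; exact absurd h (fun h => h)
  | succ t ih =>
    intro h
    rw [r1a_dropPrev_succ] at h
    rcases h with h | h
    · exact frozen_succ I C0 (ih h)
    · exact frozen_succ I C0 h.1

/-- a block that is dropped is frozen -/
theorem frozen_of_drop {w : W} {β : ℤ} {t : ℕ} (h : I.drop C0 w β t) : I.frozen C0 β t := by
  rw [r1a_drop_iff] at h
  rcases h with h | h
  · exact r1a_frozen_of_dropPrev I C0 h
  · exact h.1

theorem drop_mono {w : W} {β : ℤ} {t t' : ℕ} (htt : t ≤ t') (h : I.drop C0 w β t) : I.drop C0 w β t' := by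
  induction htt with
  | refl => exact h
  | step _ ih =>
    rw [r1a_drop_iff]
    exact Or.inl ih

/-- the light part on the frozen blocks is controlled by tau -/
theorem light_load_le (t : ℕ) (w : W) :
    ∑ j, (if I.frozen C0 (I.b j) t then (I.lt C0 t w j) ^ 2 / (I.sg C0 (I.b j) t) ^ 2 else 0)
      ≤ I.tau C0 t w := by
  by_cases h : 1 < I.load C0 w t (I.dropPrev C0 w t)
  · have h0 : ∑ j, (if I.frozen C0 (I.b j) t then
        (I.lt C0 t w j) ^ 2 / (I.sg C0 (I.b j) t) ^ 2 else 0) = 0 := by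
      refine Finset.sum_eq_zero fun j _ => ?_
      by_cases hf : I.frozen C0 (I.b j) t
      · have hd : I.drop C0 w (I.b j) t := by
          rw [r1a_drop_iff]; exact Or.inr ⟨hf, h⟩
        rw [if_pos hf]
        unfold lt
        rw [if_pos hd]
        simp
      · rw [if_neg hf]
    rw [h0]
    exact tau_nonneg I C0 t w
  · have h1 : I.tau C0 t w = I.load C0 w t (I.dropPrev C0 w t) := min_eq_right (not_lt.1 h)
    rw [h1]
    unfold load
    refine Finset.sum_le_sum fun j _ => ?_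
    by_cases hf : I.frozen C0 (I.b j) t
    · rw [if_pos hf]
      by_cases hd : I.dropPrev C0 w t (I.b j)
      · have hd' : I.drop C0 w (I.b j) t := by
          rw [r1a_drop_iff]; exact Or.inl hd
        unfold lt
        rw [if_pos hd', if_neg (fun h' => h'.2 hd)]
        simp
      · have hd' : ¬ I.drop C0 w (I.b j) t := by
          rw [r1a_drop_iff]
          rintro (h' | h')
          · exact hd h'
          · exact h h'.2
        unfold lt
        rw [if_neg hd', if_pos ⟨hf, hd⟩]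
    · rw [if_neg hf, if_neg (fun h' => hf h'.1)]

/-- total scaled norm of the light vector -/
theorem light_norm (t : ℕ) (w : W) :
    ∑ j, (I.lt C0 t w j) ^ 2 / (I.sg C0 (I.b j) t) ^ 2 ≤ 2 := by
  have h1 := light_load_le I C0 t w
  have h2 := tau_le_one I C0 t w
  have h3 : ∑ j, (if I.frozen C0 (I.b j) t then 0 else
      (I.lt C0 t w j) ^ 2 / (I.sg C0 (I.b j) t) ^ 2) ≤ 1 := by
    refine le_trans (Finset.sum_le_sum fun j _ => ?_) (I.hv w)
    by_cases hf : I.frozen C0 (I.b j) t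
    · rw [if_pos hf]; positivity
    · rw [if_neg hf, sg_eq_one I C0 hf]
      unfold lt
      split_ifs
      · simp; positivity
      · simp
  have h4 : ∑ j, (I.lt C0 t w j) ^ 2 / (I.sg C0 (I.b j) t) ^ 2
      = ∑ j, (if I.frozen C0 (I.b j) t then (I.lt C0 t w j) ^ 2 / (I.sg C0 (I.b j) t) ^ 2 else 0)
        + ∑ j, (if I.frozen C0 (I.b j) t then 0 else
          (I.lt C0 t w j) ^ 2 / (I.sg C0 (I.b j) t) ^ 2) := by
    rw [← Finset.sum_add_distrib]
    refine Finset.sum_congr rfl fun j _ => ?_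
    split_ifs <;> simp
  rw [h4]
  linarith

/-- a vector newly dropped at time `t` has tau = 1 -/
theorem tau_of_new_drop {w : W} {β : ℤ} {t : ℕ} (h : I.drop C0 w β t)
    (h' : ¬ I.dropPrev C0 w t β) : I.tau C0 t w = 1 := by
  rw [r1a_drop_iff] at h
  rcases h with h | h
  · exact absurd h h'
  · exact min_eq_left h.2.le

/-- not dropped at time `t` and frozen: small block norm -/
theorem bn_le_sg {w : W} {β : ℤ} {t : ℕ} (hf : I.frozen C0 β t) (h : ¬ I.drop C0 w β t) :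
    I.bn β (I.v w) ≤ I.sg C0 β t := by
  rw [r1a_drop_iff] at h
  push Not at h
  obtain ⟨hd, hl⟩ := h
  have hl := hl hf
  have hs := sg_pos I C0 β t
  unfold bn
  rw [Real.sqrt_le_left hs.le]
  have h1 : (∑ j ∈ Finset.univ.filter (fun j => I.b j = β), (I.v w j) ^ 2) / (I.sg C0 β t) ^ 2
      ≤ I.load C0 w t (I.dropPrev C0 w t) := by
    rw [Finset.sum_div, Finset.sum_filter]
    unfold load
    refine Finset.sum_le_sum fun j _ => ?_
    by_cases hj : I.b j = β
    · rw [if_pos hj, hj, if_pos ⟨hf, hd⟩]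
    · rw [if_neg hj]
      split_ifs
      · positivity
      · exact le_rfl
  have h2 := h1.trans hl
  rw [div_le_one (by positivity)] at h2
  exact h2

theorem bn_v_le_one (w : W) (β : ℤ) : I.bn β (I.v w) ≤ 1 := by
  unfold bn
  rw [Real.sqrt_le_left zero_le_one, one_pow]
  refine le_trans ?_ (I.hv w)
  exact Finset.sum_le_sum_of_subset_of_nonneg (Finset.filter_subset _ _)
    fun j _ _ => sq_nonneg _

/-! ### slack sums -/

theorem r1a_half (B : Finset ℤ) (l : ℤ) (hB : Set.InjOn (fun β : ℤ => (β - l).natAbs) B) :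
    ∑ β ∈ B, (1 / 2 : ℝ) ^ ((β - l).natAbs) ≤ 2 := by
  have h1 : ∑ n ∈ B.image (fun β : ℤ => (β - l).natAbs), (1 / 2 : ℝ) ^ n
      = ∑ β ∈ B, (1 / 2 : ℝ) ^ ((β - l).natAbs) := Finset.sum_image hB
  rw [← h1]
  have h2 : ∑ n ∈ B.image (fun β : ℤ => (β - l).natAbs), (1 / 2 : ℝ) ^ n
      ≤ ∑' n : ℕ, (1 / 2 : ℝ) ^ n :=
    summable_geometric_two.sum_le_tsum _ fun n _ => by positivity
  rw [tsum_geometric_two] at h2
  exact h2

theorem r1a_geo (B : Finset ℤ) (l : ℤ) : ∑ β ∈ B, (1 / 2 : ℝ) ^ ((β - l).natAbs) ≤ 4 := by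
  rw [← Finset.sum_filter_add_sum_filter_not B (fun β => l ≤ β)]
  have h1 := r1a_half (B.filter (fun β => l ≤ β)) l (by
    intro a ha b hb hab
    simp only [Finset.coe_filter, Set.mem_ofPred_eq] at ha hb
    simp only at hab
    omega)
  have h2 := r1a_half (B.filter (fun β => ¬ l ≤ β)) l (by
    intro a ha b hb hab
    simp only [Finset.coe_filter, Set.mem_ofPred_eq] at ha hb
    simp only at hab
    omega)
  linarith

theorem r1a_exp (z : ℤ) : Real.exp (-|(z : ℝ)|) ≤ (1 / 2 : ℝ) ^ z.natAbs := by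
  have h1 : |(z : ℝ)| = (z.natAbs : ℝ) := by
    rw [Nat.cast_natAbs, Int.cast_abs]
  rw [h1]
  have h2 : Real.exp (-(z.natAbs : ℝ)) = Real.exp (-1) ^ z.natAbs := by
    rw [← Real.exp_nat_mul]; congr 1; ring
  rw [h2]
  refine pow_le_pow_left₀ (Real.exp_pos _).le ?_ _
  rw [Real.exp_neg, ← one_div]
  apply one_div_le_one_div_of_le (by norm_num)
  have := Real.add_one_le_exp (1 : ℝ)
  linarith

theorem r1a_alt (t : ℕ) (hC : 64 ≤ C0) :
    Real.exp (-(I.alt C0 t : ℝ)) * 32 ≤ 1 / 2 * (1 / 2 ^ (I.Lam C0 t + 1)) := by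
  have h1 := Lam_le I C0 t
  have h2 := alt_ge I C0 t
  have h3 : Real.exp (-(I.alt C0 t : ℝ)) ≤ (1 / 2 : ℝ) ^ (I.alt C0 t) := by
    have := r1a_exp (I.alt C0 t : ℤ)
    simpa using this
  have h4 : (1 / 2 : ℝ) ^ (I.alt C0 t) ≤ (1 / 2 : ℝ) ^ (I.Lam C0 t + 7) :=
    pow_le_pow_of_le_one (by norm_num) (by norm_num) (by omega)
  have h5 : (1 / 2 : ℝ) ^ (I.Lam C0 t + 7) * 32 = 1 / 2 * (1 / 2 ^ (I.Lam C0 t + 1)) := by
    rw [pow_add, pow_add]
    simp only [one_div, inv_pow]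
    norm_num
    ring
  calc Real.exp (-(I.alt C0 t : ℝ)) * 32 ≤ (1 / 2 : ℝ) ^ (I.Lam C0 t + 7) * 32 := by
        apply mul_le_mul_of_nonneg_right (h3.trans h4) (by norm_num)
    _ = _ := h5

theorem r1a_S (B : Finset ℤ) (l : ℕ) : ∑ β ∈ B, Real.exp (-|(β : ℝ) - l|) ≤ 4 := by
  refine le_trans (Finset.sum_le_sum fun β _ => ?_) (r1a_geo B (l : ℤ))
  have := r1a_exp (β - (l : ℤ))
  push_cast at this
  exact this

/-- slack sums for the engine -/
theorem slack_blocks (t : ℕ) (hC : 64 ≤ C0) (B : Finset ℤ) :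
    ∑ β ∈ B, Real.exp (-((I.alt C0 t : ℝ) + |(β : ℝ) - I.lev C0 t|))
      + ∑ β ∈ B, ∑ γ ∈ B, Real.exp (-((I.alt C0 t : ℝ) + |(β : ℝ) - I.lev C0 t| + |(γ : ℝ) - I.lev C0 t|))
      ≤ 1 / 2 * (1 / 2 ^ (I.Lam C0 t + 1)) := by
  set S := ∑ β ∈ B, Real.exp (-|(β : ℝ) - I.lev C0 t|) with hS
  have hS4 : S ≤ 4 := r1a_S B (I.lev C0 t)
  have hS0 : 0 ≤ S := Finset.sum_nonneg fun β _ => (Real.exp_pos _).le
  have h1 : ∑ β ∈ B, Real.exp (-((I.alt C0 t : ℝ) + |(β : ℝ) - I.lev C0 t|))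
      = Real.exp (-(I.alt C0 t : ℝ)) * S := by
    rw [hS, Finset.mul_sum]
    refine Finset.sum_congr rfl fun β _ => ?_
    rw [← Real.exp_add]; congr 1; ring
  have h2 : ∑ β ∈ B, ∑ γ ∈ B, Real.exp (-((I.alt C0 t : ℝ) + |(β : ℝ) - I.lev C0 t|
      + |(γ : ℝ) - I.lev C0 t|)) = Real.exp (-(I.alt C0 t : ℝ)) * (S * S) := by
    rw [hS, Finset.sum_mul_sum, Finset.mul_sum]
    refine Finset.sum_congr rfl fun β _ => ?_
    rw [Finset.mul_sum]
    refine Finset.sum_congr rfl fun γ _ => ?_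
    rw [← Real.exp_add, ← Real.exp_add]; congr 1; ring
  rw [h1, h2, ← mul_add]
  refine le_trans (mul_le_mul_of_nonneg_left ?_ (Real.exp_pos _).le) (r1a_alt I C0 t hC)
  nlinarith

theorem slack_kappa (t T : ℕ) (hC : 64 ≤ C0) :
    ∑ κ ∈ Finset.range (T + 1), Real.exp (-((I.alt C0 t : ℝ) + |(κ : ℝ) - t|))
      ≤ 1 / 2 * (1 / 2 ^ (I.Lam C0 t + 1)) := by
  have h1 : ∑ κ ∈ Finset.range (T + 1), Real.exp (-((I.alt C0 t : ℝ) + |(κ : ℝ) - t|))
      = Real.exp (-(I.alt C0 t : ℝ)) *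
        ∑ κ ∈ Finset.range (T + 1), Real.exp (-|(κ : ℝ) - t|) := by
    rw [Finset.mul_sum]
    refine Finset.sum_congr rfl fun κ _ => ?_
    rw [← Real.exp_add]; congr 1; ring
  have h2 : ∑ κ ∈ Finset.range (T + 1), Real.exp (-|(κ : ℝ) - t|)
      = ∑ β ∈ (Finset.range (T + 1)).image (fun κ : ℕ => (κ : ℤ)), Real.exp (-|(β : ℝ) - t|) := by
    rw [Finset.sum_image (fun a _ b _ h => Int.ofNat_inj.1 h)]
    refine Finset.sum_congr rfl fun κ _ => ?_
    push_cast; rfl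
  have h3 := r1a_S ((Finset.range (T + 1)).image (fun κ : ℕ => (κ : ℤ))) t
  rw [h1, h2]
  refine le_trans (mul_le_mul_of_nonneg_left ?_ (Real.exp_pos _).le) (r1a_alt I C0 t hC)
  linarith

end Inst
end P262F
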