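import Vale.Agent.P262F.RDefs

open scoped BigOperators
open Classical

namespace P262F

open Inst (ind)

variable {W : Type} [Fintype W]

/-- membership in `U_j` : `q = 2j-1` or `q = 2j`. -/
def inU (q : W → ℕ) (j : ℕ) (w : W) : Prop := q w + 1 = 2 * j ∨ q w = 2 * j

/-- Data of the refinement: `c` old pieces (`m` of them), `q` the refinement of every piece
into `2^(Λ+1)` parts -/
structure QData (m Λ : ℕ) (c q : W → ℕ) : Prop where
  hc : ∀ w, c w < m
  hq : ∀ w, q w / 2 ^ (Λ + 1) = c w

/-- a seminorm controls the prefix errors of the refinement -/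
structure QSemi (m Λ : ℕ) (c q : W → ℕ) (p : Seminorm ℝ (W → ℝ)) (e : ℝ) : Prop where
  he : 0 ≤ e
  hpre : ∀ r, r < m → ∀ i : ℕ, i ≤ 2 ^ (Λ + 1) →
    p (fun w => ind (fun w => c w = r ∧ q w < 2 ^ (Λ + 1) * r + i) w
      - (i : ℝ) / 2 ^ (Λ + 1) * ind (fun w => c w = r) w) ≤ e

/-- Data of the new pieces `c'` (the parts are paired with a shift, `U_j` is re-split) -/
structure StepData (m Λ : ℕ) (q c' : W → ℕ) : Prop where
  hlt : ∀ w, c' w < m * 2 ^ Λ
  h1 : ∀ w, q w ≤ 2 * c' w + 2
  h2 : ∀ w, 2 * c' w ≤ q w + 1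

/-- the seminorm controls the errors of the re-splitting and the tilts -/
structure StepSemi (m Λ : ℕ) (q c' : W → ℕ) (tl : ℕ → W → ℝ) (p : Seminorm ℝ (W → ℝ)) (e τ : ℝ) : Prop where
  hτ : 0 ≤ τ
  hsplit : ∀ j, 1 ≤ j → j < m * 2 ^ Λ →
    p (fun w => ind (fun w => inU q j w ∧ c' w < j) w - ind (inU q j) w * (1 / 2 + tl j w)) ≤ e
  htilt : ∀ j, 1 ≤ j → j < m * 2 ^ Λ → p (fun w => ind (inU q j) w * tl j w) ≤ τ

variable {m Λ : ℕ} {c q c' : W → ℕ} {tl : ℕ → W → ℝ} {p : Seminorm ℝ (W → ℝ)} {e τ : ℝ}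

theorem R2_ind_pos {P : W → Prop} {w : W} (h : P w) : ind P w = 1 := if_pos h

theorem R2_ind_neg {P : W → Prop} {w : W} (h : ¬ P w) : ind P w = 0 := if_neg h

theorem R2_q_lt (hQ : QData m Λ c q) (w : W) : q w < m * 2 ^ (Λ + 1) := by
  have h1 := hQ.hc w
  rw [← hQ.hq w] at h1
  exact (Nat.div_lt_iff_lt_mul (by positivity)).1 h1

theorem R2_mod (m Λ i : ℕ) (hi : i < m * 2 ^ (Λ + 1)) :
    ∃ r k : ℕ, r < m ∧ k < 2 ^ (Λ + 1) ∧ i = 2 ^ (Λ + 1) * r + k := by
  refine ⟨i / 2 ^ (Λ + 1), i % 2 ^ (Λ + 1), ?_, Nat.mod_lt _ (by positivity), ?_⟩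
  · exact (Nat.div_lt_iff_lt_mul (by positivity)).2 hi
  · exact (Nat.div_add_mod i _).symm

/-- sums over one part -/
theorem semi_part (hQ : QData m Λ c q) (hp : QSemi m Λ c q p e) (f : W → ℝ) (X : ℝ)
    (hX : ∀ r, r < m → p (fun w => ind (fun w => c w = r) w - f w) ≤ X) (i : ℕ)
    (hi : i < m * 2 ^ (Λ + 1)) :
    p (fun w => ind (fun w => q w = i) w - f w / 2 ^ (Λ + 1)) ≤ X / 2 ^ (Λ + 1) + 2 * e := by
  obtain ⟨r, k, hr, hk, rfl⟩ := R2_mod m Λ i hi
  have hM : (0 : ℝ) < 2 ^ (Λ + 1) := by positivity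
  have h1 := hp.hpre r hr k hk.le
  have h2 := hp.hpre r hr (k + 1) hk
  have h3 := hX r hr
  have hfun : (fun w => ind (fun w => q w = 2 ^ (Λ + 1) * r + k) w - f w / 2 ^ (Λ + 1))
      = ((fun w => ind (fun w => c w = r ∧ q w < 2 ^ (Λ + 1) * r + (k + 1)) w
          - ((k + 1 : ℕ) : ℝ) / 2 ^ (Λ + 1) * ind (fun w => c w = r) w)
        - (fun w => ind (fun w => c w = r ∧ q w < 2 ^ (Λ + 1) * r + k) w
          - (k : ℝ) / 2 ^ (Λ + 1) * ind (fun w => c w = r) w))
        + ((1 : ℝ) / 2 ^ (Λ + 1)) • (fun w => ind (fun w => c w = r) w - f w) := by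
    funext w
    simp only [Pi.add_apply, Pi.sub_apply, Pi.smul_apply, smul_eq_mul]
    have hcq : q w = 2 ^ (Λ + 1) * r + k → c w = r := by
      intro h
      rw [← hQ.hq w, h, Nat.mul_add_div (by positivity), Nat.div_eq_of_lt hk, add_zero]
    have key : ind (fun w => q w = 2 ^ (Λ + 1) * r + k) w
        = ind (fun w => c w = r ∧ q w < 2 ^ (Λ + 1) * r + (k + 1)) w
          - ind (fun w => c w = r ∧ q w < 2 ^ (Λ + 1) * r + k) w := by
      simp only [ind]
      by_cases hc : c w = r
      · simp only [hc, true_and]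
        split_ifs <;> first | omega | norm_num
      · have : q w ≠ 2 ^ (Λ + 1) * r + k := fun h => hc (hcq h)
        simp [hc, this]
    rw [key]
    push_cast
    field_simp
    ring
  rw [hfun]
  refine (map_add_le_add p _ _).trans ?_
  have h4 := map_sub_le_add p (fun w => ind (fun w => c w = r ∧ q w < 2 ^ (Λ + 1) * r + (k + 1)) w
          - ((k + 1 : ℕ) : ℝ) / 2 ^ (Λ + 1) * ind (fun w => c w = r) w)
        (fun w => ind (fun w => c w = r ∧ q w < 2 ^ (Λ + 1) * r + k) w
          - (k : ℝ) / 2 ^ (Λ + 1) * ind (fun w => c w = r) w)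
  have h5 : p (((1 : ℝ) / 2 ^ (Λ + 1)) • (fun w => ind (fun w => c w = r) w - f w))
      ≤ X / 2 ^ (Λ + 1) := by
    rw [map_smul_eq_mul, Real.norm_of_nonneg (by positivity)]
    rw [one_div, inv_mul_eq_div]
    gcongr
  linarith

/-- sums over `U_j` -/
theorem semi_U (hQ : QData m Λ c q) (hp : QSemi m Λ c q p e) (f : W → ℝ) (X : ℝ)
    (hX : ∀ r, r < m → p (fun w => ind (fun w => c w = r) w - f w) ≤ X) (j : ℕ) (h1 : 1 ≤ j)
    (hj : j < m * 2 ^ Λ) :
    p (fun w => ind (inU q j) w - f w / 2 ^ Λ) ≤ X / 2 ^ Λ + 4 * e := by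
  have hM : m * 2 ^ (Λ + 1) = 2 * (m * 2 ^ Λ) := by ring
  have ha := semi_part hQ hp f X hX (2 * j - 1) (by omega)
  have hb := semi_part hQ hp f X hX (2 * j) (by omega)
  have hfun : (fun w => ind (inU q j) w - f w / 2 ^ Λ)
      = (fun w => ind (fun w => q w = 2 * j - 1) w - f w / 2 ^ (Λ + 1))
        + (fun w => ind (fun w => q w = 2 * j) w - f w / 2 ^ (Λ + 1)) := by
    funext w
    simp only [Pi.add_apply]
    have key : ind (inU q j) w = ind (fun w => q w = 2 * j - 1) w + ind (fun w => q w = 2 * j) w := by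
      by_cases e1 : q w = 2 * j - 1
      · rw [R2_ind_pos (P := inU q j) (Or.inl (by omega)),
          R2_ind_pos (P := fun w => q w = 2 * j - 1) e1,
          R2_ind_neg (P := fun w => q w = 2 * j) (by show ¬ (q w = 2 * j); omega)]
        norm_num
      · by_cases e2 : q w = 2 * j
        · rw [R2_ind_pos (P := inU q j) (Or.inr e2),
            R2_ind_neg (P := fun w => q w = 2 * j - 1) e1,
            R2_ind_pos (P := fun w => q w = 2 * j) e2]
          norm_num
        · rw [R2_ind_neg (P := inU q j) (by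
              rintro (h | h)
              · omega
              · omega),
            R2_ind_neg (P := fun w => q w = 2 * j - 1) e1,
            R2_ind_neg (P := fun w => q w = 2 * j) e2]
          norm_num
    rw [key]
    rw [pow_succ]
    field_simp
    ring
  rw [hfun]
  refine (map_add_le_add p _ _).trans ?_
  have hc : X / 2 ^ (Λ + 1) + X / 2 ^ (Λ + 1) = X / 2 ^ Λ := by
    rw [pow_succ]
    field_simp
    ring
  linarith

theorem R2_prefix_split (hQ : QData m Λ c q) (r k : ℕ) (hk : k < 2 ^ (Λ + 1)) (w : W) :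
    ind (fun w => q w < 2 ^ (Λ + 1) * r + k) w
      = ind (fun w => c w < r) w + ind (fun w => c w = r ∧ q w < 2 ^ (Λ + 1) * r + k) w := by
  have h1 := hQ.hq w
  have h2 : q w = 2 ^ (Λ + 1) * c w + q w % 2 ^ (Λ + 1) := by
    rw [← h1]
    exact (Nat.div_add_mod _ _).symm
  have h3 : q w % 2 ^ (Λ + 1) < 2 ^ (Λ + 1) := Nat.mod_lt _ (by positivity)
  simp only [ind]
  rcases lt_trichotomy (c w) r with h | h | h
  · have h4 : 2 ^ (Λ + 1) * (c w + 1) ≤ 2 ^ (Λ + 1) * r := Nat.mul_le_mul_left _ h
    have h5 : q w < 2 ^ (Λ + 1) * r + k := by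
      rw [mul_add] at h4
      omega
    have h6 : ¬ (c w = r) := by omega
    simp [h, h5, h6]
  · simp [h]
  · have h4 : 2 ^ (Λ + 1) * (r + 1) ≤ 2 ^ (Λ + 1) * c w := Nat.mul_le_mul_left _ h
    have h5 : ¬ (q w < 2 ^ (Λ + 1) * r + k) := by
      rw [mul_add] at h4
      omega
    have h6 : ¬ (c w = r) := by omega
    have h7 : ¬ (c w < r) := by omega
    simp [h5, h6, h7]

/-- prefixes of the refinement -/
theorem semi_prefix_q (hQ : QData m Λ c q) (hp : QSemi m Λ c q p e) (X : ℝ)
    (hX : ∀ r, p (ind (fun w => c w < r)) ≤ X) (i : ℕ) :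
    p (ind (fun w => q w < i)) ≤ X + e := by
  have he := hp.he
  rcases lt_or_ge i (m * 2 ^ (Λ + 1)) with hi | hi
  · obtain ⟨r, k, hr, hk, rfl⟩ := R2_mod m Λ i hi
    have hM : (0 : ℝ) < 2 ^ (Λ + 1) := by positivity
    have h1 := hp.hpre r hr k hk.le
    set a : ℝ := (k : ℝ) / 2 ^ (Λ + 1) with ha
    have ha0 : 0 ≤ a := by positivity
    have ha1 : a ≤ 1 := by
      rw [ha, div_le_one hM]
      exact_mod_cast hk.le
    have hfun : ind (fun w => q w < 2 ^ (Λ + 1) * r + k)
        = ((1 - a) • ind (fun w => c w < r) + a • ind (fun w => c w < r + 1))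
          + (fun w => ind (fun w => c w = r ∧ q w < 2 ^ (Λ + 1) * r + k) w
            - a * ind (fun w => c w = r) w) := by
      funext w
      simp only [Pi.add_apply, Pi.smul_apply, smul_eq_mul]
      rw [R2_prefix_split hQ r k hk w]
      have key : ind (fun w => c w < r + 1) w = ind (fun w => c w < r) w + ind (fun w => c w = r) w := by
        simp only [ind]
        split_ifs <;> first | omega | norm_num
      rw [key]
      ring
    rw [hfun]
    refine (map_add_le_add p _ _).trans ?_
    have h2 := map_add_le_add p ((1 - a) • ind (fun w => c w < r)) (a • ind (fun w => c w < r + 1))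
    rw [map_smul_eq_mul, map_smul_eq_mul, Real.norm_of_nonneg ha0,
      Real.norm_of_nonneg (by linarith)] at h2
    have h3 := mul_le_mul_of_nonneg_left (hX r) (by linarith : 0 ≤ 1 - a)
    have h4 := mul_le_mul_of_nonneg_left (hX (r + 1)) ha0
    linarith
  · have hfun : ind (fun w => q w < i) = ind (fun w => c w < m) := by
      funext w
      have h1 := R2_q_lt hQ w
      have h2 := hQ.hc w
      simp only [ind]
      rw [if_pos (by omega), if_pos h2]
    rw [hfun]
    linarith [hX m]

/-- exact formula for the new prefixes -/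
theorem prefix_formula (tl : ℕ → W → ℝ) (hQ : QData m Λ c q)
    (hD : StepData m Λ q c') (j : ℕ) (h1 : 1 ≤ j) (hj : j < m * 2 ^ Λ) (w : W) :
    ind (fun w => c' w < j) w =
      (1 / 2 * (ind (fun w => q w < 2 * j - 1) w + ind (fun w => q w < 2 * j + 1) w)
        + ind (inU q j) w * tl j w)
      + (ind (fun w => inU q j w ∧ c' w < j) w - ind (inU q j) w * (1 / 2 + tl j w)) := by
  have ha := hD.h1 w
  have hb := hD.h2 w
  have key : ind (fun w => c' w < j) w =
      1 / 2 * (ind (fun w => q w < 2 * j - 1) w + ind (fun w => q w < 2 * j + 1) w)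
      + (ind (fun w => inU q j w ∧ c' w < j) w - ind (inU q j) w * (1 / 2)) := by
    rcases lt_or_ge (q w) (2 * j - 1) with h | h
    · rw [R2_ind_pos (P := fun w => c' w < j) (by show c' w < j; omega),
        R2_ind_pos (P := fun w => q w < 2 * j - 1) h,
        R2_ind_pos (P := fun w => q w < 2 * j + 1) (by show q w < 2 * j + 1; omega),
        R2_ind_neg (P := inU q j) (by
          rintro (h | h)
          · omega
          · omega),
        R2_ind_neg (P := fun w => inU q j w ∧ c' w < j) (by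
          rintro ⟨h | h, _⟩
          · omega
          · omega)]
      norm_num
    · rcases lt_or_ge (q w) (2 * j + 1) with h3 | h3
      · have hU : inU q j w := by
          by_cases h4 : q w = 2 * j
          · exact Or.inr h4
          · left
            omega
        rw [R2_ind_neg (P := fun w => q w < 2 * j - 1) (by show ¬ (q w < 2 * j - 1); omega),
          R2_ind_pos (P := fun w => q w < 2 * j + 1) h3,
          R2_ind_pos (P := inU q j) hU]
        by_cases h5 : c' w < j
        · rw [R2_ind_pos (P := fun w => c' w < j) h5,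
            R2_ind_pos (P := fun w => inU q j w ∧ c' w < j) ⟨hU, h5⟩]
          norm_num
        · rw [R2_ind_neg (P := fun w => c' w < j) h5,
            R2_ind_neg (P := fun w => inU q j w ∧ c' w < j) (fun h6 => h5 h6.2)]
          norm_num
      · rw [R2_ind_neg (P := fun w => c' w < j) (by show ¬ (c' w < j); omega),
          R2_ind_neg (P := fun w => q w < 2 * j - 1) (by show ¬ (q w < 2 * j - 1); omega),
          R2_ind_neg (P := fun w => q w < 2 * j + 1) (by show ¬ (q w < 2 * j + 1); omega),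
          R2_ind_neg (P := inU q j) (by
            rintro (h | h)
            · omega
            · omega),
          R2_ind_neg (P := fun w => inU q j w ∧ c' w < j) (by
            rintro ⟨h | h, _⟩
            · omega
            · omega)]
        norm_num
  rw [key]
  ring

/-- the difference of a new prefix and its main term -/
theorem R2_main_err (hQ : QData m Λ c q) (hD : StepData m Λ q c')
    (hS : StepSemi m Λ q c' tl p e τ) (j : ℕ) (h1 : 1 ≤ j) (hj : j < m * 2 ^ Λ) :
    p (fun w => ind (fun w => c' w < j) w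
      - 1 / 2 * (ind (fun w => q w < 2 * j - 1) w + ind (fun w => q w < 2 * j + 1) w)) ≤ e + τ := by
  have hfun : (fun w => ind (fun w => c' w < j) w
      - 1 / 2 * (ind (fun w => q w < 2 * j - 1) w + ind (fun w => q w < 2 * j + 1) w))
      = (fun w => ind (fun w => inU q j w ∧ c' w < j) w - ind (inU q j) w * (1 / 2 + tl j w))
        + (fun w => ind (inU q j) w * tl j w) := by
    funext w
    simp only [Pi.add_apply]
    rw [prefix_formula tl hQ hD j h1 hj w]
    ring
  rw [hfun]
  refine (map_add_le_add p _ _).trans ?_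
  exact add_le_add (hS.hsplit j h1 hj) (hS.htilt j h1 hj)

/-- main term of the new prefixes, including the extreme cases -/
noncomputable def R2_H (m Λ : ℕ) (q : W → ℕ) (j : ℕ) : W → ℝ := fun w =>
  if j = 0 then 0 else if m * 2 ^ Λ ≤ j then 1 else
    1 / 2 * (ind (fun w => q w < 2 * j - 1) w + ind (fun w => q w < 2 * j + 1) w)

theorem R2_H_zero (w : W) : R2_H m Λ q 0 w = 0 := if_pos rfl

theorem R2_H_top {j : ℕ} (h0 : j ≠ 0) (h : m * 2 ^ Λ ≤ j) (w : W) : R2_H m Λ q j w = 1 := by
  unfold R2_H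
  rw [if_neg h0, if_pos h]

theorem R2_H_mid {j : ℕ} (h0 : j ≠ 0) (h : ¬ m * 2 ^ Λ ≤ j) (w : W) : R2_H m Λ q j w =
    1 / 2 * (ind (fun w => q w < 2 * j - 1) w + ind (fun w => q w < 2 * j + 1) w) := by
  unfold R2_H
  rw [if_neg h0, if_neg h]

theorem R2_H_err (hQ : QData m Λ c q) (hp : QSemi m Λ c q p e) (hD : StepData m Λ q c')
    (hS : StepSemi m Λ q c' tl p e τ) (j : ℕ) :
    p (ind (fun w => c' w < j) - R2_H m Λ q j) ≤ e + τ := by
  have he := hp.he
  have hτ := hS.hτ
  rcases Nat.eq_zero_or_pos j with rfl | h1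
  · have hfun : ind (fun w => c' w < 0) - R2_H m Λ q 0 = 0 := by
      funext w
      simp [R2_H, ind]
    rw [hfun, map_zero]
    linarith
  rcases lt_or_ge j (m * 2 ^ Λ) with hj | hj
  · have h2 := R2_main_err hQ hD hS j h1 hj
    have hfun : ind (fun w => c' w < j) - R2_H m Λ q j = (fun w => ind (fun w => c' w < j) w
      - 1 / 2 * (ind (fun w => q w < 2 * j - 1) w + ind (fun w => q w < 2 * j + 1) w)) := by
      funext w
      simp only [Pi.sub_apply]
      rw [R2_H_mid (by omega) (by omega)]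
    rw [hfun]
    exact h2
  · have hfun : ind (fun w => c' w < j) - R2_H m Λ q j = 0 := by
      funext w
      have := hD.hlt w
      simp only [Pi.sub_apply, Pi.zero_apply]
      rw [R2_H_top (by omega) hj, R2_ind_pos (P := fun w => c' w < j) (by show c' w < j; omega)]
      norm_num
    rw [hfun, map_zero]
    linarith

/-- new piece sums -/
theorem semi_piece (hQ : QData m Λ c q) (hp : QSemi m Λ c q p e) (hD : StepData m Λ q c')
    (hS : StepSemi m Λ q c' tl p e τ) (f : W → ℝ) (X : ℝ)
    (hX : ∀ r, r < m → p (fun w => ind (fun w => c w = r) w - f w) ≤ X) (j : ℕ) (hj : j < m * 2 ^ Λ) :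
    p (fun w => ind (fun w => c' w = j) w - f w / 2 ^ Λ) ≤ X / 2 ^ Λ + 6 * e + 2 * τ := by
  have hM : m * 2 ^ (Λ + 1) = 2 * (m * 2 ^ Λ) := by ring
  have hA := R2_H_err hQ hp hD hS j
  have hB := R2_H_err hQ hp hD hS (j + 1)
  -- one part
  have hpart : ∀ i, i < m * 2 ^ (Λ + 1) → p ((1 / 2 : ℝ) •
      (fun w => ind (fun w => q w = i) w - f w / 2 ^ (Λ + 1))) ≤ 1 / 2 * (X / 2 ^ (Λ + 1) + 2 * e) := by
    intro i hi
    rw [map_smul_eq_mul, Real.norm_of_nonneg (by norm_num)]
    exact mul_le_mul_of_nonneg_left (semi_part hQ hp f X hX i hi) (by norm_num)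
  have hcomb : ∀ i1 i2 i3 i4 : ℕ, i1 < m * 2 ^ (Λ + 1) → i2 < m * 2 ^ (Λ + 1) →
      i3 < m * 2 ^ (Λ + 1) → i4 < m * 2 ^ (Λ + 1) →
      (∀ w, R2_H m Λ q (j + 1) w - R2_H m Λ q j w = 1 / 2 * (ind (fun w => q w = i1) w
        + ind (fun w => q w = i2) w + ind (fun w => q w = i3) w + ind (fun w => q w = i4) w)) →
      p (fun w => ind (fun w => c' w = j) w - f w / 2 ^ Λ) ≤ X / 2 ^ Λ + 6 * e + 2 * τ := by
    intro i1 i2 i3 i4 h1 h2 h3 h4 hH
    have hfun : (fun w => ind (fun w => c' w = j) w - f w / 2 ^ Λ)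
        = (((ind (fun w => c' w < j + 1) - R2_H m Λ q (j + 1))
          - (ind (fun w => c' w < j) - R2_H m Λ q j))
          + (((1 / 2 : ℝ) • (fun w => ind (fun w => q w = i1) w - f w / 2 ^ (Λ + 1))
            + (1 / 2 : ℝ) • (fun w => ind (fun w => q w = i2) w - f w / 2 ^ (Λ + 1)))
            + ((1 / 2 : ℝ) • (fun w => ind (fun w => q w = i3) w - f w / 2 ^ (Λ + 1))
            + (1 / 2 : ℝ) • (fun w => ind (fun w => q w = i4) w - f w / 2 ^ (Λ + 1))))) := by
      funext w
      simp only [Pi.add_apply, Pi.sub_apply, Pi.smul_apply, smul_eq_mul]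
      have key : ind (fun w => c' w = j) w = ind (fun w => c' w < j + 1) w - ind (fun w => c' w < j) w := by
        simp only [ind]
        split_ifs <;> first | omega | norm_num
      have hp2 : f w / 2 ^ Λ = 2 * (f w / 2 ^ (Λ + 1)) := by
        rw [pow_succ]
        field_simp
      rw [key, hp2]
      linarith [hH w]
    rw [hfun]
    refine (map_add_le_add p _ _).trans ?_
    have k1 := map_sub_le_add p (ind (fun w => c' w < j + 1) - R2_H m Λ q (j + 1))
      (ind (fun w => c' w < j) - R2_H m Λ q j)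
    have k2 := map_add_le_add p ((1 / 2 : ℝ) • (fun w => ind (fun w => q w = i1) w - f w / 2 ^ (Λ + 1))
            + (1 / 2 : ℝ) • (fun w => ind (fun w => q w = i2) w - f w / 2 ^ (Λ + 1)))
            ((1 / 2 : ℝ) • (fun w => ind (fun w => q w = i3) w - f w / 2 ^ (Λ + 1))
            + (1 / 2 : ℝ) • (fun w => ind (fun w => q w = i4) w - f w / 2 ^ (Λ + 1)))
    have k3 := map_add_le_add p ((1 / 2 : ℝ) • (fun w => ind (fun w => q w = i1) w - f w / 2 ^ (Λ + 1)))
            ((1 / 2 : ℝ) • (fun w => ind (fun w => q w = i2) w - f w / 2 ^ (Λ + 1)))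
    have k4 := map_add_le_add p ((1 / 2 : ℝ) • (fun w => ind (fun w => q w = i3) w - f w / 2 ^ (Λ + 1)))
            ((1 / 2 : ℝ) • (fun w => ind (fun w => q w = i4) w - f w / 2 ^ (Λ + 1)))
    have l1 := hpart i1 h1
    have l2 := hpart i2 h2
    have l3 := hpart i3 h3
    have l4 := hpart i4 h4
    have hp3 : X / 2 ^ Λ = 2 * (X / 2 ^ (Λ + 1)) := by
      rw [pow_succ]
      field_simp
    rw [hp3]
    linarith
  rcases Nat.eq_zero_or_pos j with rfl | h1
  · rcases lt_or_ge 1 (m * 2 ^ Λ) with hN | hN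
    · refine hcomb 0 0 1 2 (by omega) (by omega) (by omega) (by omega) ?_
      intro w
      rw [R2_H_mid (by omega) (by omega), R2_H_zero]
      simp only [ind]
      split_ifs <;> first | omega | norm_num
    · refine hcomb 0 0 1 1 (by omega) (by omega) (by omega) (by omega) ?_
      intro w
      have hq := R2_q_lt hQ w
      rw [R2_H_top (by omega) (by omega), R2_H_zero]
      simp only [ind]
      split_ifs <;> first | omega | norm_num
  · rcases lt_or_ge (j + 1) (m * 2 ^ Λ) with hN | hN
    · refine hcomb (2 * j - 1) (2 * j) (2 * j + 1) (2 * j + 2) (by omega) (by omega) (by omega) (by omega) ?_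
      intro w
      rw [R2_H_mid (by omega) (by omega), R2_H_mid (by omega) (by omega)]
      simp only [ind]
      split_ifs <;> first | omega | norm_num
    · refine hcomb (2 * j - 1) (2 * j) (2 * j + 1) (2 * j + 1) (by omega) (by omega) (by omega) (by omega) ?_
      intro w
      have hq := R2_q_lt hQ w
      rw [R2_H_top (by omega) (by omega), R2_H_mid (by omega) (by omega)]
      simp only [ind]
      split_ifs <;> first | omega | norm_num

/-- new prefixes -/
theorem semi_prefix (hQ : QData m Λ c q) (hp : QSemi m Λ c q p e) (hD : StepData m Λ q c')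
    (hS : StepSemi m Λ q c' tl p e τ) (X : ℝ)
    (hX : ∀ r, p (ind (fun w => c w < r)) ≤ X) (j : ℕ) :
    p (ind (fun w => c' w < j)) ≤ X + 2 * e + τ := by
  have he := hp.he
  have hτ := hS.hτ
  have hA := R2_H_err hQ hp hD hS j
  have hX0 : 0 ≤ X := le_trans (apply_nonneg p _) (hX 0)
  have hH : p (R2_H m Λ q j) ≤ X + e := by
    rcases Nat.eq_zero_or_pos j with rfl | h1
    · have hfun : R2_H m Λ q 0 = 0 := by
        funext w
        simp [R2_H]
      rw [hfun, map_zero]
      linarith
    rcases lt_or_ge j (m * 2 ^ Λ) with hj | hj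
    · have hfun : R2_H m Λ q j = (1 / 2 : ℝ) • (ind (fun w => q w < 2 * j - 1)
          + ind (fun w => q w < 2 * j + 1)) := by
        funext w
        simp only [Pi.smul_apply, Pi.add_apply, smul_eq_mul]
        rw [R2_H_mid (by omega) (by omega)]
      rw [hfun, map_smul_eq_mul, Real.norm_of_nonneg (by norm_num)]
      have k1 := map_add_le_add p (ind (fun w => q w < 2 * j - 1)) (ind (fun w => q w < 2 * j + 1))
      have k2 := semi_prefix_q hQ hp X hX (2 * j - 1)
      have k3 := semi_prefix_q hQ hp X hX (2 * j + 1)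
      linarith
    · have hfun : R2_H m Λ q j = ind (fun w => c w < m) := by
        funext w
        have h2 := hQ.hc w
        have h3 : 0 < 2 ^ Λ := by positivity
        have h4 : 0 < m := by omega
        rw [R2_H_top (by omega) hj, R2_ind_pos (P := fun w => c w < m) h2]
      rw [hfun]
      linarith [hX m]
  have hfun : ind (fun w => c' w < j) = (ind (fun w => c' w < j) - R2_H m Λ q j) + R2_H m Λ q j := by
    funext w
    simp
  rw [hfun]
  refine (map_add_le_add p _ _).trans ?_
  linarith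

/-- difference of a new prefix and the old prefix below it -/
theorem semi_diff (hQ : QData m Λ c q) (hp : QSemi m Λ c q p e) (hD : StepData m Λ q c')
    (hS : StepSemi m Λ q c' tl p e τ) (X : ℝ) (hX0 : 0 ≤ X)
    (hX : ∀ r, r < m → p (ind (fun w => c w = r)) ≤ X) (j : ℕ) :
    p (fun w => ind (fun w => c' w < j) w - ind (fun w => c w < j / 2 ^ Λ) w) ≤ 2 * X + 6 * e + τ := by
  have he := hp.he
  have hτ := hS.hτ
  have hM : m * 2 ^ (Λ + 1) = 2 * (m * 2 ^ Λ) := by ring
  rcases Nat.eq_zero_or_pos j with rfl | h1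
  · have hfun : (fun w => ind (fun w => c' w < 0) w - ind (fun w => c w < 0 / 2 ^ Λ) w) = 0 := by
      funext w
      simp [ind]
    rw [hfun, map_zero]
    linarith
  rcases lt_or_ge j (m * 2 ^ Λ) with hj | hj
  · -- main case
    have hA := R2_main_err hQ hD hS j h1 hj
    have hX' : ∀ r, r < m → p (fun w => ind (fun w => c w = r) w - (0 : W → ℝ) w) ≤ X := by
      intro r hr
      simpa using hX r hr
    have ha := semi_part hQ hp (0 : W → ℝ) X hX' (2 * j - 1) (by omega)
    have hb := semi_part hQ hp (0 : W → ℝ) X hX' (2 * j) (by omega)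
    set r := j / 2 ^ Λ with hr
    set k := j % 2 ^ Λ with hk
    have hjrk : j = 2 ^ Λ * r + k := (Nat.div_add_mod j _).symm
    have hkl : k < 2 ^ Λ := Nat.mod_lt _ (by positivity)
    have hrm : r < m := (Nat.div_lt_iff_lt_mul (by positivity)).2 hj
    have h2j : 2 * j = 2 ^ (Λ + 1) * r + 2 * k := by
      rw [hjrk, pow_succ]
      ring
    have hkl2 : 2 * k < 2 ^ (Λ + 1) := by
      rw [pow_succ]
      omega
    have hpre := hp.hpre r hrm (2 * k) hkl2.le
    have hMpos : (0 : ℝ) < 2 ^ (Λ + 1) := by positivity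
    set a : ℝ := ((2 * k : ℕ) : ℝ) / 2 ^ (Λ + 1) with haa
    have ha0 : 0 ≤ a := by positivity
    have ha1 : a ≤ 1 := by
      rw [haa, div_le_one hMpos]
      exact_mod_cast hkl2.le
    have hfun : (fun w => ind (fun w => c' w < j) w - ind (fun w => c w < r) w)
        = (fun w => ind (fun w => c' w < j) w
            - 1 / 2 * (ind (fun w => q w < 2 * j - 1) w + ind (fun w => q w < 2 * j + 1) w))
          + (((fun w => ind (fun w => c w = r ∧ q w < 2 ^ (Λ + 1) * r + 2 * k) w
            - a * ind (fun w => c w = r) w) + a • ind (fun w => c w = r))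
          + ((1 / 2 : ℝ) • (fun w => ind (fun w => q w = 2 * j) w - (0 : W → ℝ) w / 2 ^ (Λ + 1))
            - (1 / 2 : ℝ) • (fun w => ind (fun w => q w = 2 * j - 1) w
              - (0 : W → ℝ) w / 2 ^ (Λ + 1)))) := by
      funext w
      simp only [Pi.add_apply, Pi.sub_apply, Pi.smul_apply, smul_eq_mul, Pi.zero_apply, zero_div,
        sub_zero]
      have e1 := R2_prefix_split hQ r (2 * k) hkl2 w
      rw [← h2j] at e1
      have e2 : ind (fun w => q w < 2 * j + 1) w = ind (fun w => q w < 2 * j) w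
          + ind (fun w => q w = 2 * j) w := by
        simp only [ind]
        split_ifs <;> first | omega | norm_num
      have e3 : ind (fun w => q w < 2 * j - 1) w = ind (fun w => q w < 2 * j) w
          - ind (fun w => q w = 2 * j - 1) w := by
        simp only [ind]
        split_ifs <;> first | omega | norm_num
      rw [e2, e3, e1, ← h2j]
      ring
    rw [hfun]
    refine (map_add_le_add p _ _).trans ?_
    have k1 := map_add_le_add p ((fun w => ind (fun w => c w = r ∧ q w < 2 ^ (Λ + 1) * r + 2 * k) w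
            - a * ind (fun w => c w = r) w) + a • ind (fun w => c w = r))
          ((1 / 2 : ℝ) • (fun w => ind (fun w => q w = 2 * j) w - (0 : W → ℝ) w / 2 ^ (Λ + 1))
            - (1 / 2 : ℝ) • (fun w => ind (fun w => q w = 2 * j - 1) w
              - (0 : W → ℝ) w / 2 ^ (Λ + 1)))
    have k2 := map_add_le_add p (fun w => ind (fun w => c w = r ∧ q w < 2 ^ (Λ + 1) * r + 2 * k) w
            - a * ind (fun w => c w = r) w) (a • ind (fun w => c w = r))
    have k3 := map_sub_le_add p
      ((1 / 2 : ℝ) • (fun w => ind (fun w => q w = 2 * j) w - (0 : W → ℝ) w / 2 ^ (Λ + 1)))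
      ((1 / 2 : ℝ) • (fun w => ind (fun w => q w = 2 * j - 1) w - (0 : W → ℝ) w / 2 ^ (Λ + 1)))
    rw [map_smul_eq_mul, Real.norm_of_nonneg ha0] at k2
    rw [map_smul_eq_mul, map_smul_eq_mul, Real.norm_of_nonneg (by norm_num : (0 : ℝ) ≤ 1 / 2)] at k3
    have k4 : a * p (ind (fun w => c w = r)) ≤ X := by
      have := hX r hrm
      nlinarith [apply_nonneg p (ind (fun w => c w = r))]
    have k5 : X / 2 ^ (Λ + 1) ≤ X := by
      apply div_le_self hX0
      exact one_le_pow₀ (by norm_num)
    linarith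
  · have hfun : (fun w => ind (fun w => c' w < j) w - ind (fun w => c w < j / 2 ^ Λ) w) = 0 := by
      funext w
      have h2 := hD.hlt w
      have h3 := hQ.hc w
      have h4 : m ≤ j / 2 ^ Λ := (Nat.le_div_iff_mul_le (by positivity)).2 hj
      simp only [ind, Pi.zero_apply]
      rw [if_pos (by omega), if_pos (by omega)]
      norm_num
    rw [hfun, map_zero]
    linarith

/-- a part pair `U_j` meets at most two old pieces -/
theorem inU_piece (hQ : QData m Λ c q) (j : ℕ) (h1 : 1 ≤ j) (w : W) (hw : inU q j w) :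
    c w = (2 * j - 1) / 2 ^ (Λ + 1) ∨ c w = 2 * j / 2 ^ (Λ + 1) := by
  have h2 := hQ.hq w
  rcases hw with h | h
  · left
    rw [← h2]
    congr 1
    omega
  · right
    rw [← h2, h]

end P262F
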