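import Vale.Agent.P262F.RDefs

open scoped BigOperators
open Classical

namespace P262F

/-- largeness of the constant `C0` compared with the engine constant `E` -/
def Big (E : ℝ) (C0 : ℕ) : Prop :=
  1 ≤ E ∧ 64 ≤ C0 ∧ 10 ^ 4 * E ≤ (2 : ℝ) ^ ((C0 : ℝ) / 16)

namespace Inst

variable {W J : Type} [Fintype W] [Fintype J] (I : Inst W J) (C0 : ℕ)

theorem al_ge (k : ℤ) : 16 * C0 ≤ I.al C0 k := le_max_left _ _

theorem al_le_aux (k k' : ℤ) : (I.al C0 k : ℤ) ≤ I.al C0 k' + |k - k'| := by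
  have h : I.al C0 k ≤ I.al C0 k' + |k - k'|.toNat := by
    unfold al
    apply max_le
    · exact le_trans (le_max_left _ _) (Nat.le_add_right _ _)
    · apply Finset.sup_le
      intro j _
      have h1 : (16 * (I.ab C0 (I.b j) : ℤ) - |k' - I.b j|).toNat ≤
          max (16 * C0) (Finset.univ.sup
            (fun j => (16 * (I.ab C0 (I.b j) : ℤ) - |k' - I.b j|).toNat)) :=
        le_trans (Finset.le_sup (f := fun j => (16 * (I.ab C0 (I.b j) : ℤ) - |k' - I.b j|).toNat)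
          (Finset.mem_univ j)) (le_max_right _ _)
      refine le_trans ?_ (Nat.add_le_add_right h1 _)
      have h2 : |k' - I.b j| ≤ |k - k'| + |k - I.b j| := by
        have h3 : k' - I.b j = -(k - k') + (k - I.b j) := by ring
        calc |k' - I.b j| = |-(k - k') + (k - I.b j)| := by rw [← h3]
          _ ≤ |-(k - k')| + |k - I.b j| := abs_add_le _ _
          _ = |k - k'| + |k - I.b j| := by rw [abs_neg]
      omega
  have h0 : (0 : ℤ) ≤ |k - k'| := abs_nonneg _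
  omega

theorem al_lip (k k' : ℤ) : |(I.al C0 k : ℤ) - I.al C0 k'| ≤ |k - k'| := by
  have h1 := I.al_le_aux C0 k k'
  have h2 := I.al_le_aux C0 k' k
  rw [abs_sub_comm k' k] at h2
  rw [abs_le]
  constructor <;> linarith

theorem ab_le_al (k : ℤ) (j : J) : (16 * I.ab C0 (I.b j) : ℤ) ≤ I.al C0 k + |k - I.b j| := by
  have h1 : (16 * (I.ab C0 (I.b j) : ℤ) - |k - I.b j|).toNat ≤ I.al C0 k :=
    le_trans (Finset.le_sup (f := fun j => (16 * (I.ab C0 (I.b j) : ℤ) - |k - I.b j|).toNat)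
      (Finset.mem_univ j)) (le_max_right _ _)
  omega

/-- the main size bound: `n_β ≤ 2^{(al k + |k-β|)/32 - C0/2}` -/
theorem nb_le (β k : ℤ) : (I.nb β : ℝ) ≤ (2 : ℝ) ^ (((I.al C0 k : ℝ) + |(k : ℝ) - β|) / 32 - C0 / 2) := by
  by_cases hβ : ∃ j, I.b j = β
  · obtain ⟨j, rfl⟩ := hβ
    have h1 := I.ab_le_al C0 k j
    have h2 : (16 * (I.ab C0 (I.b j) : ℝ)) ≤ I.al C0 k + |(k : ℝ) - I.b j| := by exact_mod_cast h1
    have h3 : I.nb (I.b j) ≤ 2 ^ Nat.clog 2 (I.nb (I.b j)) := Nat.le_pow_clog (by norm_num) _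
    have h4 : (I.nb (I.b j) : ℝ) ≤ (2 : ℝ) ^ ((Nat.clog 2 (I.nb (I.b j)) : ℕ) : ℝ) := by
      rw [Real.rpow_natCast]; exact_mod_cast h3
    refine le_trans h4 (Real.rpow_le_rpow_of_exponent_le (by norm_num) ?_)
    have h5 : (I.ab C0 (I.b j) : ℝ) = C0 + 2 * (Nat.clog 2 (I.nb (I.b j)) : ℝ) := by
      unfold ab; push_cast; ring
    rw [h5] at h2
    linarith
  · have h0 : I.nb β = 0 := by
      unfold nb
      rw [Finset.card_eq_zero, Finset.filter_eq_empty_iff]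
      intro j _ hj
      exact hβ ⟨j, hj⟩
    rw [h0]
    simp only [Nat.cast_zero]
    positivity

theorem lev_succ (t : ℕ) : I.lev C0 (t + 1) = I.lev C0 t + I.Lam C0 t := rfl

theorem Lam_le (t : ℕ) : 16 * I.Lam C0 t ≤ I.alt C0 t := by
  unfold Lam; omega

theorem lt_Lam (t : ℕ) : I.alt C0 t < 16 * I.Lam C0 t + 16 := by
  unfold Lam; omega

theorem alt_ge (t : ℕ) : 16 * C0 ≤ I.alt C0 t := I.al_ge C0 _

theorem C0_le_Lam (t : ℕ) : C0 ≤ I.Lam C0 t := by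
  have h := I.alt_ge C0 t
  unfold Lam; omega

theorem alt_succ_le (t : ℕ) : I.alt C0 (t + 1) ≤ I.alt C0 t + I.Lam C0 t := by
  have h := I.al_le_aux C0 (I.lev C0 (t + 1)) (I.lev C0 t)
  have h1 : |((I.lev C0 (t + 1) : ℕ) : ℤ) - (I.lev C0 t : ℕ)| = I.Lam C0 t := by
    rw [I.lev_succ]
    push_cast
    rw [add_sub_cancel_left, abs_of_nonneg (by positivity)]
  rw [h1] at h
  unfold alt at *
  exact_mod_cast h

theorem alt_le_succ (t : ℕ) : I.alt C0 t ≤ I.alt C0 (t + 1) + I.Lam C0 t := by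
  have h := I.al_le_aux C0 (I.lev C0 t) (I.lev C0 (t + 1))
  have h1 : |((I.lev C0 t : ℕ) : ℤ) - (I.lev C0 (t + 1) : ℕ)| = I.Lam C0 t := by
    rw [I.lev_succ, abs_sub_comm]
    push_cast
    rw [add_sub_cancel_left, abs_of_nonneg (by positivity)]
  rw [h1] at h
  unfold alt at *
  exact_mod_cast h

theorem frozen_succ {β : ℤ} {t : ℕ} (h : I.frozen C0 β t) : I.frozen C0 β (t + 1) := by
  unfold frozen at *
  have h1 := I.alt_succ_le C0 t
  have h2 := I.lev_succ C0 t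
  rw [h2]
  push_cast
  have h3 : (I.alt C0 (t + 1) : ℤ) ≤ I.alt C0 t + I.Lam C0 t := by exact_mod_cast h1
  have h4 : (0 : ℤ) ≤ I.Lam C0 t := by positivity
  linarith

theorem thick_of_succ {β : ℤ} {t : ℕ} (h : I.thick C0 β (t + 1)) : I.thick C0 β t := by
  unfold thick at *
  have h1 := I.alt_le_succ C0 t
  have h2 := I.lev_succ C0 t
  rw [h2] at h
  push_cast at h
  have h3 : (I.alt C0 t : ℤ) ≤ I.alt C0 (t + 1) + I.Lam C0 t := by exact_mod_cast h1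
  have h4 : (0 : ℤ) ≤ I.Lam C0 t := by positivity
  linarith

theorem not_frozen_of_thick {β : ℤ} {t : ℕ} (hC : 1 ≤ C0) (h : I.thick C0 β t) :
    ¬ I.frozen C0 β t := by
  intro hf
  unfold thick at h
  unfold frozen at hf
  have h1 : (16 * C0 : ℤ) ≤ I.alt C0 t := by exact_mod_cast I.alt_ge C0 t
  have h2 : (1 : ℤ) ≤ C0 := by exact_mod_cast hC
  linarith

theorem frozen_mono {β : ℤ} {t t' : ℕ} (htt : t ≤ t') (h : I.frozen C0 β t) :
    I.frozen C0 β t' := by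
  induction t', htt using Nat.le_induction with
  | base => exact h
  | succ n _ ih => exact I.frozen_succ C0 ih

/-- sizes of thick blocks -/
theorem nb_thick {β : ℤ} {t : ℕ} (h : I.thick C0 β t) :
    (I.nb β : ℝ) ≤ (2 : ℝ) ^ (5 * ((β : ℝ) - I.lev C0 t) / 32) ∧ 4 * (C0 : ℝ) ≤ (β : ℝ) - I.lev C0 t := by
  unfold thick at h
  have h1 : (16 * C0 : ℝ) ≤ I.alt C0 t := by exact_mod_cast I.alt_ge C0 t
  have h2 : (I.alt C0 t : ℝ) ≤ 4 * ((β : ℝ) - I.lev C0 t) := by exact_mod_cast h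
  have h3 : 4 * (C0 : ℝ) ≤ (β : ℝ) - I.lev C0 t := by linarith
  refine ⟨le_trans (I.nb_le C0 β (I.lev C0 t)) (Real.rpow_le_rpow_of_exponent_le (by norm_num) ?_), h3⟩
  have h4 : (0 : ℝ) ≤ C0 := by positivity
  have h5 : |(((I.lev C0 t : ℕ) : ℤ) : ℝ) - β| = (β : ℝ) - I.lev C0 t := by
    rw [abs_sub_comm, abs_of_nonneg]
    · push_cast; ring
    · push_cast; linarith
  rw [h5]
  have h6 : (I.al C0 ((I.lev C0 t : ℕ) : ℤ) : ℝ) = I.alt C0 t := rfl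
  rw [h6]
  linarith

/-- sizes of frozen blocks -/
theorem nb_frozen {β : ℤ} {t : ℕ} (h : I.frozen C0 β t) :
    (I.nb β : ℝ) ≤ (2 : ℝ) ^ (5 * ((I.lev C0 t : ℝ) - β) / 32) ∧ 4 * (C0 : ℝ) ≤ (I.lev C0 t : ℝ) - β := by
  unfold frozen at h
  have h1 : (16 * C0 : ℝ) ≤ I.alt C0 t := by exact_mod_cast I.alt_ge C0 t
  have h2 : (I.alt C0 t : ℝ) ≤ 4 * ((I.lev C0 t : ℝ) - β) := by exact_mod_cast h
  have h3 : 4 * (C0 : ℝ) ≤ (I.lev C0 t : ℝ) - β := by linarith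
  refine ⟨le_trans (I.nb_le C0 β (I.lev C0 t)) (Real.rpow_le_rpow_of_exponent_le (by norm_num) ?_), h3⟩
  have h4 : (0 : ℝ) ≤ C0 := by positivity
  have h5 : |(((I.lev C0 t : ℕ) : ℤ) : ℝ) - β| = (I.lev C0 t : ℝ) - β := by
    rw [abs_of_nonneg]
    · push_cast; ring
    · push_cast; linarith
  rw [h5]
  have h6 : (I.al C0 ((I.lev C0 t : ℕ) : ℤ) : ℝ) = I.alt C0 t := rfl
  rw [h6]
  linarith

theorem abs_lev_le (β : ℤ) (t : ℕ) :
    |(β : ℝ) - I.lev C0 t| ≤ |(β : ℝ) - I.lev C0 (t + 1)| + I.Lam C0 t := by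
  have h1 : ((I.lev C0 (t + 1) : ℕ) : ℝ) = I.lev C0 t + I.Lam C0 t := by
    rw [I.lev_succ]; push_cast; ring
  have h2 : (β : ℝ) - I.lev C0 t = ((β : ℝ) - I.lev C0 (t + 1)) + I.Lam C0 t := by
    rw [h1]; ring
  rw [h2]
  refine le_trans (abs_add_le _ _) ?_
  have h3 : |(I.Lam C0 t : ℝ)| = I.Lam C0 t := abs_of_nonneg (by positivity)
  rw [h3]

theorem abs_lev_succ_le (β : ℤ) (t : ℕ) :
    |(β : ℝ) - I.lev C0 (t + 1)| ≤ |(β : ℝ) - I.lev C0 t| + I.Lam C0 t := by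
  have h1 : ((I.lev C0 (t + 1) : ℕ) : ℝ) = I.lev C0 t + I.Lam C0 t := by
    rw [I.lev_succ]; push_cast; ring
  have h2 : (β : ℝ) - I.lev C0 (t + 1) = ((β : ℝ) - I.lev C0 t) + -(I.Lam C0 t : ℝ) := by
    rw [h1]; ring
  rw [h2]
  refine le_trans (abs_add_le _ _) ?_
  have h3 : |-(I.Lam C0 t : ℝ)| = I.Lam C0 t := by
    rw [abs_neg]; exact abs_of_nonneg (by positivity)
  rw [h3]

theorem lam_facts (t : ℕ) :
    16 * (I.Lam C0 t : ℝ) ≤ I.alt C0 t ∧ (I.alt C0 t : ℝ) ≤ I.alt C0 (t + 1) + I.Lam C0 t ∧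
      (I.alt C0 (t + 1) : ℝ) ≤ I.alt C0 t + I.Lam C0 t := by
  refine ⟨?_, ?_, ?_⟩
  · exact_mod_cast I.Lam_le C0 t
  · exact_mod_cast I.alt_le_succ C0 t
  · exact_mod_cast I.alt_succ_le C0 t

theorem Nn_le_succ (β : ℤ) (t : ℕ) : I.Nn C0 β t ≤ 6 / 5 * I.Nn C0 β (t + 1) := by
  unfold Nn
  obtain ⟨h1, h2, h3⟩ := I.lam_facts C0 t
  have h4 := I.abs_lev_le C0 β t
  have h5 : (0 : ℝ) ≤ I.nb β := by positivity
  have h6 : 0 ≤ |(β : ℝ) - I.lev C0 (t + 1)| := abs_nonneg _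
  have h7 : (0 : ℝ) ≤ I.Lam C0 t := by positivity
  linarith

theorem Nn_succ_le (β : ℤ) (t : ℕ) : I.Nn C0 β (t + 1) ≤ 9 / 8 * I.Nn C0 β t := by
  unfold Nn
  obtain ⟨h1, h2, h3⟩ := I.lam_facts C0 t
  have h4 := I.abs_lev_succ_le C0 β t
  have h5 : (0 : ℝ) ≤ I.nb β := by positivity
  have h6 : 0 ≤ |(β : ℝ) - I.lev C0 t| := abs_nonneg _
  have h7 : (0 : ℝ) ≤ I.Lam C0 t := by positivity
  linarith

theorem N2_le_succ (β γ : ℤ) (t : ℕ) : I.N2 C0 β γ t ≤ 6 / 5 * I.N2 C0 β γ (t + 1) := by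
  unfold N2
  obtain ⟨h1, h2, h3⟩ := I.lam_facts C0 t
  have h4 := I.abs_lev_le C0 β t
  have h4' := I.abs_lev_le C0 γ t
  have h5 : (0 : ℝ) ≤ (I.nb β : ℝ) * I.nb γ := by positivity
  have h6 : 0 ≤ |(β : ℝ) - I.lev C0 (t + 1)| := abs_nonneg _
  have h6' : 0 ≤ |(γ : ℝ) - I.lev C0 (t + 1)| := abs_nonneg _
  have h7 : (0 : ℝ) ≤ I.Lam C0 t := by positivity
  linarith

theorem Nn_ge (β : ℤ) (t : ℕ) : 16 * (C0 : ℝ) ≤ I.Nn C0 β t := by
  unfold Nn
  have h1 : (16 * C0 : ℝ) ≤ I.alt C0 t := by exact_mod_cast I.alt_ge C0 t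
  have h5 : (0 : ℝ) ≤ I.nb β := by positivity
  have h6 : 0 ≤ |(β : ℝ) - I.lev C0 t| := abs_nonneg _
  linarith

/-- recursion of the second moment allowance -/
theorem HH_succ (E : ℝ) (hE : 0 ≤ E) (hC : 64 ≤ C0) (β γ : ℤ) (t : ℕ) :
    I.HH C0 E β γ t / 2 ^ (I.Lam C0 t) + 6 * (E * Real.sqrt (I.N2 C0 β γ t))
      ≤ 1 / 2 * I.HH C0 E β γ (t + 1) := by
  unfold HH
  set L := I.Lam C0 t with hL
  set S := Real.sqrt (I.N2 C0 β γ t) with hS
  set S' := Real.sqrt (I.N2 C0 β γ (t + 1)) with hS'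
  set m : ℤ := max 0 (min β γ - (I.lev C0 t : ℤ)) with hm
  set m' : ℤ := max 0 (min β γ - (I.lev C0 (t + 1) : ℤ)) with hm'
  have hSnn : 0 ≤ S := Real.sqrt_nonneg _
  have hS'nn : 0 ≤ S' := Real.sqrt_nonneg _
  -- comparison of square roots
  have hSS : S ≤ 11 / 10 * S' := by
    have h1 := I.N2_le_succ C0 β γ t
    have hN' : 0 ≤ I.N2 C0 β γ (t + 1) := by
      unfold N2; positivity
    rw [hS, hS', show (11 / 10 : ℝ) * Real.sqrt (I.N2 C0 β γ (t + 1)) =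
      Real.sqrt ((11 / 10) ^ 2 * I.N2 C0 β γ (t + 1)) by
        rw [Real.sqrt_mul (by norm_num), Real.sqrt_sq (by norm_num)]]
    apply Real.sqrt_le_sqrt
    nlinarith
  -- comparison of exponents
  have hmm : m ≤ m' + L := by
    have h1 : ((I.lev C0 (t + 1) : ℕ) : ℤ) = I.lev C0 t + L := by
      rw [I.lev_succ]; push_cast; rfl
    rw [hm, hm', h1]
    have h2 : (0 : ℤ) ≤ L := by positivity
    omega
  have hP' : 1 ≤ (2 : ℝ) ^ ((m' : ℝ) / 2) := by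
    apply Real.one_le_rpow (by norm_num)
    have : (0 : ℝ) ≤ m' := by exact_mod_cast le_max_left _ _
    positivity
  have hP : (2 : ℝ) ^ ((m : ℝ) / 2) ≤ (2 : ℝ) ^ ((L : ℝ) / 2) * (2 : ℝ) ^ ((m' : ℝ) / 2) := by
    rw [← Real.rpow_add (by norm_num)]
    apply Real.rpow_le_rpow_of_exponent_le (by norm_num)
    have : (m : ℝ) ≤ m' + L := by exact_mod_cast hmm
    linarith
  have hL64 : 64 ≤ L := le_trans hC (I.C0_le_Lam C0 t)
  have hQ : (2 : ℝ) ^ ((L : ℝ) / 2) / 2 ^ L ≤ 1 / 100 := by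
    have e1 : (2 : ℝ) ^ L = (2 : ℝ) ^ ((L : ℝ) / 2) * (2 : ℝ) ^ ((L : ℝ) / 2) := by
      rw [← Real.rpow_add (by norm_num), ← Real.rpow_natCast]
      congr 1; ring
    rw [e1, div_mul_eq_div_div, div_self (by positivity)]
    apply one_div_le_one_div_of_le (by norm_num)
    calc (100 : ℝ) ≤ (2 : ℝ) ^ (32 : ℝ) := by norm_num
      _ ≤ (2 : ℝ) ^ ((L : ℝ) / 2) := by
        apply Real.rpow_le_rpow_of_exponent_le (by norm_num)
        have : (64 : ℝ) ≤ L := by exact_mod_cast hL64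
        linarith
  set P := (2 : ℝ) ^ ((m : ℝ) / 2) with hPdef
  set P' := (2 : ℝ) ^ ((m' : ℝ) / 2) with hP'def
  have hPL : P / 2 ^ L ≤ 1 / 100 * P' := by
    calc P / 2 ^ L ≤ ((2 : ℝ) ^ ((L : ℝ) / 2) * P') / 2 ^ L := by gcongr
      _ = ((2 : ℝ) ^ ((L : ℝ) / 2) / 2 ^ L) * P' := by ring
      _ ≤ 1 / 100 * P' := by gcongr
  have hES : 0 ≤ E * S := by positivity
  have hES' : 0 ≤ E * S' := by positivity
  have hESS : E * S ≤ 11 / 10 * (E * S') := by nlinarith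
  calc 28 * E * S * P / 2 ^ L + 6 * (E * S)
      = 28 * (E * S) * (P / 2 ^ L) + 6 * (E * S) := by ring
    _ ≤ 28 * (E * S) * (1 / 100 * P') + 6 * (E * S) * P' := by
        have h1 : 28 * (E * S) * (P / 2 ^ L) ≤ 28 * (E * S) * (1 / 100 * P') :=
          mul_le_mul_of_nonneg_left hPL (by positivity)
        have h2 : 6 * (E * S) * 1 ≤ 6 * (E * S) * P' :=
          mul_le_mul_of_nonneg_left hP' (by positivity)
        linarith
    _ = (E * S) * P' * (28 / 100 + 6) := by ring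
    _ ≤ (11 / 10 * (E * S')) * P' * (28 / 100 + 6) := by
        have h3 : 0 ≤ P' := by linarith
        gcongr
    _ ≤ 1 / 2 * (28 * E * S' * P') := by
        have h3 : 0 ≤ (E * S') * P' := mul_nonneg hES' (by linarith)
        nlinarith

/-- the age of a frozen block grows quickly -/
theorem age_succ {β : ℤ} {t : ℕ} (h : I.frozen C0 β t) :
    I.age C0 β t + 3 * (I.Lam C0 t : ℤ) ≤ I.age C0 β (t + 1) := by
  unfold frozen at h
  unfold age
  have h1 : ((I.lev C0 (t + 1) : ℕ) : ℤ) = I.lev C0 t + I.Lam C0 t := by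
    rw [I.lev_succ]; push_cast; rfl
  have h3 : (I.alt C0 (t + 1) : ℤ) ≤ I.alt C0 t + I.Lam C0 t := by
    exact_mod_cast I.alt_succ_le C0 t
  rw [h1]
  omega

theorem sg_pos (β : ℤ) (t : ℕ) : 0 < I.sg C0 β t := by
  unfold sg; positivity

theorem age_nonneg (β : ℤ) (t : ℕ) : 0 ≤ I.age C0 β t := le_max_left _ _

theorem sg_le_one (β : ℤ) (t : ℕ) : I.sg C0 β t ≤ 1 := by
  unfold sg
  apply Real.rpow_le_one_of_one_le_of_nonpos (by norm_num)
  have : (0 : ℝ) ≤ I.age C0 β t := by exact_mod_cast I.age_nonneg C0 β t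
  linarith

theorem age_eq_zero {β : ℤ} {t : ℕ} (h : ¬ I.frozen C0 β t) : I.age C0 β t = 0 := by
  unfold frozen at h
  unfold age
  omega

theorem sg_eq_one {β : ℤ} {t : ℕ} (h : ¬ I.frozen C0 β t) : I.sg C0 β t = 1 := by
  unfold sg
  rw [I.age_eq_zero C0 h]
  simp

theorem sg_antitone (hC : 1 ≤ C0) (β : ℤ) (t : ℕ) : I.sg C0 β (t + 1) ≤ I.sg C0 β t := by
  unfold sg
  apply Real.rpow_le_rpow_of_exponent_le (by norm_num)
  have h : I.age C0 β t ≤ I.age C0 β (t + 1) := by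
    by_cases hf : I.frozen C0 β t
    · have h1 := I.age_succ C0 hf
      have h2 : (0 : ℤ) ≤ I.Lam C0 t := by positivity
      linarith
    · rw [I.age_eq_zero C0 hf]
      exact I.age_nonneg C0 β (t + 1)
  have h' : (I.age C0 β t : ℝ) ≤ I.age C0 β (t + 1) := by exact_mod_cast h
  linarith

/-- for a frozen block `Nn ≤ nb + 2 al(β) + age` -/
theorem Nn_frozen {β : ℤ} {t : ℕ} (h : I.frozen C0 β t) :
    I.Nn C0 β t ≤ (I.nb β : ℝ) + 2 * I.al C0 β + I.age C0 β t := by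
  unfold frozen at h
  have h1 := I.al_le_aux C0 (I.lev C0 t) β
  have h0 : (0 : ℤ) ≤ I.alt C0 t := by positivity
  have h2 : (0 : ℤ) ≤ (I.lev C0 t : ℤ) - β := by omega
  rw [abs_of_nonneg h2] at h1
  have h3 : (4 * ((I.lev C0 t : ℤ) - β) - I.alt C0 t) ≤ I.age C0 β t := le_max_right _ _
  have h4 : |(β : ℝ) - I.lev C0 t| = (I.lev C0 t : ℝ) - β := by
    rw [abs_sub_comm, abs_of_nonneg]
    exact_mod_cast h2
  unfold Nn
  rw [h4]
  have h5 : (I.alt C0 t : ℝ) ≤ I.al C0 β + ((I.lev C0 t : ℝ) - β) := by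
    have : (I.alt C0 t : ℤ) ≤ I.al C0 β + ((I.lev C0 t : ℤ) - β) := h1
    exact_mod_cast this
  have h6 : (4 * ((I.lev C0 t : ℝ) - β) - I.alt C0 t) ≤ I.age C0 β t := by exact_mod_cast h3
  have h7 : (0 : ℝ) ≤ (I.lev C0 t : ℝ) - β := by exact_mod_cast h2
  linarith

end Inst

end P262F
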