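import Vale.Agent.P262F.R3

open scoped BigOperators
open Classical

namespace P262F
namespace Inst

variable {W J : Type} [Fintype W] [Fintype J] (I : Inst W J) (C0 : ℕ)

theorem r4_geo (S : Finset ℤ) (L : ℤ) (hS : ∀ β ∈ S, β ≤ L) :
    ∑ β ∈ S, (7 / 8 : ℝ) ^ ((L - β).toNat) ≤ 8 := by
  have hinj : Set.InjOn (fun β : ℤ => (L - β).toNat) (S : Set ℤ) := by
    intro a ha b hb hab
    have h1 := hS a ha
    have h2 := hS b hb
    simp only at hab
    omega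
  have h1 : ∑ β ∈ S, (7 / 8 : ℝ) ^ ((L - β).toNat) =
      ∑ n ∈ S.image (fun β : ℤ => (L - β).toNat), (7 / 8 : ℝ) ^ n := by
    rw [Finset.sum_image hinj]
  rw [h1]
  have hs : Summable (fun n : ℕ => (7 / 8 : ℝ) ^ n) :=
    summable_geometric_of_lt_one (by norm_num) (by norm_num)
  have h2 := hs.sum_le_tsum (S.image (fun β : ℤ => (L - β).toNat)) (fun n _ => by positivity)
  rw [tsum_geometric_of_lt_one (by norm_num) (by norm_num)] at h2
  refine h2.trans ?_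
  norm_num

theorem r4_two_rpow (x : ℕ) : (2 : ℝ) ^ (-(x : ℝ) / 4) ≤ (7 / 8 : ℝ) ^ x := by
  have h1 : (2 : ℝ) ^ (-(x : ℝ) / 4) = ((2 : ℝ) ^ (-(1 : ℝ) / 4)) ^ x := by
    rw [← Real.rpow_natCast, ← Real.rpow_mul (by norm_num)]
    congr 1
    ring
  rw [h1]
  refine pow_le_pow_left₀ (by positivity) ?_ x
  have h2 : ((2 : ℝ) ^ (-(1 : ℝ) / 4)) ^ 4 ≤ (7 / 8 : ℝ) ^ 4 := by
    rw [← Real.rpow_natCast, ← Real.rpow_mul (by norm_num)]
    have : (-(1 : ℝ) / 4 * ((4 : ℕ) : ℝ)) = -1 := by push_cast; norm_num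
    rw [this, Real.rpow_neg_one]
    norm_num
  exact le_of_pow_le_pow_left₀ (by norm_num) (by norm_num) h2

theorem r4_term (hC : 64 ≤ C0) (κ : ℕ) (β : ℤ) (h : I.frozen C0 β κ) :
    (I.nb β : ℝ) * ((2 : ℝ) ^ (β + 1) / (I.sg C0 β κ) ^ 2) ≤
      (2 : ℝ) ^ (I.lev C0 κ) * (1 / 8 * (7 / 8 : ℝ) ^ (((I.lev C0 κ : ℤ) - β).toNat)) := by
  obtain ⟨hn, hx⟩ := I.nb_frozen C0 h
  have halt := I.alt_ge C0 κ
  have hfr : (I.alt C0 κ : ℤ) ≤ 4 * ((I.lev C0 κ : ℤ) - β) := h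
  have hC' : (64 : ℝ) ≤ C0 := by exact_mod_cast hC
  have halt' : (16 : ℝ) * C0 ≤ I.alt C0 κ := by exact_mod_cast halt
  have hxpos : (0 : ℝ) < (I.lev C0 κ : ℝ) - β := by linarith
  have hxZ : (0 : ℤ) < (I.lev C0 κ : ℤ) - β := by
    have : (0 : ℝ) < (((I.lev C0 κ : ℤ) - β : ℤ) : ℝ) := by push_cast; exact hxpos
    exact_mod_cast this
  obtain ⟨x, hxe⟩ : ∃ x : ℕ, (x : ℤ) = (I.lev C0 κ : ℤ) - β := ⟨((I.lev C0 κ : ℤ) - β).toNat, by omega⟩
  have hxt : ((I.lev C0 κ : ℤ) - β).toNat = x := by omega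
  have hxr : (x : ℝ) = (I.lev C0 κ : ℝ) - β := by exact_mod_cast congrArg (fun z : ℤ => (z : ℝ)) hxe
  have hage : I.age C0 β κ = 4 * (x : ℤ) - I.alt C0 κ := by
    unfold age
    rw [hxe]
    exact max_eq_right (by omega)
  have hsg : (I.sg C0 β κ) ^ 2 = (2 : ℝ) ^ (-(4 * (x : ℝ) - I.alt C0 κ) / 8) := by
    unfold sg
    rw [hage, ← Real.rpow_natCast, ← Real.rpow_mul (by norm_num)]
    congr 1
    push_cast
    ring
  have hβ : (2 : ℝ) ^ (β + 1) = (2 : ℝ) ^ ((I.lev C0 κ : ℝ) - x + 1) := by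
    rw [← Real.rpow_intCast]
    congr 1
    push_cast
    rw [hxr]
    ring
  have hn' : (I.nb β : ℝ) ≤ (2 : ℝ) ^ (5 * (x : ℝ) / 32) := by rw [hxr]; exact hn
  rw [hsg, hβ, ← Real.rpow_sub (by norm_num), hxt]
  have h1 : (I.nb β : ℝ) * (2 : ℝ) ^ ((I.lev C0 κ : ℝ) - x + 1 - -(4 * (x : ℝ) - I.alt C0 κ) / 8) ≤
      (2 : ℝ) ^ (5 * (x : ℝ) / 32) *
        (2 : ℝ) ^ ((I.lev C0 κ : ℝ) - x + 1 - -(4 * (x : ℝ) - I.alt C0 κ) / 8) :=
    mul_le_mul_of_nonneg_right hn' (by positivity)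
  refine h1.trans ?_
  rw [← Real.rpow_add (by norm_num)]
  have h2 : (2 : ℝ) ^ (5 * (x : ℝ) / 32 + ((I.lev C0 κ : ℝ) - x + 1 - -(4 * (x : ℝ) - I.alt C0 κ) / 8)) ≤
      (2 : ℝ) ^ ((I.lev C0 κ : ℝ) + (-3) + (-(x : ℝ) / 4)) := by
    apply Real.rpow_le_rpow_of_exponent_le (by norm_num)
    have : (0 : ℝ) ≤ x := by positivity
    linarith
  refine h2.trans ?_
  rw [Real.rpow_add (by norm_num), Real.rpow_add (by norm_num), Real.rpow_natCast, mul_assoc]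
  refine mul_le_mul_of_nonneg_left ?_ (by positivity)
  have h3 : (2 : ℝ) ^ (-3 : ℝ) = 1 / 8 := by
    rw [show (-3 : ℝ) = ((-3 : ℤ) : ℝ) by norm_num, Real.rpow_intCast]
    norm_num
  rw [h3]
  exact mul_le_mul_of_nonneg_left (r4_two_rpow x) (by norm_num)

/-- nominal bound: total truncated load at time κ -/
theorem tau_total (hC : 64 ≤ C0) (κ : ℕ) : ∑ w, I.tau C0 κ w ≤ (2 : ℝ) ^ (I.lev C0 κ) := by
  set f : ℤ → ℝ := fun β => if I.frozen C0 β κ then (2 : ℝ) ^ (β + 1) / (I.sg C0 β κ) ^ 2 else 0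
    with hf
  have h1 : ∀ w, I.tau C0 κ w ≤
      ∑ j, if I.frozen C0 (I.b j) κ then (I.v w j) ^ 2 / (I.sg C0 (I.b j) κ) ^ 2 else 0 := by
    intro w
    unfold tau
    refine (min_le_right _ _).trans ?_
    unfold load
    refine Finset.sum_le_sum (fun j _ => ?_)
    by_cases hfz : I.frozen C0 (I.b j) κ
    · rw [if_pos hfz]
      by_cases hd : I.dropPrev C0 w κ (I.b j)
      · rw [if_neg (fun h => h.2 hd)]
        positivity
      · rw [if_pos ⟨hfz, hd⟩]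
    · rw [if_neg hfz, if_neg (fun h => hfz h.1)]
  have h2 : ∑ w, I.tau C0 κ w ≤ ∑ j, f (I.b j) := by
    refine (Finset.sum_le_sum (fun w _ => h1 w)).trans ?_
    rw [Finset.sum_comm]
    refine Finset.sum_le_sum (fun j _ => ?_)
    rw [hf]
    by_cases hfz : I.frozen C0 (I.b j) κ
    · simp only [if_pos hfz]
      rw [← Finset.sum_div]
      exact div_le_div_of_nonneg_right (I.hb2 j).le (by positivity)
    · simp only [if_neg hfz, Finset.sum_const_zero]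
      exact le_refl _
  refine h2.trans ?_
  have h3 : ∑ j, f (I.b j) = ∑ β ∈ Finset.univ.image I.b, (I.nb β : ℝ) * f β := by
    rw [← Finset.sum_fiberwise_of_maps_to (s := Finset.univ) (t := Finset.univ.image I.b)
      (g := I.b) (fun j _ => Finset.mem_image_of_mem _ (Finset.mem_univ j))]
    refine Finset.sum_congr rfl (fun β _ => ?_)
    rw [Finset.sum_congr rfl (g := fun _ => f β)
      (fun j hj => by rw [(Finset.mem_filter.1 hj).2])]
    rw [Finset.sum_const, nsmul_eq_mul]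
    rfl
  rw [h3]
  have h4 : ∑ β ∈ Finset.univ.image I.b, (I.nb β : ℝ) * f β =
      ∑ β ∈ (Finset.univ.image I.b).filter (fun β => I.frozen C0 β κ),
        (I.nb β : ℝ) * ((2 : ℝ) ^ (β + 1) / (I.sg C0 β κ) ^ 2) := by
    rw [Finset.sum_filter]
    refine Finset.sum_congr rfl (fun β _ => ?_)
    rw [hf]
    by_cases hfz : I.frozen C0 β κ
    · simp only [if_pos hfz]
    · simp only [if_neg hfz, mul_zero]
  rw [h4]
  refine (Finset.sum_le_sum (fun β hβ => I.r4_term C0 hC κ β (Finset.mem_filter.1 hβ).2)).trans ?_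
  rw [← Finset.mul_sum, ← Finset.mul_sum]
  have h5 := r4_geo ((Finset.univ.image I.b).filter (fun β => I.frozen C0 β κ)) (I.lev C0 κ)
    (fun β hβ => by
      have h : (I.alt C0 κ : ℤ) ≤ 4 * ((I.lev C0 κ : ℤ) - β) := (Finset.mem_filter.1 hβ).2
      have : (0 : ℤ) ≤ I.alt C0 κ := by positivity
      omega)
  have h6 : (0 : ℝ) ≤ (2 : ℝ) ^ (I.lev C0 κ) := by positivity
  nlinarith

end Inst
end P262F
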