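import Vale.Agent.P262F.R5

/-!
Tilt estimates that follow from the `ℓ²` bound of the tilt by Cauchy-Schwarz.
-/

open scoped BigOperators
open Classical

namespace P262F
namespace Inst

variable {W J : Type} [Fintype W] [Fintype J] {I : Inst W J} {C0 : ℕ}

omit [Fintype W] in
theorem ind_nonneg_r5b (U : W → Prop) (w : W) : 0 ≤ ind U w := by
  unfold ind
  split_ifs <;> norm_num

omit [Fintype W] in
theorem ind_mul_self_r5b (U : W → Prop) (w : W) : ind U w * ind U w = ind U w := by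
  unfold ind
  split_ifs <;> norm_num

/-- Cauchy-Schwarz with an indicator -/
theorem cs_ind_r5b (U : W → Prop) (s f : W → ℝ) :
    (∑ w, ind U w * s w * f w) ^ 2 ≤ (∑ w, ind U w * s w ^ 2) * (∑ w, ind U w * f w ^ 2) := by
  have h := Finset.sum_mul_sq_le_sq_mul_sq Finset.univ (fun w => ind U w * s w)
    (fun w => ind U w * f w)
  have e1 : ∀ w, ind U w * s w * (ind U w * f w) = ind U w * s w * f w := by
    intro w
    calc ind U w * s w * (ind U w * f w) = (ind U w * ind U w) * s w * f w := by ring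
      _ = ind U w * s w * f w := by rw [ind_mul_self_r5b]
  have e2 : ∀ w, (ind U w * s w) ^ 2 = ind U w * s w ^ 2 := by
    intro w
    calc (ind U w * s w) ^ 2 = (ind U w * ind U w) * s w ^ 2 := by ring
      _ = ind U w * s w ^ 2 := by rw [ind_mul_self_r5b]
  have e3 : ∀ w, (ind U w * f w) ^ 2 = ind U w * f w ^ 2 := by
    intro w
    calc (ind U w * f w) ^ 2 = (ind U w * ind U w) * f w ^ 2 := by ring
      _ = ind U w * f w ^ 2 := by rw [ind_mul_self_r5b]
  simp only [e1, e2, e3] at h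
  exact h

/-- effect on frozen light blocks -/
theorem tilt_light {E : ℝ} (hB : Big E C0) {t : ℕ} {U : W → Prop} {F : J → ℝ}
    (h : I.TiltHyp C0 E t U F) (γ : ℤ) (hγ : I.frozen C0 γ t) :
    I.bn γ (I.ls C0 t (fun w => ind U w * I.tilt C0 t F w)) ≤
      I.sg C0 γ t * (2 : ℝ) ^ (-(I.alt C0 (t + 1) : ℝ) / 16) * Real.sqrt (I.ts C0 t (ind U)) := by
  have hsg := I.sg_pos C0 γ t
  have hl2 := tilt_l2 hB h
  set a : ℝ := (2 : ℝ) ^ (-(I.alt C0 (t + 1) : ℝ) / 16) with ha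
  have ha0 : 0 < a := by positivity
  have hts : 0 ≤ I.ts C0 t (ind U) :=
    Finset.sum_nonneg (fun w _ => mul_nonneg (ind_nonneg_r5b U w) (I.tau_nonneg C0 t w))
  have hb : ∀ w, ∑ j ∈ Finset.univ.filter (fun j => I.b j = γ), (I.lt C0 t w j) ^ 2 ≤
      (I.sg C0 γ t) ^ 2 * I.tau C0 t w := by
    intro w
    have h1 := I.light_load_le C0 t w
    have h2 : ∑ j ∈ Finset.univ.filter (fun j => I.b j = γ),
        (I.lt C0 t w j) ^ 2 / (I.sg C0 γ t) ^ 2 ≤ I.tau C0 t w := by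
      refine le_trans ?_ h1
      rw [Finset.sum_filter]
      refine Finset.sum_le_sum (fun j _ => ?_)
      by_cases hj : I.b j = γ
      · rw [if_pos hj, if_pos (by rw [hj]; exact hγ), hj]
      · rw [if_neg hj]
        split_ifs
        · positivity
        · exact le_refl _
    rw [← Finset.sum_div, div_le_iff₀ (by positivity)] at h2
    linarith
  unfold bn
  rw [show I.sg C0 γ t * a * Real.sqrt (I.ts C0 t (ind U)) =
    Real.sqrt ((I.sg C0 γ t * a) ^ 2 * I.ts C0 t (ind U)) by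
      rw [Real.sqrt_mul (sq_nonneg _), Real.sqrt_sq (by positivity)]]
  apply Real.sqrt_le_sqrt
  calc ∑ j ∈ Finset.univ.filter (fun j => I.b j = γ),
        (I.ls C0 t (fun w => ind U w * I.tilt C0 t F w) j) ^ 2
      ≤ ∑ j ∈ Finset.univ.filter (fun j => I.b j = γ),
        a ^ 2 * (∑ w, ind U w * (I.lt C0 t w j) ^ 2) := by
        refine Finset.sum_le_sum (fun j _ => ?_)
        refine (cs_ind_r5b U (I.tilt C0 t F) (fun w => I.lt C0 t w j)).trans ?_
        exact mul_le_mul_of_nonneg_right hl2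
          (Finset.sum_nonneg (fun w _ => mul_nonneg (ind_nonneg_r5b U w) (sq_nonneg _)))
    _ = a ^ 2 * ∑ w, ind U w * ∑ j ∈ Finset.univ.filter (fun j => I.b j = γ),
        (I.lt C0 t w j) ^ 2 := by
        rw [← Finset.mul_sum, Finset.sum_comm]
        simp only [Finset.mul_sum]
    _ ≤ a ^ 2 * ∑ w, ind U w * ((I.sg C0 γ t) ^ 2 * I.tau C0 t w) := by
        refine mul_le_mul_of_nonneg_left ?_ (sq_nonneg _)
        exact Finset.sum_le_sum (fun w _ => mul_le_mul_of_nonneg_left (hb w) (ind_nonneg_r5b U w))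
    _ = (I.sg C0 γ t * a) ^ 2 * I.ts C0 t (ind U) := by
        unfold ts
        rw [mul_pow, Finset.mul_sum, Finset.mul_sum]
        refine Finset.sum_congr rfl (fun w _ => ?_)
        ring

/-- effect on truncated loads -/
theorem tilt_ts {E : ℝ} (hB : Big E C0) {t : ℕ} {U : W → Prop} {F : J → ℝ}
    (h : I.TiltHyp C0 E t U F) (κ : ℕ) :
    |I.ts C0 κ (fun w => ind U w * I.tilt C0 t F w)| ≤
      (2 : ℝ) ^ (-(I.alt C0 (t + 1) : ℝ) / 16) * Real.sqrt (I.ts C0 κ (ind U)) := by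
  have hl2 := tilt_l2 hB h
  set a : ℝ := (2 : ℝ) ^ (-(I.alt C0 (t + 1) : ℝ) / 16) with ha
  have ha0 : 0 < a := by positivity
  rw [show a * Real.sqrt (I.ts C0 κ (ind U)) = Real.sqrt (a ^ 2 * I.ts C0 κ (ind U)) by
      rw [Real.sqrt_mul (sq_nonneg _), Real.sqrt_sq ha0.le]]
  rw [← Real.sqrt_sq_eq_abs]
  apply Real.sqrt_le_sqrt
  calc (I.ts C0 κ (fun w => ind U w * I.tilt C0 t F w)) ^ 2
      ≤ a ^ 2 * (∑ w, ind U w * (I.tau C0 κ w) ^ 2) := by
        refine (cs_ind_r5b U (I.tilt C0 t F) (fun w => I.tau C0 κ w)).trans ?_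
        exact mul_le_mul_of_nonneg_right hl2
          (Finset.sum_nonneg (fun w _ => mul_nonneg (ind_nonneg_r5b U w) (sq_nonneg _)))
    _ ≤ a ^ 2 * I.ts C0 κ (ind U) := by
        refine mul_le_mul_of_nonneg_left ?_ (sq_nonneg _)
        refine Finset.sum_le_sum (fun w _ => mul_le_mul_of_nonneg_left ?_ (ind_nonneg_r5b U w))
        have h0 := I.tau_nonneg C0 κ w
        have h1 := I.tau_le_one C0 κ w
        nlinarith

/-- mass of the block `b` on `U` -/
theorem tr_le_r5b {E : ℝ} {t : ℕ} {U : W → Prop} {F : J → ℝ}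
    (h : I.TiltHyp C0 E t U F) (b : ℤ) (hb : ¬ I.frozen C0 b t) :
    ∑ w, ind U w * ∑ j ∈ Finset.univ.filter (fun j => I.b j = b), (I.v w j) ^ 2 ≤
      Real.sqrt (I.nb b) * I.HH C0 E b b (t + 1)
        + I.nb b * (2 : ℝ) ^ (b + 1 - (I.lev C0 (t + 1) : ℤ)) := by
  set B := Finset.univ.filter (fun j => I.b j = b) with hBdef
  set c : ℝ := (2 : ℝ) ^ (-(I.lev C0 (t + 1) : ℤ)) with hc
  have hc0 : 0 < c := by positivity
  set M := I.ms (fun w => ind U w - c) with hM
  have h2 : I.bn2 b b M ≤ I.HH C0 E b b (t + 1) := h.h2 b b hb hb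
  have hcard : (I.nb b : ℝ) = (B.card : ℝ) := rfl
  have e1 : ∑ w, ind U w * ∑ j ∈ B, (I.v w j) ^ 2 =
      ∑ j ∈ B, M j j + ∑ j ∈ B, c * ∑ w, (I.v w j) ^ 2 := by
    rw [← Finset.sum_add_distrib]
    simp only [Finset.mul_sum]
    rw [Finset.sum_comm]
    refine Finset.sum_congr rfl (fun j _ => ?_)
    rw [hM]
    unfold ms
    rw [← Finset.sum_add_distrib]
    refine Finset.sum_congr rfl (fun w _ => ?_)
    ring
  rw [e1]
  refine add_le_add ?_ ?_
  · have h3 : (∑ j ∈ B, M j j) ^ 2 ≤ (B.card : ℝ) * ∑ j ∈ B, (M j j) ^ 2 :=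
      sq_sum_le_card_mul_sum_sq
    have h4 : ∑ j ∈ B, (M j j) ^ 2 ≤ ∑ j ∈ B, ∑ l ∈ B, (M j l) ^ 2 := by
      refine Finset.sum_le_sum (fun j hj => ?_)
      exact Finset.single_le_sum (f := fun l => (M j l) ^ 2) (fun l _ => sq_nonneg _) hj
    have h5 : ∑ j ∈ B, M j j ≤ Real.sqrt (B.card) * I.bn2 b b M := by
      unfold bn2
      rw [← Real.sqrt_mul (Nat.cast_nonneg _)]
      refine Real.le_sqrt_of_sq_le (h3.trans ?_)
      exact mul_le_mul_of_nonneg_left h4 (Nat.cast_nonneg _)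
    rw [hcard]
    exact h5.trans (mul_le_mul_of_nonneg_left h2 (Real.sqrt_nonneg _))
  · rw [hcard]
    have h6 : ∀ j ∈ B, c * ∑ w, (I.v w j) ^ 2 ≤ (2 : ℝ) ^ (b + 1 - (I.lev C0 (t + 1) : ℤ)) := by
      intro j hj
      have hj' : I.b j = b := (Finset.mem_filter.mp hj).2
      have h7 := I.hb2 j
      rw [hj'] at h7
      calc c * ∑ w, (I.v w j) ^ 2 ≤ c * (2 : ℝ) ^ (b + 1) :=
            mul_le_mul_of_nonneg_left h7.le hc0.le
        _ = (2 : ℝ) ^ (b + 1 - (I.lev C0 (t + 1) : ℤ)) := by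
            rw [hc, ← zpow_add₀ (by norm_num : (2 : ℝ) ≠ 0)]
            congr 1
            ring
    calc ∑ j ∈ B, c * ∑ w, (I.v w j) ^ 2 ≤ B.card • (2 : ℝ) ^ (b + 1 - (I.lev C0 (t + 1) : ℤ)) :=
          Finset.sum_le_card_nsmul _ _ _ h6
      _ = _ := by rw [nsmul_eq_mul]

theorem ms_num_r5b {E : ℝ} (hB : Big E C0) (t : ℕ) (β γ b : ℤ) (hb : ¬ I.frozen C0 b t)
    (hbm : min β γ = b) (hbβγ : b = β ∨ b = γ) (hnβ : 1 ≤ I.nb β) (hnγ : 1 ≤ I.nb γ) :
    ((2 : ℝ) ^ (-(I.alt C0 (t + 1) : ℝ) / 16)) ^ 2 *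
      (Real.sqrt (I.nb b) * I.HH C0 E b b (t + 1)
        + I.nb b * (2 : ℝ) ^ (b + 1 - (I.lev C0 (t + 1) : ℤ))) ≤
      (1 / 8 * I.HH C0 E β γ (t + 1)) ^ 2 := by
  obtain ⟨hE, hC0, -⟩ := hB
  have hC0' : (64 : ℝ) ≤ C0 := by exact_mod_cast hC0
  set A : ℝ := (I.alt C0 (t + 1) : ℝ) with hA
  set n : ℝ := (I.nb b : ℝ) with hn
  set k : ℕ := I.lev C0 (t + 1) with hk
  set X : ℝ := |(b : ℝ) - k| with hX
  set x : ℤ := b - (k : ℤ) with hx
  set y : ℝ := ((max 0 x : ℤ) : ℝ) with hy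
  set P : ℝ := (2 : ℝ) ^ (y / 2) with hP
  have hA0 : 0 ≤ A := Nat.cast_nonneg _
  have hX0 : 0 ≤ X := abs_nonneg _
  have hn0 : 0 ≤ n := Nat.cast_nonneg _
  have hP0 : 0 < P := by positivity
  have hy0 : 0 ≤ y := by
    rw [hy]; exact_mod_cast le_max_left 0 x
  have hyx : (x : ℝ) ≤ y := by
    rw [hy]; exact_mod_cast le_max_right 0 x
  -- key size bound
  have hXA : (A + X) / 64 ≤ A / 8 + y / 2 := by
    rcases le_or_gt 0 x with h0 | h0
    · have h1 : (0 : ℝ) ≤ (x : ℝ) := by exact_mod_cast h0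
      have h2 : X = (x : ℝ) := by
        rw [hX, hx]; push_cast
        rw [abs_of_nonneg]
        rw [hx] at h1; push_cast at h1; exact h1
      linarith
    · have h1 : (x : ℝ) < 0 := by exact_mod_cast h0
      have h2 : X = -(x : ℝ) := by
        rw [hX, hx]; push_cast
        rw [abs_of_neg]
        rw [hx] at h1; push_cast at h1; exact h1
      have h3 : 4 * ((I.lev C0 t : ℤ) - b) < (I.alt C0 t : ℤ) := by
        unfold frozen at hb
        exact not_le.mp hb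
      have h4 : k = I.lev C0 t + I.Lam C0 t := I.lev_succ C0 t
      have h5 := I.Lam_le C0 t
      have h6 := I.alt_le_succ C0 t
      have h3' : 4 * ((I.lev C0 t : ℝ) - b) < (I.alt C0 t : ℝ) := by exact_mod_cast h3
      have h4' : (k : ℝ) = (I.lev C0 t : ℝ) + (I.Lam C0 t : ℝ) := by exact_mod_cast h4
      have h5' : 16 * (I.Lam C0 t : ℝ) ≤ (I.alt C0 t : ℝ) := by exact_mod_cast h5
      have h6' : (I.alt C0 t : ℝ) ≤ A + (I.Lam C0 t : ℝ) := by rw [hA]; exact_mod_cast h6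
      have h7 : (x : ℝ) = b - k := by rw [hx]; push_cast; ring
      rw [h2, h7, h4']
      linarith
  have hnle : n ≤ (2 : ℝ) ^ ((A + X) / 32 - C0 / 2) := by
    have h1 := I.nb_le C0 b (k : ℤ)
    have h2 : |(((k : ℤ) : ℤ) : ℝ) - (b : ℝ)| = X := by
      rw [hX, abs_sub_comm]; push_cast; ring_nf
    rw [h2] at h1
    exact h1
  have hsn : Real.sqrt n * ((2 : ℝ) ^ (-A / 16)) ^ 2 ≤ P / 2 ^ 16 := by
    have h1 : Real.sqrt n ≤ (2 : ℝ) ^ (((A + X) / 32 - C0 / 2) / 2) := by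
      refine (Real.sqrt_le_sqrt hnle).trans ?_
      rw [Real.sqrt_eq_rpow, ← Real.rpow_mul (by norm_num)]
      apply le_of_eq
      congr 1
      ring
    have h2 : ((2 : ℝ) ^ (-A / 16)) ^ 2 = (2 : ℝ) ^ (-A / 8) := by
      rw [← Real.rpow_natCast, ← Real.rpow_mul (by norm_num)]
      congr 1
      push_cast
      ring
    have h3 : P / 2 ^ 16 = (2 : ℝ) ^ (y / 2 - 16) := by
      rw [Real.rpow_sub (by norm_num), hP]
      congr 1
      norm_num
    rw [h2, h3]
    calc Real.sqrt n * (2 : ℝ) ^ (-A / 8)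
        ≤ (2 : ℝ) ^ (((A + X) / 32 - C0 / 2) / 2) * (2 : ℝ) ^ (-A / 8) :=
          mul_le_mul_of_nonneg_right h1 (by positivity)
      _ = (2 : ℝ) ^ (((A + X) / 32 - C0 / 2) / 2 + -A / 8) := by
          rw [Real.rpow_add (by norm_num)]
      _ ≤ (2 : ℝ) ^ (y / 2 - 16) := by
          apply Real.rpow_le_rpow_of_exponent_le (by norm_num)
          linarith
  have ha1 : ((2 : ℝ) ^ (-A / 16)) ^ 2 ≤ 1 := by
    have : (2 : ℝ) ^ (-A / 16) ≤ 1 := Real.rpow_le_one_of_one_le_of_nonpos (by norm_num) (by linarith)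
    have h0 : 0 ≤ (2 : ℝ) ^ (-A / 16) := by positivity
    nlinarith
  have hzx : (2 : ℝ) ^ (b + 1 - (k : ℤ)) ≤ 2 * P ^ 2 := by
    have h1 : P ^ 2 = (2 : ℝ) ^ y := by
      rw [hP, ← Real.rpow_natCast, ← Real.rpow_mul (by norm_num)]
      congr 1
      push_cast
      ring
    have h2 : (2 : ℝ) ^ (b + 1 - (k : ℤ)) = 2 * (2 : ℝ) ^ (x : ℝ) := by
      rw [Real.rpow_intCast, hx]
      have : b + 1 - (k : ℤ) = 1 + (b - (k : ℤ)) := by ring
      rw [this, zpow_add₀ (by norm_num : (2 : ℝ) ≠ 0), zpow_one]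
    rw [h1, h2]
    exact mul_le_mul_of_nonneg_left
      (Real.rpow_le_rpow_of_exponent_le (by norm_num) hyx) (by norm_num)
  -- the quantities N2
  set N := I.N2 C0 β γ (t + 1) with hN
  have hNge : n + A + X ≤ N := by
    rw [hN]
    unfold N2
    have hβ1 : (1 : ℝ) ≤ (I.nb β : ℝ) := by exact_mod_cast hnβ
    have hγ1 : (1 : ℝ) ≤ (I.nb γ : ℝ) := by exact_mod_cast hnγ
    have hk' : ((I.lev C0 (t + 1) : ℕ) : ℝ) = (k : ℝ) := rfl
    rcases hbβγ with h0 | h0
    · have h1 : n ≤ (I.nb β : ℝ) * I.nb γ := by rw [hn, h0]; nlinarith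
      have h2 : X = |(β : ℝ) - k| := by rw [hX, h0]
      have h3 := abs_nonneg ((γ : ℝ) - k)
      rw [hk', h2]
      linarith
    · have h1 : n ≤ (I.nb β : ℝ) * I.nb γ := by rw [hn, h0]; nlinarith
      have h2 : X = |(γ : ℝ) - k| := by rw [hX, h0]
      have h3 := abs_nonneg ((β : ℝ) - k)
      rw [hk', h2]
      linarith
  have hN0 : 0 ≤ N := by linarith
  have hn1 : 1 ≤ n := by
    rcases hbβγ with h0 | h0
    · rw [hn, h0]; exact_mod_cast hnβ
    · rw [hn, h0]; exact_mod_cast hnγ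
  have hsq : Real.sqrt (I.N2 C0 b b (t + 1)) ≤ 2 * N := by
    apply Real.sqrt_le_iff.mpr
    refine ⟨by linarith, ?_⟩
    have h1 : I.N2 C0 b b (t + 1) = n * n + A + X + X := rfl
    rw [h1]
    nlinarith
  have hHHb : I.HH C0 E b b (t + 1) ≤ 56 * E * N * P := by
    have h1 : I.HH C0 E b b (t + 1) = 28 * E * Real.sqrt (I.N2 C0 b b (t + 1)) * P := by
      unfold HH
      rw [min_self]
    rw [h1]
    have : 28 * E * Real.sqrt (I.N2 C0 b b (t + 1)) ≤ 28 * E * (2 * N) :=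
      mul_le_mul_of_nonneg_left hsq (by linarith)
    calc 28 * E * Real.sqrt (I.N2 C0 b b (t + 1)) * P ≤ 28 * E * (2 * N) * P :=
          mul_le_mul_of_nonneg_right this hP0.le
      _ = 56 * E * N * P := by ring
  have hHH : (1 / 8 * I.HH C0 E β γ (t + 1)) ^ 2 = (49 / 4) * E ^ 2 * N * P ^ 2 := by
    unfold HH
    rw [hbm]
    have h1 : Real.sqrt (I.N2 C0 β γ (t + 1)) ^ 2 = N := Real.sq_sqrt hN0
    calc (1 / 8 * (28 * E * Real.sqrt (I.N2 C0 β γ (t + 1)) * P)) ^ 2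
        = (49 / 4) * E ^ 2 * (Real.sqrt (I.N2 C0 β γ (t + 1)) ^ 2) * P ^ 2 := by ring
      _ = _ := by rw [h1]
  rw [hHH]
  set a2 : ℝ := ((2 : ℝ) ^ (-A / 16)) ^ 2 with ha2
  have ha20 : 0 ≤ a2 := sq_nonneg _
  have hP2 : 0 < P ^ 2 := by positivity
  have t1 : a2 * (Real.sqrt n * I.HH C0 E b b (t + 1)) ≤ E * N * P ^ 2 := by
    calc a2 * (Real.sqrt n * I.HH C0 E b b (t + 1))
        ≤ a2 * (Real.sqrt n * (56 * E * N * P)) := by
          refine mul_le_mul_of_nonneg_left ?_ ha20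
          exact mul_le_mul_of_nonneg_left hHHb (Real.sqrt_nonneg _)
      _ = (Real.sqrt n * a2) * (56 * E * N * P) := by ring
      _ ≤ (P / 2 ^ 16) * (56 * E * N * P) := by
          refine mul_le_mul_of_nonneg_right hsn ?_
          have : 0 ≤ E := by linarith
          positivity
      _ = (56 / 2 ^ 16) * (E * N * P ^ 2) := by ring
      _ ≤ 1 * (E * N * P ^ 2) := by
          refine mul_le_mul_of_nonneg_right (by norm_num) ?_
          have : 0 ≤ E := by linarith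
          positivity
      _ = E * N * P ^ 2 := by ring
  have t2 : a2 * (n * (2 : ℝ) ^ (b + 1 - (k : ℤ))) ≤ 2 * N * P ^ 2 := by
    calc a2 * (n * (2 : ℝ) ^ (b + 1 - (k : ℤ))) ≤ 1 * (n * (2 : ℝ) ^ (b + 1 - (k : ℤ))) :=
          mul_le_mul_of_nonneg_right ha1 (by positivity)
      _ ≤ 1 * (N * (2 * P ^ 2)) := by
          refine mul_le_mul_of_nonneg_left ?_ (by norm_num)
          exact mul_le_mul (by linarith) hzx (by positivity) hN0
      _ = 2 * N * P ^ 2 := by ring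
  have t3 : (E + 2) * (N * P ^ 2) ≤ (49 / 4 * E ^ 2) * (N * P ^ 2) := by
    refine mul_le_mul_of_nonneg_right ?_ (by positivity)
    nlinarith
  calc a2 * (Real.sqrt n * I.HH C0 E b b (t + 1) + n * (2 : ℝ) ^ (b + 1 - (k : ℤ)))
      = a2 * (Real.sqrt n * I.HH C0 E b b (t + 1)) + a2 * (n * (2 : ℝ) ^ (b + 1 - (k : ℤ))) := by ring
    _ ≤ E * N * P ^ 2 + 2 * N * P ^ 2 := add_le_add t1 t2
    _ = (E + 2) * (N * P ^ 2) := by ring
    _ ≤ (49 / 4 * E ^ 2) * (N * P ^ 2) := t3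
    _ = 49 / 4 * E ^ 2 * N * P ^ 2 := by ring

/-- effect on second moments -/
theorem tilt_ms {E : ℝ} (hB : Big E C0) {t : ℕ} {U : W → Prop} {F : J → ℝ}
    (h : I.TiltHyp C0 E t U F) (β γ : ℤ) (hβ : ¬ I.frozen C0 β t) (hγ : ¬ I.frozen C0 γ t) :
    I.bn2 β γ (I.ms (fun w => ind U w * I.tilt C0 t F w)) ≤ 1 / 8 * I.HH C0 E β γ (t + 1) := by
  have hHH0 : 0 ≤ I.HH C0 E β γ (t + 1) := by
    unfold HH
    have := hB.1
    positivity
  by_cases hnβ : 1 ≤ I.nb β
  swap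
  · have h0 : Finset.univ.filter (fun j => I.b j = β) = ∅ := by
      unfold nb at hnβ
      rw [← Finset.card_eq_zero]
      omega
    unfold bn2
    rw [h0, Finset.sum_empty, Real.sqrt_zero]
    positivity
  by_cases hnγ : 1 ≤ I.nb γ
  swap
  · have h0 : Finset.univ.filter (fun j => I.b j = γ) = ∅ := by
      unfold nb at hnγ
      rw [← Finset.card_eq_zero]
      omega
    unfold bn2
    rw [h0]
    simp only [Finset.sum_empty, Finset.sum_const_zero, Real.sqrt_zero]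
    positivity
  have hl2 := tilt_l2 hB h
  set a : ℝ := (2 : ℝ) ^ (-(I.alt C0 (t + 1) : ℝ) / 16) with ha
  have ha0 : 0 < a := by positivity
  -- block norms of `v w` are at most 1
  have hv1 : ∀ w (δ : ℤ), ∑ j ∈ Finset.univ.filter (fun j => I.b j = δ), (I.v w j) ^ 2 ≤ 1 := by
    intro w δ
    refine le_trans ?_ (I.hv w)
    exact Finset.sum_le_sum_of_subset_of_nonneg (Finset.filter_subset _ _)
      (fun j _ _ => sq_nonneg _)
  have hv0 : ∀ w (δ : ℤ), 0 ≤ ∑ j ∈ Finset.univ.filter (fun j => I.b j = δ), (I.v w j) ^ 2 :=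
    fun w δ => Finset.sum_nonneg (fun j _ => sq_nonneg _)
  -- Cauchy-Schwarz
  have key : ∑ j ∈ Finset.univ.filter (fun j => I.b j = β),
      ∑ l ∈ Finset.univ.filter (fun l => I.b l = γ),
        (I.ms (fun w => ind U w * I.tilt C0 t F w) j l) ^ 2 ≤
      a ^ 2 * ∑ w, ind U w * ((∑ j ∈ Finset.univ.filter (fun j => I.b j = β), (I.v w j) ^ 2) *
        (∑ l ∈ Finset.univ.filter (fun l => I.b l = γ), (I.v w l) ^ 2)) := by
    calc ∑ j ∈ Finset.univ.filter (fun j => I.b j = β),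
          ∑ l ∈ Finset.univ.filter (fun l => I.b l = γ),
            (I.ms (fun w => ind U w * I.tilt C0 t F w) j l) ^ 2
        ≤ ∑ j ∈ Finset.univ.filter (fun j => I.b j = β),
          ∑ l ∈ Finset.univ.filter (fun l => I.b l = γ),
            a ^ 2 * ∑ w, ind U w * (I.v w j * I.v w l) ^ 2 := by
          refine Finset.sum_le_sum (fun j _ => Finset.sum_le_sum (fun l _ => ?_))
          refine (cs_ind_r5b U (I.tilt C0 t F) (fun w => I.v w j * I.v w l)).trans ?_
          exact mul_le_mul_of_nonneg_right hl2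
            (Finset.sum_nonneg (fun w _ => mul_nonneg (ind_nonneg_r5b U w) (sq_nonneg _)))
      _ = a ^ 2 * ∑ j ∈ Finset.univ.filter (fun j => I.b j = β),
          ∑ l ∈ Finset.univ.filter (fun l => I.b l = γ),
            ∑ w, ind U w * (I.v w j * I.v w l) ^ 2 := by
          simp only [Finset.mul_sum]
      _ = a ^ 2 * ∑ w, ∑ j ∈ Finset.univ.filter (fun j => I.b j = β),
          ∑ l ∈ Finset.univ.filter (fun l => I.b l = γ),
            ind U w * (I.v w j * I.v w l) ^ 2 := by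
          congr 1
          rw [Finset.sum_comm' (s := Finset.univ) (t := fun _ => Finset.univ.filter (fun j => I.b j = β))
            (t' := Finset.univ.filter (fun j => I.b j = β)) (s' := fun _ => Finset.univ) (by simp)]
          refine Finset.sum_congr rfl (fun j _ => ?_)
          rw [Finset.sum_comm]
      _ = _ := by
          congr 1
          refine Finset.sum_congr rfl (fun w _ => ?_)
          rw [Finset.sum_mul_sum, Finset.mul_sum]
          refine Finset.sum_congr rfl (fun j _ => ?_)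
          rw [Finset.mul_sum]
          refine Finset.sum_congr rfl (fun l _ => ?_)
          ring
  unfold bn2
  apply Real.sqrt_le_iff.mpr
  refine ⟨by positivity, key.trans ?_⟩
  rcases le_total β γ with hle | hle
  · have h1 := tr_le_r5b h β hβ
    have h2 := ms_num_r5b (I := I) hB t β γ β hβ (min_eq_left hle) (Or.inl rfl) hnβ hnγ
    refine le_trans ?_ h2
    refine mul_le_mul_of_nonneg_left (le_trans ?_ h1) (sq_nonneg _)
    refine Finset.sum_le_sum (fun w _ => mul_le_mul_of_nonneg_left ?_ (ind_nonneg_r5b U w))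
    exact mul_le_of_le_one_right (hv0 w β) (hv1 w γ)
  · have h1 := tr_le_r5b h γ hγ
    have h2 := ms_num_r5b (I := I) hB t β γ γ hγ (min_eq_right hle) (Or.inr rfl) hnβ hnγ
    refine le_trans ?_ h2
    refine mul_le_mul_of_nonneg_left (le_trans ?_ h1) (sq_nonneg _)
    refine Finset.sum_le_sum (fun w _ => mul_le_mul_of_nonneg_left ?_ (ind_nonneg_r5b U w))
    exact mul_le_of_le_one_left (hv0 w γ) (hv1 w β)

end Inst
end P262F
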