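import Vale.Agent.P262F.RDefs

/-! P262 R8, auxiliary facts on the block norms. -/

open scoped BigOperators
open Classical

namespace P262F
namespace Inst

variable {W J : Type} [Fintype W] [Fintype J] (I : Inst W J) (C0 : ℕ)

/-- the vector restricted to the block. -/
noncomputable def bvec (β : ℤ) (x : J → ℝ) : EuclideanSpace ℝ J :=
  WithLp.toLp 2 (fun j => if I.b j = β then x j else 0)

theorem bn_eq_norm (β : ℤ) (x : J → ℝ) : I.bn β x = ‖I.bvec β x‖ := by
  rw [EuclideanSpace.norm_eq, bn]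
  congr 1
  rw [Finset.sum_filter]
  refine Finset.sum_congr rfl fun j _ => ?_
  simp only [bvec]
  split_ifs <;> simp

theorem bn_nonneg' (β : ℤ) (x : J → ℝ) : 0 ≤ I.bn β x := Real.sqrt_nonneg _

theorem bvec_add (β : ℤ) (x y : J → ℝ) : I.bvec β (fun j => x j + y j) = I.bvec β x + I.bvec β y := by
  ext j
  simp only [bvec, PiLp.add_apply]
  split_ifs <;> simp

theorem bvec_sub (β : ℤ) (x y : J → ℝ) : I.bvec β (fun j => x j - y j) = I.bvec β x - I.bvec β y := by
  ext j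
  simp only [bvec, PiLp.sub_apply]
  split_ifs <;> simp

theorem bvec_smul (β : ℤ) (a : ℝ) (x : J → ℝ) : I.bvec β (fun j => a * x j) = a • I.bvec β x := by
  ext j
  simp only [bvec, PiLp.smul_apply, smul_eq_mul]
  split_ifs <;> simp

theorem bn_add_le' (β : ℤ) (x y : J → ℝ) : I.bn β (fun j => x j + y j) ≤ I.bn β x + I.bn β y := by
  rw [bn_eq_norm, bn_eq_norm, bn_eq_norm, bvec_add]
  exact norm_add_le _ _

theorem bn_sub_le' (β : ℤ) (x y : J → ℝ) : I.bn β (fun j => x j - y j) ≤ I.bn β x + I.bn β y := by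
  rw [bn_eq_norm, bn_eq_norm, bn_eq_norm, bvec_sub]
  exact norm_sub_le _ _

theorem bn_congr' {β : ℤ} {x y : J → ℝ} (h : ∀ j, I.b j = β → x j = y j) :
    I.bn β x = I.bn β y := by
  rw [bn_eq_norm, bn_eq_norm]
  congr 1
  ext j
  simp only [bvec]
  by_cases hj : I.b j = β
  · simp [hj, h j hj]
  · simp [hj]

theorem bn_zero' {β : ℤ} {x : J → ℝ} (h : ∀ j, I.b j = β → x j = 0) : I.bn β x = 0 := by
  rw [I.bn_congr' (y := fun _ => 0) h, bn_eq_norm]
  have : I.bvec β (fun _ => 0) = 0 := by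
    ext j
    simp [bvec]
  rw [this, norm_zero]

theorem bn_neg' (β : ℤ) (x : J → ℝ) : I.bn β (fun j => - x j) = I.bn β x := by
  rw [bn_eq_norm, bn_eq_norm]
  have : I.bvec β (fun j => - x j) = - I.bvec β x := by
    ext j
    simp only [bvec, PiLp.neg_apply]
    split_ifs <;> simp
  rw [this, norm_neg]

theorem bn_sum_le' (β : ℤ) (f : W → J → ℝ) :
    I.bn β (fun j => ∑ w, f w j) ≤ ∑ w, I.bn β (f w) := by
  have h : I.bvec β (fun j => ∑ w, f w j) = ∑ w, I.bvec β (f w) := by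
    ext j
    rw [WithLp.ofLp_sum, Finset.sum_apply]
    simp only [bvec]
    split_ifs <;> simp
  rw [bn_eq_norm, h]
  refine (norm_sum_le _ _).trans_eq ?_
  exact Finset.sum_congr rfl fun w _ => (I.bn_eq_norm β _).symm

theorem bn_mul' (β : ℤ) (a : ℝ) (x : J → ℝ) : I.bn β (fun j => a * x j) = |a| * I.bn β x := by
  rw [bn_eq_norm, bn_eq_norm, bvec_smul, norm_smul, Real.norm_eq_abs]

/-- weighted sum of vectors with weights at most `1`, supported in `S`. -/
theorem bn_weight_le (β : ℤ) (ω : W → ℝ) (hω : ∀ w, |ω w| ≤ 1) (S : W → Prop)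
    (hS : ∀ w, ω w ≠ 0 → S w) (u : W → J → ℝ) {s : ℝ} (hs : ∀ w, S w → I.bn β (u w) ≤ s)
    (hs0 : 0 ≤ s) :
    I.bn β (fun j => ∑ w, ω w * u w j) ≤ (∑ w, ind S w) * s := by
  refine (I.bn_sum_le' β (fun w j => ω w * u w j)).trans ?_
  rw [Finset.sum_mul]
  refine Finset.sum_le_sum fun w _ => ?_
  rw [bn_mul']
  by_cases h0 : ω w = 0
  · rw [h0, abs_zero, zero_mul]
    exact mul_nonneg (by unfold ind; split_ifs <;> norm_num) hs0
  · have hw := hS w h0
    rw [ind, if_pos hw, one_mul]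
    exact (mul_le_mul (hω w) (hs w hw) (I.bn_nonneg' _ _) zero_le_one).trans_eq (one_mul _)

theorem vs_sub (ω ω' : W → ℝ) (j : J) :
    I.vs (fun w => ω w - ω' w) j = I.vs ω j - I.vs ω' j := by
  simp only [vs, sub_mul, Finset.sum_sub_distrib]

theorem ls_sub (t : ℕ) (ω ω' : W → ℝ) (j : J) :
    I.ls C0 t (fun w => ω w - ω' w) j = I.ls C0 t ω j - I.ls C0 t ω' j := by
  simp only [ls, sub_mul, Finset.sum_sub_distrib]

theorem ls_add (t : ℕ) (ω ω' : W → ℝ) (j : J) :
    I.ls C0 t (fun w => ω w + ω' w) j = I.ls C0 t ω j + I.ls C0 t ω' j := by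
  simp only [ls, add_mul, Finset.sum_add_distrib]

theorem ind_nonneg (P : W → Prop) (w : W) : 0 ≤ ind P w := by
  unfold ind
  split_ifs <;> norm_num

theorem ind_le_one (P : W → Prop) (w : W) : ind P w ≤ 1 := by
  unfold ind
  split_ifs <;> norm_num

end Inst
end P262F
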