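import Vale.Agent.P262F.R1a
import Vale.Agent.P262F.R8n

/-!
P262, module R6b: the seminorms of R6 (`semiL`, `semiV`, `semiM`, `semiT`), `ls_eq_vs`, and the
iteration of one step (`run_of_step`).
-/

open scoped BigOperators
open Classical

namespace P262F
namespace Inst

variable {W J : Type} [Fintype W] [Fintype J]

section linear

variable (I : Inst W J) (C0 : ℕ)

theorem vs_add_r6b (x y : W → ℝ) (j : J) : I.vs (x + y) j = I.vs x j + I.vs y j := by
  unfold vs
  rw [← Finset.sum_add_distrib]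
  exact Finset.sum_congr rfl (fun w _ => by rw [Pi.add_apply]; ring)

theorem vs_smul_r6b (a : ℝ) (x : W → ℝ) (j : J) : I.vs (a • x) j = a * I.vs x j := by
  unfold vs
  rw [Finset.mul_sum]
  exact Finset.sum_congr rfl (fun w _ => by rw [Pi.smul_apply, smul_eq_mul]; ring)

theorem ls_add_r6b (t : ℕ) (x y : W → ℝ) (j : J) :
    I.ls C0 t (x + y) j = I.ls C0 t x j + I.ls C0 t y j := by
  unfold ls
  rw [← Finset.sum_add_distrib]
  exact Finset.sum_congr rfl (fun w _ => by rw [Pi.add_apply]; ring)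

theorem ls_smul_r6b (t : ℕ) (a : ℝ) (x : W → ℝ) (j : J) :
    I.ls C0 t (a • x) j = a * I.ls C0 t x j := by
  unfold ls
  rw [Finset.mul_sum]
  exact Finset.sum_congr rfl (fun w _ => by rw [Pi.smul_apply, smul_eq_mul]; ring)

theorem ms_add_r6b (x y : W → ℝ) (j l : J) : I.ms (x + y) j l = I.ms x j l + I.ms y j l := by
  unfold ms
  rw [← Finset.sum_add_distrib]
  exact Finset.sum_congr rfl (fun w _ => by rw [Pi.add_apply]; ring)

theorem ms_smul_r6b (a : ℝ) (x : W → ℝ) (j l : J) : I.ms (a • x) j l = a * I.ms x j l := by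
  unfold ms
  rw [Finset.mul_sum]
  exact Finset.sum_congr rfl (fun w _ => by rw [Pi.smul_apply, smul_eq_mul]; ring)

theorem ts_add_r6b (κ : ℕ) (x y : W → ℝ) : I.ts C0 κ (x + y) = I.ts C0 κ x + I.ts C0 κ y := by
  unfold ts
  rw [← Finset.sum_add_distrib]
  exact Finset.sum_congr rfl (fun w _ => by rw [Pi.add_apply]; ring)

theorem ts_smul_r6b (κ : ℕ) (a : ℝ) (x : W → ℝ) : I.ts C0 κ (a • x) = a * I.ts C0 κ x := by
  unfold ts
  rw [Finset.mul_sum]
  exact Finset.sum_congr rfl (fun w _ => by rw [Pi.smul_apply, smul_eq_mul]; ring)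

theorem bn_smul_r6b (β : ℤ) (a : ℝ) (x : J → ℝ) : I.bn β (fun j => a * x j) = |a| * I.bn β x := by
  rw [bn_eq_norm, bn_eq_norm, bvec_smul, norm_smul, Real.norm_eq_abs]

/-- the matrix restricted to the block pair -/
noncomputable def bvec2 (β γ : ℤ) (x : J → J → ℝ) : EuclideanSpace ℝ (J × J) :=
  WithLp.toLp 2 (fun p => if I.b p.1 = β ∧ I.b p.2 = γ then x p.1 p.2 else 0)

theorem bn2_eq_norm (β γ : ℤ) (x : J → J → ℝ) : I.bn2 β γ x = ‖I.bvec2 β γ x‖ := by
  rw [EuclideanSpace.norm_eq, bn2]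
  congr 1
  rw [Fintype.sum_prod_type, Finset.sum_filter]
  refine Finset.sum_congr rfl fun j _ => ?_
  rw [Finset.sum_filter]
  by_cases hj : I.b j = β
  · rw [if_pos hj]
    refine Finset.sum_congr rfl fun l _ => ?_
    simp only [bvec2]
    by_cases hl : I.b l = γ
    · simp [hj, hl]
    · simp [hl]
  · rw [if_neg hj]
    symm
    refine Finset.sum_eq_zero fun l _ => ?_
    simp only [bvec2]
    simp [hj]

theorem bn2_add_le_r6b (β γ : ℤ) (x y : J → J → ℝ) :
    I.bn2 β γ (fun j l => x j l + y j l) ≤ I.bn2 β γ x + I.bn2 β γ y := by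
  rw [bn2_eq_norm, bn2_eq_norm, bn2_eq_norm]
  have h : I.bvec2 β γ (fun j l => x j l + y j l) = I.bvec2 β γ x + I.bvec2 β γ y := by
    ext p
    simp only [bvec2, PiLp.add_apply]
    split_ifs <;> simp
  rw [h]
  exact norm_add_le _ _

theorem bn2_smul_r6b (β γ : ℤ) (a : ℝ) (x : J → J → ℝ) :
    I.bn2 β γ (fun j l => a * x j l) = |a| * I.bn2 β γ x := by
  rw [bn2_eq_norm, bn2_eq_norm]
  have h : I.bvec2 β γ (fun j l => a * x j l) = a • I.bvec2 β γ x := by
    ext p
    simp only [bvec2, PiLp.smul_apply, smul_eq_mul]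
    split_ifs <;> simp
  rw [h, norm_smul, Real.norm_eq_abs]

end linear

/-- seminorm of the light sums on a block -/
noncomputable def semiL (I : Inst W J) (C0 : ℕ) (t : ℕ) (β : ℤ) : Seminorm ℝ (W → ℝ) :=
  Seminorm.of (fun ω => I.bn β (I.ls C0 t ω))
    (by
      intro x y
      have h : I.ls C0 t (x + y) = fun j => I.ls C0 t x j + I.ls C0 t y j := by
        funext j
        exact I.ls_add_r6b C0 t x y j
      change I.bn β (I.ls C0 t (x + y)) ≤ I.bn β (I.ls C0 t x) + I.bn β (I.ls C0 t y)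
      rw [h]
      exact I.bn_add_le' β _ _)
    (by
      intro a x
      have h : I.ls C0 t (a • x) = fun j => a * I.ls C0 t x j := by
        funext j
        exact I.ls_smul_r6b C0 t a x j
      change I.bn β (I.ls C0 t (a • x)) = ‖a‖ * I.bn β (I.ls C0 t x)
      rw [h, bn_smul_r6b, Real.norm_eq_abs])

/-- seminorm of the raw sums on a block -/
noncomputable def semiV (I : Inst W J) (β : ℤ) : Seminorm ℝ (W → ℝ) :=
  Seminorm.of (fun ω => I.bn β (I.vs ω))
    (by
      intro x y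
      have h : I.vs (x + y) = fun j => I.vs x j + I.vs y j := by
        funext j
        exact I.vs_add_r6b x y j
      change I.bn β (I.vs (x + y)) ≤ I.bn β (I.vs x) + I.bn β (I.vs y)
      rw [h]
      exact I.bn_add_le' β _ _)
    (by
      intro a x
      have h : I.vs (a • x) = fun j => a * I.vs x j := by
        funext j
        exact I.vs_smul_r6b a x j
      change I.bn β (I.vs (a • x)) = ‖a‖ * I.bn β (I.vs x)
      rw [h, bn_smul_r6b, Real.norm_eq_abs])

/-- seminorm of the second moments on a block pair -/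
noncomputable def semiM (I : Inst W J) (β γ : ℤ) : Seminorm ℝ (W → ℝ) :=
  Seminorm.of (fun ω => I.bn2 β γ (I.ms ω))
    (by
      intro x y
      have h : I.ms (x + y) = fun j l => I.ms x j l + I.ms y j l := by
        funext j l
        exact I.ms_add_r6b x y j l
      change I.bn2 β γ (I.ms (x + y)) ≤ I.bn2 β γ (I.ms x) + I.bn2 β γ (I.ms y)
      rw [h]
      exact I.bn2_add_le_r6b β γ _ _)
    (by
      intro a x
      have h : I.ms (a • x) = fun j l => a * I.ms x j l := by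
        funext j l
        exact I.ms_smul_r6b a x j l
      change I.bn2 β γ (I.ms (a • x)) = ‖a‖ * I.bn2 β γ (I.ms x)
      rw [h, bn2_smul_r6b, Real.norm_eq_abs])

/-- seminorm of the truncated loads -/
noncomputable def semiT (I : Inst W J) (C0 : ℕ) (κ : ℕ) : Seminorm ℝ (W → ℝ) :=
  Seminorm.of (fun ω => |I.ts C0 κ ω|)
    (by
      intro x y
      change |I.ts C0 κ (x + y)| ≤ |I.ts C0 κ x| + |I.ts C0 κ y|
      rw [I.ts_add_r6b C0 κ x y]
      exact abs_add_le _ _)
    (by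
      intro a x
      change |I.ts C0 κ (a • x)| = ‖a‖ * |I.ts C0 κ x|
      rw [I.ts_smul_r6b C0 κ a x, abs_mul, Real.norm_eq_abs])

@[simp] theorem semiL_apply (I : Inst W J) (C0 t : ℕ) (β : ℤ) (ω : W → ℝ) :
    I.semiL C0 t β ω = I.bn β (I.ls C0 t ω) := rfl

@[simp] theorem semiV_apply (I : Inst W J) (β : ℤ) (ω : W → ℝ) :
    I.semiV β ω = I.bn β (I.vs ω) := rfl

@[simp] theorem semiM_apply (I : Inst W J) (β γ : ℤ) (ω : W → ℝ) :
    I.semiM β γ ω = I.bn2 β γ (I.ms ω) := rfl

@[simp] theorem semiT_apply (I : Inst W J) (C0 κ : ℕ) (ω : W → ℝ) :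
    I.semiT C0 κ ω = |I.ts C0 κ ω| := rfl

/-- on non-frozen blocks light = raw -/
theorem ls_eq_vs (I : Inst W J) (C0 : ℕ) {t : ℕ} {β : ℤ} (h : ¬ I.frozen C0 β t) (ω : W → ℝ) :
    I.bn β (I.ls C0 t ω) = I.bn β (I.vs ω) := by
  refine I.bn_congr' (fun j hj => ?_)
  unfold ls vs
  refine Finset.sum_congr rfl (fun w _ => ?_)
  have h1 : ¬ I.drop C0 w (I.b j) t := by
    intro h2
    have h3 := I.frozen_of_drop C0 h2
    rw [hj] at h3
    exact h h3
  unfold lt
  rw [if_neg h1]

/-- iteration of one step -/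
theorem run_of_step (I : Inst W J) (C0 : ℕ) (E : ℝ) (T : ℕ)
    (h0 : I.Inv C0 E 0 T (fun _ => 0))
    (hstep : ∀ t, t < T → ∀ c : W → ℕ, I.Inv C0 E t T c →
      ∃ c' : W → ℕ, I.Inv C0 E (t + 1) T c' ∧ I.StepRel C0 E t c c') :
    ∃ c : ℕ → W → ℕ, c 0 = (fun _ => 0) ∧ (∀ t, t ≤ T → I.Inv C0 E t T (c t)) ∧
      ∀ t, t < T → I.StepRel C0 E t (c t) (c (t + 1)) := by
  let nxt : ℕ → (W → ℕ) → (W → ℕ) := fun t c =>
    if h : ∃ c' : W → ℕ, I.Inv C0 E (t + 1) T c' ∧ I.StepRel C0 E t c c' then h.choose else c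
  let c : ℕ → W → ℕ := fun t => Nat.rec (fun _ => 0) (fun t c => nxt t c) t
  have hc0 : c 0 = (fun _ => 0) := rfl
  have hcs : ∀ t, c (t + 1) = nxt t (c t) := fun t => rfl
  have key : ∀ t, t ≤ T → I.Inv C0 E t T (c t) := by
    intro t
    induction t with
    | zero => intro _; rw [hc0]; exact h0
    | succ t ih =>
      intro ht
      have h := hstep t (by omega) (c t) (ih (by omega))
      rw [hcs]
      change I.Inv C0 E (t + 1) T (if h : ∃ c' : W → ℕ, I.Inv C0 E (t + 1) T c' ∧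
        I.StepRel C0 E t (c t) c' then h.choose else c t)
      rw [dif_pos h]
      exact h.choose_spec.1
  refine ⟨c, hc0, key, ?_⟩
  intro t ht
  have h := hstep t ht (c t) (key t ht.le)
  rw [hcs]
  change I.StepRel C0 E t (c t) (if h : ∃ c' : W → ℕ, I.Inv C0 E (t + 1) T c' ∧
        I.StepRel C0 E t (c t) c' then h.choose else c t)
  rw [dif_pos h]
  exact h.choose_spec.2

end Inst
end P262F
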