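import Vale.Agent.P262F.R1a
import Vale.Agent.P262F.R4a
import Vale.Agent.P262F.R6b
import Vale.Agent.P262F.R5b

/-!
P262, module R4z: the initial state.
-/

open scoped BigOperators
open Classical

namespace P262F
namespace Inst

variable {W J : Type} [Fintype W] [Fintype J] (I : Inst W J) (C0 : ℕ)

theorem ts_ind_le_r4z (hC : 64 ≤ C0) (κ : ℕ) (P : W → Prop) :
    I.ts C0 κ (ind P) ≤ (2 : ℝ) ^ (I.lev C0 κ) := by
  refine le_trans ?_ (tau_total I C0 hC κ)
  unfold ts
  refine Finset.sum_le_sum (fun w _ => ?_)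
  have h1 := I.tau_nonneg C0 κ w
  unfold ind
  split_ifs
  · rw [one_mul]
  · rw [zero_mul]; exact h1

/-- initial state -/
theorem inv_zero (E : ℝ) (hE : 1 ≤ E) (hC : 64 ≤ C0) (T : ℕ) : I.Inv C0 E 0 T (fun _ => 0) := by
  have hl0 : I.lev C0 0 = 0 := rfl
  refine ⟨?_, ?_, ?_, ?_, ?_⟩
  · intro w
    positivity
  · intro β _ r
    have e1 : I.bn β (I.vs (ind (fun _ => 0 < r))) = 0 := by
      refine I.bn_zero' (fun j _ => ?_)
      unfold vs ind
      by_cases hr : 0 < r
      · simp only [hr, if_true, one_mul]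
        exact I.hsum j
      · simp only [hr, if_false, zero_mul, Finset.sum_const_zero]
    rw [e1]
    positivity
  · intro β γ _ _ r hr
    rw [hl0, pow_zero] at hr
    have hr0 : r = 0 := by omega
    subst hr0
    have e1 : I.bn2 β γ (I.ms (fun w => ind (fun _ => 0 = 0) w
        - (2 : ℝ) ^ (-(I.lev C0 0 : ℤ)))) = 0 := by
      have e2 : I.ms (fun w => ind (fun _ => 0 = 0) w - (2 : ℝ) ^ (-(I.lev C0 0 : ℤ)))
          = fun _ _ => 0 := by
        funext j l
        unfold ms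
        refine Finset.sum_eq_zero (fun w _ => ?_)
        rw [hl0]
        unfold ind
        simp
      rw [e2]
      unfold bn2
      simp
    rw [e1]
    unfold HH
    positivity
  · intro κ _ _ r
    refine (I.ts_ind_le_r4z C0 hC κ _).trans ?_
    rw [hl0]
    have e1 : (2 : ℝ) ^ ((I.lev C0 κ : ℤ) - ((0 : ℕ) : ℤ)) = (2 : ℝ) ^ (I.lev C0 κ) := by
      rw [Nat.cast_zero, sub_zero, zpow_natCast]
    rw [e1]
    have h1 : (0 : ℝ) ≤ (1 / 4 : ℝ) ^ (κ - 0) := by positivity
    have h2 : (0 : ℝ) ≤ (2 : ℝ) ^ (I.lev C0 κ) := by positivity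
    nlinarith
  · intro r
    refine (I.ts_ind_le_r4z C0 hC 0 _).trans ?_
    rw [hl0, pow_zero]
    have h1 := I.alt_ge C0 0
    have h2 : (1 : ℝ) ≤ (I.alt C0 0 : ℝ) := by
      have : 1 ≤ I.alt C0 0 := by omega
      exact_mod_cast this
    have h3 : 1 ≤ Real.sqrt (I.alt C0 0) := by
      rw [Real.one_le_sqrt]
      exact h2
    nlinarith

end Inst
end P262F
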