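import Vale.Agent.P262F.R1a
import Vale.Agent.P262F.R4a
import Vale.Agent.P262F.R4z

open scoped BigOperators
open Classical

namespace P262F
namespace Inst

variable {W J : Type} [Fintype W] [Fintype J] (I : Inst W J) (C0 : ℕ)

theorem lev_ge_r4 (hC : 64 ≤ C0) (t : ℕ) : t ≤ I.lev C0 t := by
  induction t with
  | zero => exact Nat.zero_le _
  | succ t ih =>
    have h1 := I.lev_succ C0 t
    have h2 := I.C0_le_Lam C0 t
    omega

/-- every coordinate is dropped at some time -/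
theorem exists_drop_r4 (hC : 64 ≤ C0) (w : W) (j : J) (hv : I.v w j ≠ 0) :
    ∃ T : ℕ, I.drop C0 w (I.b j) T := by
  by_contra hcon
  push Not at hcon
  set β := I.b j with hβ
  obtain ⟨N, hN⟩ := exists_pow_lt_of_lt_one (abs_pos.mpr hv) (by norm_num : (1 / 2 : ℝ) < 1)
  -- a late time
  set t : ℕ := (β.toNat + I.al C0 β + 16 * N) with ht
  have hlev := I.lev_ge_r4 C0 hC t
  have hlip := I.al_lip C0 (I.lev C0 t) β
  have halt : (I.alt C0 t : ℤ) = (I.al C0 (I.lev C0 t) : ℤ) := rfl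
  have hβle : β ≤ (β.toNat : ℤ) := Int.self_le_toNat β
  have hlev' : (β.toNat : ℤ) + I.al C0 β + 16 * N ≤ (I.lev C0 t : ℤ) := by
    have : ((t : ℕ) : ℤ) ≤ (I.lev C0 t : ℤ) := by exact_mod_cast hlev
    rw [ht] at this
    push_cast at this
    rw [ht]
    exact this
  have hge : β ≤ (I.lev C0 t : ℤ) := by
    have h1 : (0 : ℤ) ≤ I.al C0 β := by positivity
    have h2 : (0 : ℤ) ≤ 16 * (N : ℤ) := by positivity
    linarith
  have habs : |((I.lev C0 t : ℕ) : ℤ) - β| = (I.lev C0 t : ℤ) - β := abs_of_nonneg (by linarith)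
  rw [habs] at hlip
  have hlip' := (abs_le.mp hlip).2
  have hage0 : (16 * N : ℤ) ≤ 4 * ((I.lev C0 t : ℤ) - β) - I.alt C0 t := by
    rw [halt]
    have h1 : (0 : ℤ) ≤ I.al C0 β := by positivity
    have h2 : (0 : ℤ) ≤ 16 * (N : ℤ) := by positivity
    linarith
  have hfr : I.frozen C0 β t := by
    unfold frozen
    have h2 : (0 : ℤ) ≤ 16 * (N : ℤ) := by positivity
    linarith
  have hage : (16 * N : ℤ) ≤ I.age C0 β t := by
    unfold age
    exact hage0.trans (le_max_right _ _)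
  have hsg : I.sg C0 β t ≤ (1 / 2 : ℝ) ^ N := by
    have h1 : (16 * (N : ℝ)) ≤ (I.age C0 β t : ℝ) := by exact_mod_cast hage
    have h2 : (1 / 2 : ℝ) ^ N = (2 : ℝ) ^ (-(N : ℝ)) := by
      rw [Real.rpow_neg (by norm_num), Real.rpow_natCast, one_div, inv_pow]
    rw [h2]
    unfold sg
    apply Real.rpow_le_rpow_of_exponent_le (by norm_num)
    linarith
  have hsgpos := I.sg_pos C0 β t
  -- the load
  have hnd := hcon t
  have hnp : ¬ I.dropPrev C0 w t β := fun h => hnd (Or.inl h)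
  have hload : I.load C0 w t (I.dropPrev C0 w t) ≤ 1 := by
    by_contra h
    exact hnd (Or.inr ⟨hfr, not_le.mp h⟩)
  have hge1 : (I.v w j) ^ 2 / (I.sg C0 β t) ^ 2 ≤ I.load C0 w t (I.dropPrev C0 w t) := by
    unfold load
    have h1 : (I.v w j) ^ 2 / (I.sg C0 β t) ^ 2 =
        (fun j' => if I.frozen C0 (I.b j') t ∧ ¬ I.dropPrev C0 w t (I.b j') then
          (I.v w j') ^ 2 / (I.sg C0 (I.b j') t) ^ 2 else 0) j := by
      change _ = if I.frozen C0 (I.b j) t ∧ ¬ I.dropPrev C0 w t (I.b j) then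
          (I.v w j) ^ 2 / (I.sg C0 (I.b j) t) ^ 2 else 0
      rw [if_pos ⟨hfr, hnp⟩]
    rw [h1]
    refine Finset.single_le_sum (f := fun j' => if I.frozen C0 (I.b j') t ∧
        ¬ I.dropPrev C0 w t (I.b j') then
          (I.v w j') ^ 2 / (I.sg C0 (I.b j') t) ^ 2 else 0) (fun j' _ => ?_) (Finset.mem_univ j)
    change 0 ≤ if I.frozen C0 (I.b j') t ∧ ¬ I.dropPrev C0 w t (I.b j') then
          (I.v w j') ^ 2 / (I.sg C0 (I.b j') t) ^ 2 else 0
    split_ifs
    · positivity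
    · exact le_refl _
  have h3 : (I.v w j) ^ 2 ≤ (I.sg C0 β t) ^ 2 := by
    have h4 := hge1.trans hload
    rw [div_le_one (by positivity)] at h4
    exact h4
  have h5 : |I.v w j| ≤ I.sg C0 β t := by
    rw [← abs_of_pos hsgpos]
    exact sq_le_sq.mp h3
  linarith

/-- at some time every block that `w` touches is dropped for `w` -/
theorem exists_T (hC : 64 ≤ C0) : ∃ T : ℕ, ∀ w j, I.v w j ≠ 0 → I.drop C0 w (I.b j) T := by
  have h : ∀ w j, ∃ T : ℕ, I.v w j ≠ 0 → I.drop C0 w (I.b j) T := by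
    intro w j
    by_cases hv : I.v w j = 0
    · exact ⟨0, fun h => absurd hv h⟩
    · obtain ⟨T, hT⟩ := I.exists_drop_r4 C0 hC w j hv
      exact ⟨T, fun _ => hT⟩
  choose f hf using h
  refine ⟨Finset.univ.sup (fun p : W × J => f p.1 p.2), ?_⟩
  intro w j hv
  refine I.drop_mono C0 ?_ (hf w j hv)
  exact Finset.le_sup (f := fun p : W × J => f p.1 p.2) (Finset.mem_univ (w, j))

end Inst
end P262F
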