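import Vale.Agent.P262F.R5t

/-!
P262 R5: `ℓ²` norm of the tilt and its effect on the raw (non-frozen) blocks.
-/

open scoped BigOperators
open Classical

namespace P262F

/-- Minkowski inequality for weighted `ℓ²` norms -/
theorem l2_sum_le {ι κ : Type*} (A : Finset ι) (S : Finset κ) (a : ι → ℝ) (f : κ → ι → ℝ)
    (s : κ → ℝ) (ha : ∀ i ∈ A, 0 ≤ a i) (hs : ∀ β ∈ S, 0 < s β)
    (h : ∀ β ∈ S, ∑ i ∈ A, a i * f β i ^ 2 ≤ s β ^ 2) :
    ∑ i ∈ A, a i * (∑ β ∈ S, f β i) ^ 2 ≤ (∑ β ∈ S, s β) ^ 2 := by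
  have h1 : ∀ i ∈ A, a i * (∑ β ∈ S, f β i) ^ 2 ≤
      a i * ((∑ β ∈ S, s β) * ∑ β ∈ S, f β i ^ 2 / s β) := by
    intro i hi
    refine mul_le_mul_of_nonneg_left ?_ (ha i hi)
    refine Finset.sum_sq_le_sum_mul_sum_of_sq_le_mul S (fun β hβ => (hs β hβ).le)
      (fun β hβ => div_nonneg (sq_nonneg _) (hs β hβ).le) (fun β hβ => le_of_eq ?_)
    have := (hs β hβ).ne'
    field_simp
  have h2 : ∑ i ∈ A, a i * ((∑ β ∈ S, s β) * ∑ β ∈ S, f β i ^ 2 / s β) =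
      (∑ β ∈ S, s β) * ∑ β ∈ S, (∑ i ∈ A, a i * f β i ^ 2) / s β := by
    have h3 : ∀ i, a i * ((∑ β ∈ S, s β) * ∑ β ∈ S, f β i ^ 2 / s β) =
        (∑ β ∈ S, s β) * ∑ β ∈ S, a i * f β i ^ 2 / s β := by
      intro i
      rw [Finset.mul_sum, Finset.mul_sum, Finset.mul_sum]
      exact Finset.sum_congr rfl fun β _ => by ring
    simp only [h3]
    rw [← Finset.mul_sum, Finset.sum_comm]
    congr 1
    exact Finset.sum_congr rfl fun β _ => by rw [Finset.sum_div]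
  have h4 : ∑ β ∈ S, (∑ i ∈ A, a i * f β i ^ 2) / s β ≤ ∑ β ∈ S, s β := by
    refine Finset.sum_le_sum fun β hβ => ?_
    rw [div_le_iff₀ (hs β hβ), ← sq]
    exact h β hβ
  calc ∑ i ∈ A, a i * (∑ β ∈ S, f β i) ^ 2
      ≤ ∑ i ∈ A, a i * ((∑ β ∈ S, s β) * ∑ β ∈ S, f β i ^ 2 / s β) := Finset.sum_le_sum h1
    _ = (∑ β ∈ S, s β) * ∑ β ∈ S, (∑ i ∈ A, a i * f β i ^ 2) / s β := h2
    _ ≤ (∑ β ∈ S, s β) * ∑ β ∈ S, s β :=
        mul_le_mul_of_nonneg_left h4 (Finset.sum_nonneg fun β hβ => (hs β hβ).le)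
    _ = _ := (sq _).symm

namespace Inst

variable {W J : Type} [Fintype W] [Fintype J] {I : Inst W J} {C0 : ℕ}

omit [Fintype W] in
theorem ind_nonneg' (U : W → Prop) (w : W) : 0 ≤ ind U w := by
  unfold ind
  split_ifs <;> norm_num

/-- second moments of `U`: nominal part plus error -/
theorem ms_split (I : Inst W J) (C0 : ℕ) (t : ℕ) (U : W → Prop) (l l' : J) :
    I.ms (ind U) l l' =
      I.ms (fun w => ind U w - (2 : ℝ) ^ (-(I.lev C0 (t + 1) : ℤ))) l l'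
        + (if l = l' then I.lamb C0 t l else 0) := by
  have h1 : I.ms (fun w => ind U w - (2 : ℝ) ^ (-(I.lev C0 (t + 1) : ℤ))) l l' =
      I.ms (ind U) l l' - (2 : ℝ) ^ (-(I.lev C0 (t + 1) : ℤ)) * ∑ w, I.v w l * I.v w l' := by
    unfold ms
    rw [Finset.mul_sum, ← Finset.sum_sub_distrib]
    exact Finset.sum_congr rfl fun w _ => by ring
  rw [h1]
  by_cases hll : l = l'
  · subst hll
    rw [if_pos rfl, lamb]
    have : ∑ w, I.v w l * I.v w l = ∑ w, (I.v w l) ^ 2 :=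
      Finset.sum_congr rfl fun w _ => (sq _).symm
    rw [this]
    ring
  · rw [if_neg hll, I.horth l l' hll]
    ring

/-- Cauchy-Schwarz for a block row of a matrix -/
theorem bn_mulVec_le (I : Inst W J) (β γ : ℤ) (g : J → ℝ) (M : J → J → ℝ) :
    I.bn γ (fun j => ∑ l ∈ Finset.univ.filter (fun l => I.b l = β), g l * M l j) ≤
      I.bn β g * I.bn2 β γ M := by
  have h0 : (0 : ℝ) ≤ ∑ l ∈ Finset.univ.filter (fun l => I.b l = β), (g l) ^ 2 :=
    Finset.sum_nonneg fun _ _ => sq_nonneg _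
  unfold bn bn2
  rw [← Real.sqrt_mul h0]
  apply Real.sqrt_le_sqrt
  calc ∑ j ∈ Finset.univ.filter (fun j => I.b j = γ),
        (∑ l ∈ Finset.univ.filter (fun l => I.b l = β), g l * M l j) ^ 2
      ≤ ∑ j ∈ Finset.univ.filter (fun j => I.b j = γ),
        ((∑ l ∈ Finset.univ.filter (fun l => I.b l = β), (g l) ^ 2) *
          ∑ l ∈ Finset.univ.filter (fun l => I.b l = β), (M l j) ^ 2) :=
        Finset.sum_le_sum fun j _ => Finset.sum_mul_sq_le_sq_mul_sq _ _ _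
    _ = (∑ l ∈ Finset.univ.filter (fun l => I.b l = β), (g l) ^ 2) *
          ∑ j ∈ Finset.univ.filter (fun j => I.b j = β),
            ∑ l ∈ Finset.univ.filter (fun l => I.b l = γ), (M j l) ^ 2 := by
        rw [← Finset.mul_sum, Finset.sum_comm]

theorem not_frozen_of_thick_succ (hC : 1 ≤ C0) {t : ℕ} {β : ℤ} (h : I.thick C0 β (t + 1)) :
    ¬ I.frozen C0 β t :=
  I.not_frozen_of_thick C0 hC (I.thick_of_succ C0 h)

/-- `HH(β,γ,t+1)` for a thick block `β` -/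
theorem HH_thick {E : ℝ} (hB : Big E C0) {t : ℕ} {β : ℤ} (γ : ℤ)
    (hβ : I.thick C0 β (t + 1)) :
    I.HH C0 E β γ (t + 1) ≤ 28 * E * Real.sqrt (I.Nn C0 γ (t + 1)) *
      (2 : ℝ) ^ (5 / 8 * I.xx C0 t β) := by
  have hE : 0 ≤ 28 * E := by linarith [hB.1]
  have hC : 64 ≤ C0 := hB.2.1
  have hC' : (64 : ℝ) ≤ C0 := by exact_mod_cast hC
  have hx := I.four_C0_le_xx C0 hβ
  have ha : (16 * (C0 : ℝ)) ≤ I.alt C0 (t + 1) := by exact_mod_cast I.alt_ge C0 (t + 1)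
  have hnb := I.nb_add_le C0 hC hβ
  set x := I.xx C0 t β with hxdef
  have hxabs : |(β : ℝ) - I.lev C0 (t + 1)| = x := by
    rw [hxdef, xx]
    exact abs_of_nonneg (by
      have : I.xx C0 t β = (β : ℝ) - I.lev C0 (t + 1) := rfl
      linarith)
  set y := |(γ : ℝ) - I.lev C0 (t + 1)| with hy
  have hy0 : 0 ≤ y := abs_nonneg _
  have hN2 : I.N2 C0 β γ (t + 1) ≤ I.Nn C0 γ (t + 1) * (2 : ℝ) ^ (x / 4) := by
    have e1 : I.N2 C0 β γ (t + 1) = (I.nb β : ℝ) * I.nb γ + I.alt C0 (t + 1) + x + y := by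
      rw [N2, hxabs]
    have e2 : I.Nn C0 γ (t + 1) = (I.nb γ : ℝ) + I.alt C0 (t + 1) + y := rfl
    rw [e1, e2]
    have hnβ : (0 : ℝ) ≤ I.nb β := Nat.cast_nonneg _
    have hnγ : (0 : ℝ) ≤ I.nb γ := Nat.cast_nonneg _
    have ha0 : (0 : ℝ) ≤ I.alt C0 (t + 1) := Nat.cast_nonneg _
    have hbig : (I.nb β : ℝ) + x ≤ (2 : ℝ) ^ (x / 4) := by
      have : 0 < (2 : ℝ) ^ (x / 4) := Real.rpow_pos_of_pos (by norm_num) _
      linarith
    calc (I.nb β : ℝ) * I.nb γ + I.alt C0 (t + 1) + x + y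
        ≤ ((I.nb γ : ℝ) + I.alt C0 (t + 1) + y) * ((I.nb β : ℝ) + x) := by
          have h1 : (I.alt C0 (t + 1) : ℝ) + x ≤ I.alt C0 (t + 1) * x := by nlinarith
          have h2 : y ≤ y * x := by nlinarith
          nlinarith [mul_nonneg hnγ (by linarith : (0 : ℝ) ≤ x), mul_nonneg ha0 hnβ,
            mul_nonneg hy0 hnβ]
      _ ≤ ((I.nb γ : ℝ) + I.alt C0 (t + 1) + y) * (2 : ℝ) ^ (x / 4) :=
          mul_le_mul_of_nonneg_left hbig (by positivity)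
  have hsq : Real.sqrt (I.N2 C0 β γ (t + 1)) ≤
      Real.sqrt (I.Nn C0 γ (t + 1)) * (2 : ℝ) ^ (x / 8) := by
    have h1 := Real.sqrt_le_sqrt hN2
    have hNn0 : 0 ≤ I.Nn C0 γ (t + 1) := by
      rw [Nn]; positivity
    rw [Real.sqrt_mul hNn0] at h1
    have h2 : Real.sqrt ((2 : ℝ) ^ (x / 4)) = (2 : ℝ) ^ (x / 8) := by
      rw [Real.sqrt_eq_rpow, ← Real.rpow_mul (by norm_num)]
      congr 1
      ring
    rwa [h2] at h1
  have hexp : (2 : ℝ) ^ (((max 0 (min β γ - (I.lev C0 (t + 1) : ℤ)) : ℤ) : ℝ) / 2) ≤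
      (2 : ℝ) ^ (x / 2) := by
    refine Real.rpow_le_rpow_of_exponent_le (by norm_num) ?_
    have h1 : (max 0 (min β γ - (I.lev C0 (t + 1) : ℤ)) : ℤ) ≤ β - (I.lev C0 (t + 1) : ℤ) := by
      refine max_le ?_ (by linarith [min_le_left β γ])
      have := I.four_C0_le_int C0 hβ
      have hc0 : (0 : ℤ) ≤ C0 := Int.natCast_nonneg _
      linarith
    have h2 : ((max 0 (min β γ - (I.lev C0 (t + 1) : ℤ)) : ℤ) : ℝ) ≤
        ((β - (I.lev C0 (t + 1) : ℤ) : ℤ) : ℝ) := by exact_mod_cast h1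
    rw [hxdef, xx_eq_cast]
    linarith
  unfold HH
  calc 28 * E * Real.sqrt (I.N2 C0 β γ (t + 1)) *
        (2 : ℝ) ^ (((max 0 (min β γ - (I.lev C0 (t + 1) : ℤ)) : ℤ) : ℝ) / 2)
      ≤ 28 * E * (Real.sqrt (I.Nn C0 γ (t + 1)) * (2 : ℝ) ^ (x / 8)) * (2 : ℝ) ^ (x / 2) :=
        mul_le_mul (mul_le_mul_of_nonneg_left hsq hE) hexp
          (Real.rpow_nonneg (by norm_num) _)
          (mul_nonneg hE (mul_nonneg (Real.sqrt_nonneg _) (Real.rpow_nonneg (by norm_num) _)))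
    _ = 28 * E * Real.sqrt (I.Nn C0 γ (t + 1)) * (2 : ℝ) ^ (5 / 8 * x) := by
        have : (2 : ℝ) ^ (5 / 8 * x) = (2 : ℝ) ^ (x / 8) * (2 : ℝ) ^ (x / 2) := by
          rw [← Real.rpow_add (by norm_num)]
          congr 1
          ring
        rw [this]
        ring

/-- sums over thick blocks in terms of `alt` -/
theorem sum_thick_alt_le (t : ℕ) (S : Finset ℤ) (hS : ∀ β ∈ S, I.thick C0 β (t + 1)) {c : ℝ}
    (hc : 0 < c) : ∑ β ∈ S, (2 : ℝ) ^ (-(c * I.xx C0 t β)) ≤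
      (2 : ℝ) ^ (-(c * ((I.alt C0 (t + 1) : ℝ) / 4))) / (1 - (2 : ℝ) ^ (-c)) := by
  have h1 : ∑ β ∈ S, (2 : ℝ) ^ (-(c * I.xx C0 t β)) =
      ∑ z ∈ S.image (fun β => β - (I.lev C0 (t + 1) : ℤ)), (2 : ℝ) ^ (-(c * (z : ℝ))) := by
    rw [Finset.sum_image (fun x _ y _ hxy => by
      have : x - (I.lev C0 (t + 1) : ℤ) = y - (I.lev C0 (t + 1) : ℤ) := hxy
      omega)]
    exact Finset.sum_congr rfl fun β _ => by rw [xx_eq_cast]
  rw [h1]
  have h2 := sum_geom_int (S.image (fun β => β - (I.lev C0 (t + 1) : ℤ)))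
    ⌈(I.alt C0 (t + 1) : ℝ) / 4⌉ (by
    intro z hz
    obtain ⟨β, hβ, rfl⟩ := Finset.mem_image.mp hz
    rw [Int.ceil_le]
    have h3 := I.alt_le_xx C0 (hS β hβ)
    rw [xx_eq_cast] at h3
    linarith) hc
  refine h2.trans ?_
  have hden : 0 < 1 - (2 : ℝ) ^ (-c) := by
    have := Real.rpow_lt_one_of_one_lt_of_neg (x := (2 : ℝ)) (z := -c) (by norm_num) (by linarith)
    linarith
  refine div_le_div_of_nonneg_right ?_ hden.le
  refine Real.rpow_le_rpow_of_exponent_le (by norm_num) ?_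
  have h4 := Int.le_ceil ((I.alt C0 (t + 1) : ℝ) / 4)
  have h5 := mul_le_mul_of_nonneg_left h4 hc.le
  linarith

/-- `ℓ²` norm on `U` of the tilt of one block -/
theorem tb_l2 {E : ℝ} (hB : Big E C0) {t : ℕ} {U : W → Prop} {F : J → ℝ}
    (h : I.TiltHyp C0 E t U F) {β : ℤ} (hβ : I.thick C0 β (t + 1)) :
    ∑ w, ind U w * (I.tb C0 t F β w) ^ 2 ≤ (6 * E * (2 : ℝ) ^ (-(3 / 8 * I.xx C0 t β))) ^ 2 := by
  have hE1 : 1 ≤ E := hB.1
  have hC : 64 ≤ C0 := hB.2.1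
  have hC' : (64 : ℝ) ≤ C0 := by exact_mod_cast hC
  set g : J → ℝ := fun l => F l / I.lamb C0 t l with hg
  set M : J → J → ℝ := I.ms (fun w => ind U w - (2 : ℝ) ^ (-(I.lev C0 (t + 1) : ℤ))) with hM
  set B : Finset J := Finset.univ.filter (fun l => I.b l = β) with hBdef
  -- expansion
  have e1 : ∑ w, ind U w * (I.tb C0 t F β w) ^ 2 =
      ∑ l ∈ B, g l * (∑ l' ∈ B, g l' * M l' l) + ∑ l ∈ B, I.lamb C0 t l * g l ^ 2 := by
    have h1 : ∀ w, ind U w * (I.tb C0 t F β w) ^ 2 =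
        ∑ l ∈ B, ∑ l' ∈ B, g l * g l' * (ind U w * (I.v w l' * I.v w l)) := by
      intro w
      rw [tb, sq, Finset.sum_mul_sum, Finset.mul_sum]
      refine Finset.sum_congr rfl fun l _ => ?_
      rw [Finset.mul_sum]
      exact Finset.sum_congr rfl fun l' _ => by ring
    simp only [h1]
    rw [Finset.sum_comm]
    rw [← Finset.sum_add_distrib]
    refine Finset.sum_congr rfl fun l hl => ?_
    rw [Finset.sum_comm]
    have h2 : ∀ l', ∑ w, g l * g l' * (ind U w * (I.v w l' * I.v w l)) =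
        g l * g l' * M l' l + (if l' = l then g l * g l' * I.lamb C0 t l' else 0) := by
      intro l'
      rw [← Finset.mul_sum]
      have h3 : ∑ w, ind U w * (I.v w l' * I.v w l) = I.ms (ind U) l' l := rfl
      rw [h3, ms_split I C0 t U l' l]
      split_ifs <;> ring
    simp only [h2]
    rw [Finset.sum_add_distrib, Finset.sum_ite_eq' B l, if_pos hl, Finset.mul_sum]
    congr 1
    · exact Finset.sum_congr rfl fun l' _ => by ring
    · ring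
  have hgb : I.bn β g ≤ 3 * E * (2 : ℝ) ^ (-(7 / 8 * I.xx C0 t β)) := Flam_thick hB h hβ
  have hg0 : 0 ≤ I.bn β g := I.bn_nonneg β g
  have hx := I.four_C0_le_xx C0 hβ
  set x := I.xx C0 t β with hxdef
  -- first part
  have p1 : ∑ l ∈ B, g l * (∑ l' ∈ B, g l' * M l' l) ≤
      I.bn β g ^ 2 * (28 * E * (2 : ℝ) ^ (3 / 4 * x)) := by
    have h1 := (le_abs_self _).trans (I.abs_blk_le β g (fun l => ∑ l' ∈ B, g l' * M l' l))
    have h2 := bn_mulVec_le I β β g M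
    have hnf := not_frozen_of_thick_succ (I := I) (C0 := C0) (by linarith) hβ
    have h3 : I.bn2 β β M ≤ 28 * E * (2 : ℝ) ^ (3 / 4 * x) := by
      refine (h.h2 β β hnf hnf).trans ((HH_thick hB β hβ).trans ?_)
      have h4 : Real.sqrt (I.Nn C0 β (t + 1)) ≤ (2 : ℝ) ^ (x / 8) := by
        have h5 : I.Nn C0 β (t + 1) ≤ (2 : ℝ) ^ (x / 4) := by
          have h6 := I.nb_add_le C0 hC hβ
          have h7 : I.Nn C0 β (t + 1) = (I.nb β : ℝ) + I.alt C0 (t + 1) + x := by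
            rw [Nn, hxdef, xx, abs_of_nonneg]
            have : I.xx C0 t β = (β : ℝ) - I.lev C0 (t + 1) := rfl
            linarith
          rw [h7]
          have : 0 < (2 : ℝ) ^ (x / 4) := Real.rpow_pos_of_pos (by norm_num) _
          linarith
        have h8 := Real.sqrt_le_sqrt h5
        have h9 : Real.sqrt ((2 : ℝ) ^ (x / 4)) = (2 : ℝ) ^ (x / 8) := by
          rw [Real.sqrt_eq_rpow, ← Real.rpow_mul (by norm_num)]
          congr 1
          ring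
        rwa [h9] at h8
      calc 28 * E * Real.sqrt (I.Nn C0 β (t + 1)) * (2 : ℝ) ^ (5 / 8 * x)
          ≤ 28 * E * (2 : ℝ) ^ (x / 8) * (2 : ℝ) ^ (5 / 8 * x) :=
            mul_le_mul_of_nonneg_right (mul_le_mul_of_nonneg_left h4 (by linarith))
              (Real.rpow_nonneg (by norm_num) _)
        _ = 28 * E * (2 : ℝ) ^ (3 / 4 * x) := by
            rw [mul_assoc, ← Real.rpow_add (by norm_num)]
            congr 2
            ring
    calc ∑ l ∈ B, g l * (∑ l' ∈ B, g l' * M l' l)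
        ≤ I.bn β g * I.bn β (fun l => ∑ l' ∈ B, g l' * M l' l) := h1
      _ ≤ I.bn β g * (I.bn β g * I.bn2 β β M) := mul_le_mul_of_nonneg_left h2 hg0
      _ ≤ I.bn β g * (I.bn β g * (28 * E * (2 : ℝ) ^ (3 / 4 * x))) :=
          mul_le_mul_of_nonneg_left (mul_le_mul_of_nonneg_left h3 hg0) hg0
      _ = _ := by ring
  -- second part
  have p2 : ∑ l ∈ B, I.lamb C0 t l * g l ^ 2 ≤ I.bn β g ^ 2 * (2 * (2 : ℝ) ^ x) := by
    rw [I.bn_sq β g, Finset.sum_mul]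
    refine Finset.sum_le_sum fun l hl => ?_
    have h1 := I.lamb_le C0 t l
    rw [(Finset.mem_filter.mp hl).2] at h1
    rw [mul_comm]
    exact mul_le_mul_of_nonneg_left h1 (sq_nonneg _)
  -- numbers
  have hEx : 28 * E * (2 : ℝ) ^ (3 / 4 * x) ≤ 2 * (2 : ℝ) ^ x := by
    have h1 := hB.2.2
    have h2 : (2 : ℝ) ^ ((C0 : ℝ) / 16) ≤ (2 : ℝ) ^ (x / 4) :=
      Real.rpow_le_rpow_of_exponent_le (by norm_num) (by linarith)
    have h3 : 28 * E ≤ (2 : ℝ) ^ (x / 4) := by linarith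
    have h4 : (2 : ℝ) ^ x = (2 : ℝ) ^ (x / 4) * (2 : ℝ) ^ (3 / 4 * x) := by
      rw [← Real.rpow_add (by norm_num)]; congr 1; ring
    have h5 : 0 < (2 : ℝ) ^ (3 / 4 * x) := Real.rpow_pos_of_pos (by norm_num) _
    rw [h4]
    nlinarith [mul_le_mul_of_nonneg_right h3 h5.le,
      mul_pos (Real.rpow_pos_of_pos (by norm_num : (0 : ℝ) < 2) (x / 4)) h5]
  have hsq : I.bn β g ^ 2 ≤ 9 * E ^ 2 * (2 : ℝ) ^ (-(7 / 4 * x)) := by
    have h1 := pow_le_pow_left₀ hg0 hgb 2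
    refine h1.trans (le_of_eq ?_)
    rw [mul_pow, mul_pow, ← Real.rpow_natCast ((2 : ℝ) ^ (-(7 / 8 * x))) 2,
      ← Real.rpow_mul (by norm_num)]
    have e0 : -(7 / 8 * x) * ((2 : ℕ) : ℝ) = -(7 / 4 * x) := by push_cast; ring
    rw [e0]
    ring
  have hfin : (6 * E * (2 : ℝ) ^ (-(3 / 8 * x))) ^ 2 = 36 * E ^ 2 * (2 : ℝ) ^ (-(3 / 4 * x)) := by
    rw [mul_pow, mul_pow, ← Real.rpow_natCast ((2 : ℝ) ^ (-(3 / 8 * x))) 2,
      ← Real.rpow_mul (by norm_num)]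
    have e0 : -(3 / 8 * x) * ((2 : ℕ) : ℝ) = -(3 / 4 * x) := by push_cast; ring
    rw [e0]
    ring
  have hcomb : (2 : ℝ) ^ (-(7 / 4 * x)) * (2 : ℝ) ^ x = (2 : ℝ) ^ (-(3 / 4 * x)) := by
    rw [← Real.rpow_add (by norm_num)]; congr 1; ring
  rw [e1, hfin]
  have hx0 : 0 < (2 : ℝ) ^ x := Real.rpow_pos_of_pos (by norm_num) _
  calc ∑ l ∈ B, g l * (∑ l' ∈ B, g l' * M l' l) + ∑ l ∈ B, I.lamb C0 t l * g l ^ 2
      ≤ I.bn β g ^ 2 * (28 * E * (2 : ℝ) ^ (3 / 4 * x)) + I.bn β g ^ 2 * (2 * (2 : ℝ) ^ x) :=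
        add_le_add p1 p2
    _ ≤ I.bn β g ^ 2 * (4 * (2 : ℝ) ^ x) := by
        have := mul_le_mul_of_nonneg_left hEx (sq_nonneg (I.bn β g))
        linarith
    _ ≤ 9 * E ^ 2 * (2 : ℝ) ^ (-(7 / 4 * x)) * (4 * (2 : ℝ) ^ x) :=
        mul_le_mul_of_nonneg_right hsq (by positivity)
    _ = 36 * E ^ 2 * (2 : ℝ) ^ (-(3 / 4 * x)) := by rw [← hcomb]; ring

/-- numeric bound: `1/(1 - 2^{-c}) ≤ 8` for `c ≥ 1/4` -/
theorem one_sub_rpow_ge {c : ℝ} (hc : 1 / 4 ≤ c) : 1 / 8 ≤ 1 - (2 : ℝ) ^ (-c) := by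
  have h1 : (2 : ℝ) ^ (-c) ≤ (2 : ℝ) ^ (-(1 / 4 : ℝ)) :=
    Real.rpow_le_rpow_of_exponent_le (by norm_num) (by linarith)
  have h2 : (2 : ℝ) ^ (-(1 / 4 : ℝ)) ≤ 7 / 8 := by
    have h3 : (2 : ℝ) ^ (-(1 / 4 : ℝ)) = ((1 / 2 : ℝ)) ^ (1 / 4 : ℝ) := by
      rw [Real.rpow_neg (by norm_num), one_div 2, Real.inv_rpow (by norm_num)]
    rw [h3]
    have h4 : ((7 / 8 : ℝ) ^ (4 : ℕ)) ^ (1 / 4 : ℝ) = 7 / 8 := by
      rw [← Real.rpow_natCast, ← Real.rpow_mul (by norm_num)]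
      norm_num
    rw [← h4]
    exact Real.rpow_le_rpow (by norm_num) (by norm_num) (by norm_num)
  linarith

/-- ℓ² norm of the tilt on `U` -/
theorem tilt_l2 {E : ℝ} (hB : Big E C0) {t : ℕ} {U : W → Prop} {F : J → ℝ}
    (h : I.TiltHyp C0 E t U F) :
    ∑ w, ind U w * (I.tilt C0 t F w) ^ 2 ≤ ((2 : ℝ) ^ (-(I.alt C0 (t + 1) : ℝ) / 16)) ^ 2 := by
  have hE1 : 1 ≤ E := hB.1
  have hC' : (64 : ℝ) ≤ C0 := by exact_mod_cast hB.2.1
  have ha : (16 * (C0 : ℝ)) ≤ I.alt C0 (t + 1) := by exact_mod_cast I.alt_ge C0 (t + 1)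
  have h1 : ∑ w, ind U w * (I.tilt C0 t F w) ^ 2 =
      ∑ w, ind U w * (∑ β ∈ I.thickSet C0 t, I.tb C0 t F β w) ^ 2 :=
    Finset.sum_congr rfl fun w _ => by rw [tilt_eq, neg_sq]
  rw [h1]
  refine (l2_sum_le Finset.univ (I.thickSet C0 t) (ind U) (fun β w => I.tb C0 t F β w)
    (fun β => 6 * E * (2 : ℝ) ^ (-(3 / 8 * I.xx C0 t β))) (fun w _ => ind_nonneg' U w)
    (fun β _ => by positivity) (fun β hβ => tb_l2 hB h (I.mem_thickSet C0 hβ))).trans ?_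
  refine pow_le_pow_left₀ (Finset.sum_nonneg fun β _ => by positivity) ?_ 2
  rw [← Finset.mul_sum]
  have h2 := sum_thick_alt_le (I := I) (C0 := C0) t (I.thickSet C0 t)
    (fun β hβ => I.mem_thickSet C0 hβ) (c := 3 / 8) (by norm_num)
  have h3 := one_sub_rpow_ge (c := 3 / 8) (by norm_num)
  set A : ℝ := (I.alt C0 (t + 1) : ℝ) with hA
  have h4 : (2 : ℝ) ^ (-(3 / 8 * (A / 4))) / (1 - (2 : ℝ) ^ (-(3 / 8 : ℝ))) ≤
      8 * (2 : ℝ) ^ (-(3 / 8 * (A / 4))) := by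
    rw [div_le_iff₀ (by linarith)]
    have : 0 < (2 : ℝ) ^ (-(3 / 8 * (A / 4))) := Real.rpow_pos_of_pos (by norm_num) _
    nlinarith
  have h5 : (2 : ℝ) ^ (-(3 / 8 * (A / 4))) ≤
      (2 : ℝ) ^ (-(C0 : ℝ) / 16) * (2 : ℝ) ^ (-A / 16) := by
    rw [← Real.rpow_add (by norm_num)]
    refine Real.rpow_le_rpow_of_exponent_le (by norm_num) ?_
    linarith
  have h6 := Big.mul_le hB
  have h7 : 0 < (2 : ℝ) ^ (-A / 16) := Real.rpow_pos_of_pos (by norm_num) _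
  have h8 : 0 < (2 : ℝ) ^ (-(C0 : ℝ) / 16) := Real.rpow_pos_of_pos (by norm_num) _
  calc 6 * E * ∑ β ∈ I.thickSet C0 t, (2 : ℝ) ^ (-(3 / 8 * I.xx C0 t β))
      ≤ 6 * E * (8 * ((2 : ℝ) ^ (-(C0 : ℝ) / 16) * (2 : ℝ) ^ (-A / 16))) :=
        mul_le_mul_of_nonneg_left ((h2.trans h4).trans
          (mul_le_mul_of_nonneg_left h5 (by norm_num))) (by positivity)
    _ = (48 * E * (2 : ℝ) ^ (-(C0 : ℝ) / 16)) * (2 : ℝ) ^ (-A / 16) := by ring
    _ ≤ 1 * (2 : ℝ) ^ (-A / 16) := by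
        refine mul_le_mul_of_nonneg_right ?_ h7.le
        have : 0 < E * (2 : ℝ) ^ (-(C0 : ℝ) / 16) := by positivity
        linarith
    _ = _ := one_mul _

/-- effect on non-frozen blocks: exact cancellation on thick blocks up to a small error -/
theorem tilt_raw {E : ℝ} (hB : Big E C0) {t : ℕ} {U : W → Prop} {F : J → ℝ}
    (h : I.TiltHyp C0 E t U F) (γ : ℤ) (hγ : ¬ I.frozen C0 γ t) :
    I.bn γ (fun j => I.vs (fun w => ind U w * I.tilt C0 t F w) j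
      + if I.thick C0 (I.b j) (t + 1) then F j else 0) ≤ 1 / 2 * Real.sqrt (I.Nn C0 γ (t + 1)) := by
  have hE1 : 1 ≤ E := hB.1
  have hC : 64 ≤ C0 := hB.2.1
  have hC' : (64 : ℝ) ≤ C0 := by exact_mod_cast hC
  set M : J → J → ℝ := I.ms (fun w => ind U w - (2 : ℝ) ^ (-(I.lev C0 (t + 1) : ℤ))) with hM
  set V : ℤ → J → ℝ := fun β j =>
    ∑ l ∈ Finset.univ.filter (fun l => I.b l = β), (F l / I.lamb C0 t l) * M l j with hV
  have hNn : 0 < I.Nn C0 γ (t + 1) := by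
    have := I.Nn_ge C0 γ (t + 1)
    linarith
  have hsN : 0 < Real.sqrt (I.Nn C0 γ (t + 1)) := Real.sqrt_pos.mpr hNn
  -- algebra
  have key : ∀ j, I.b j = γ → (I.vs (fun w => ind U w * I.tilt C0 t F w) j
      + if I.thick C0 (I.b j) (t + 1) then F j else 0) = - ∑ β ∈ I.thickSet C0 t, V β j := by
    intro j _
    have h1 : I.vs (fun w => ind U w * I.tilt C0 t F w) j =
        - ∑ β ∈ I.thickSet C0 t, ∑ l ∈ Finset.univ.filter (fun l => I.b l = β),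
          (F l / I.lamb C0 t l) * I.ms (ind U) l j := by
      unfold vs
      have h2 : ∀ w, ind U w * I.tilt C0 t F w * I.v w j =
          - ∑ β ∈ I.thickSet C0 t, ∑ l ∈ Finset.univ.filter (fun l => I.b l = β),
            (F l / I.lamb C0 t l) * (ind U w * (I.v w l * I.v w j)) := by
        intro w
        rw [tilt_eq, mul_neg, neg_mul, Finset.mul_sum, Finset.sum_mul]
        congr 1
        refine Finset.sum_congr rfl fun β _ => ?_
        rw [tb, Finset.mul_sum, Finset.sum_mul]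
        exact Finset.sum_congr rfl fun l _ => by ring
      simp only [h2]
      rw [Finset.sum_neg_distrib, Finset.sum_comm]
      congr 1
      refine Finset.sum_congr rfl fun β _ => ?_
      rw [Finset.sum_comm]
      refine Finset.sum_congr rfl fun l _ => ?_
      rw [← Finset.mul_sum]
      rfl
    have h3 : ∀ β, ∑ l ∈ Finset.univ.filter (fun l => I.b l = β),
        (F l / I.lamb C0 t l) * I.ms (ind U) l j = V β j + (if I.b j = β then F j else 0) := by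
      intro β
      have h4 : ∀ l, (F l / I.lamb C0 t l) * I.ms (ind U) l j =
          (F l / I.lamb C0 t l) * M l j + (if l = j then F j else 0) := by
        intro l
        rw [ms_split I C0 t U l j, mul_add]
        congr 1
        by_cases hlj : l = j
        · subst hlj
          rw [if_pos rfl, if_pos rfl, div_mul_cancel₀ _ (I.lamb_pos C0 t l).ne']
        · rw [if_neg hlj, if_neg hlj, mul_zero]
      simp only [h4]
      rw [Finset.sum_add_distrib, Finset.sum_ite_eq']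
      congr 1
      simp only [Finset.mem_filter, Finset.mem_univ, true_and]
    rw [h1]
    simp only [h3]
    rw [Finset.sum_add_distrib, Finset.sum_ite_eq]
    have h5 : (if I.b j ∈ I.thickSet C0 t then F j else 0) =
        if I.thick C0 (I.b j) (t + 1) then F j else 0 := by
      have : I.b j ∈ I.thickSet C0 t ↔ I.thick C0 (I.b j) (t + 1) := by
        simp [thickSet]
      simp only [this]
    rw [h5]
    ring
  have hbn : I.bn γ (fun j => I.vs (fun w => ind U w * I.tilt C0 t F w) j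
      + if I.thick C0 (I.b j) (t + 1) then F j else 0) ^ 2 =
      ∑ j ∈ Finset.univ.filter (fun j => I.b j = γ), 1 * (∑ β ∈ I.thickSet C0 t, V β j) ^ 2 := by
    rw [I.bn_sq]
    refine Finset.sum_congr rfl fun j hj => ?_
    rw [key j (Finset.mem_filter.mp hj).2, neg_sq, one_mul]
  -- block bounds
  have hblk : ∀ β ∈ I.thickSet C0 t, I.bn γ (V β) ≤
      84 * E ^ 2 * Real.sqrt (I.Nn C0 γ (t + 1)) * (2 : ℝ) ^ (-(1 / 4 * I.xx C0 t β)) := by
    intro β hβ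
    have hth := I.mem_thickSet C0 hβ
    have hnf := not_frozen_of_thick_succ (I := I) (C0 := C0) (by linarith) hth
    have h1 := bn_mulVec_le I β γ (fun l => F l / I.lamb C0 t l) M
    have h2 := Flam_thick hB h hth
    have h3 := (h.h2 β γ hnf hγ).trans (HH_thick hB γ hth)
    have h0 : 0 ≤ I.bn2 β γ M := Real.sqrt_nonneg _
    refine h1.trans ((mul_le_mul h2 h3 h0 (by positivity)).trans (le_of_eq ?_))
    have h4 : (2 : ℝ) ^ (-(1 / 4 * I.xx C0 t β)) =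
        (2 : ℝ) ^ (-(7 / 8 * I.xx C0 t β)) * (2 : ℝ) ^ (5 / 8 * I.xx C0 t β) := by
      rw [← Real.rpow_add (by norm_num)]; congr 1; ring
    rw [h4]
    ring
  have hmink := l2_sum_le (Finset.univ.filter (fun j => I.b j = γ)) (I.thickSet C0 t)
    (fun _ => (1 : ℝ)) V
    (fun β => 84 * E ^ 2 * Real.sqrt (I.Nn C0 γ (t + 1)) * (2 : ℝ) ^ (-(1 / 4 * I.xx C0 t β)))
    (fun _ _ => zero_le_one) (fun β _ => by positivity) (fun β hβ => by
      have h1 := pow_le_pow_left₀ (I.bn_nonneg γ (V β)) (hblk β hβ) 2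
      rw [I.bn_sq] at h1
      simpa only [one_mul] using h1)
  rw [← hbn] at hmink
  have h6 := abs_le_of_sq_le_sq hmink (Finset.sum_nonneg fun β _ => by positivity)
  have h7 := (le_abs_self _).trans h6
  refine h7.trans ?_
  rw [← Finset.mul_sum]
  have h8 := sum_thick_le (I := I) (C0 := C0) t (I.thickSet C0 t)
    (fun β hβ => I.mem_thickSet C0 hβ) (c := 1 / 4) (by norm_num)
  have h9 := one_sub_rpow_ge (c := 1 / 4) le_rfl
  have h10 : (2 : ℝ) ^ (-(1 / 4 * (4 * (C0 : ℝ)))) / (1 - (2 : ℝ) ^ (-(1 / 4 : ℝ))) ≤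
      8 * (2 : ℝ) ^ (-(1 / 4 * (4 * (C0 : ℝ)))) := by
    rw [div_le_iff₀ (by linarith)]
    have : 0 < (2 : ℝ) ^ (-(1 / 4 * (4 * (C0 : ℝ)))) := Real.rpow_pos_of_pos (by norm_num) _
    nlinarith
  have h11 : (2 : ℝ) ^ (-(1 / 4 * (4 * (C0 : ℝ)))) ≤
      ((2 : ℝ) ^ (-(C0 : ℝ) / 16)) ^ 2 := by
    rw [← Real.rpow_natCast ((2 : ℝ) ^ (-(C0 : ℝ) / 16)) 2, ← Real.rpow_mul (by norm_num)]
    refine Real.rpow_le_rpow_of_exponent_le (by norm_num) ?_
    push_cast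
    linarith
  have h12 := Big.mul_le hB
  set q : ℝ := (2 : ℝ) ^ (-(C0 : ℝ) / 16) with hq
  have hq0 : 0 < q := Real.rpow_pos_of_pos (by norm_num) _
  have h13 : (E * q) ^ 2 ≤ (1 / 10 ^ 4) ^ 2 := by
    refine pow_le_pow_left₀ (by positivity) ?_ 2
    linarith
  calc 84 * E ^ 2 * Real.sqrt (I.Nn C0 γ (t + 1)) *
        ∑ β ∈ I.thickSet C0 t, (2 : ℝ) ^ (-(1 / 4 * I.xx C0 t β))
      ≤ 84 * E ^ 2 * Real.sqrt (I.Nn C0 γ (t + 1)) * (8 * q ^ 2) :=
        mul_le_mul_of_nonneg_left ((h8.trans h10).trans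
          (mul_le_mul_of_nonneg_left h11 (by norm_num))) (by positivity)
    _ = 672 * (E * q) ^ 2 * Real.sqrt (I.Nn C0 γ (t + 1)) := by ring
    _ ≤ 1 / 2 * Real.sqrt (I.Nn C0 γ (t + 1)) := by
        refine mul_le_mul_of_nonneg_right ?_ hsN.le
        nlinarith

end Inst
end P262F
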