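import Vale.Agent.P262F.R1a

/-!
P262 R5t: hypotheses `TiltHyp`, common lemmas on thick blocks and the tilt; `tilt_le_half`.
-/

open scoped BigOperators
open Classical

namespace P262F

/-- geometric sum over distinct integers `≥ a` -/
theorem sum_geom_int (S : Finset ℤ) (a : ℤ) (hS : ∀ x ∈ S, a ≤ x) {c : ℝ} (hc : 0 < c) :
    ∑ x ∈ S, (2 : ℝ) ^ (-(c * (x : ℝ))) ≤ (2 : ℝ) ^ (-(c * (a : ℝ))) / (1 - (2 : ℝ) ^ (-c)) := by
  have hq0 : 0 < (2 : ℝ) ^ (-c) := Real.rpow_pos_of_pos (by norm_num) _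
  have hq1 : (2 : ℝ) ^ (-c) < 1 := Real.rpow_lt_one_of_one_lt_of_neg (by norm_num) (by linarith)
  set q : ℝ := (2 : ℝ) ^ (-c) with hq
  have hterm : ∀ x ∈ S, (2 : ℝ) ^ (-(c * (x : ℝ))) =
      (2 : ℝ) ^ (-(c * (a : ℝ))) * q ^ ((x - a).toNat) := by
    intro x hx
    have h1 : ((x - a).toNat : ℤ) = x - a := Int.toNat_of_nonneg (by linarith [hS x hx])
    have h2 : (((x - a).toNat : ℕ) : ℝ) = (x : ℝ) - a := by
      have := congrArg (fun z : ℤ => (z : ℝ)) h1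
      push_cast at this
      simpa using this
    rw [hq, ← Real.rpow_natCast, ← Real.rpow_mul (by norm_num), ← Real.rpow_add (by norm_num), h2]
    congr 1
    ring
  rw [Finset.sum_congr rfl hterm, ← Finset.mul_sum, div_eq_mul_inv]
  refine mul_le_mul_of_nonneg_left ?_ (Real.rpow_nonneg (by norm_num) _)
  have hinj : Set.InjOn (fun x : ℤ => (x - a).toNat) S := by
    intro x hx y hy hxy
    have h1 : ((x - a).toNat : ℤ) = x - a := Int.toNat_of_nonneg (by linarith [hS x hx])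
    have h2 : ((y - a).toNat : ℤ) = y - a := Int.toNat_of_nonneg (by linarith [hS y hy])
    have h3 : (x - a).toNat = (y - a).toNat := hxy
    omega
  have h4 : ∑ x ∈ S, q ^ ((x - a).toNat) = ∑ n ∈ S.image (fun x : ℤ => (x - a).toNat), q ^ n :=
    (Finset.sum_image hinj).symm
  rw [h4, ← tsum_geometric_of_lt_one hq0.le hq1]
  exact (summable_geometric_of_lt_one hq0.le hq1).sum_le_tsum _ (fun n _ => pow_nonneg hq0.le n)

namespace Inst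

variable {W J : Type} [Fintype W] [Fintype J] (I : Inst W J) (C0 : ℕ)

/-- hypotheses on `U` (a set of vectors of nominal level `t+1`) and the position `F` -/
structure TiltHyp (E : ℝ) (t : ℕ) (U : W → Prop) (F : J → ℝ) : Prop where
  h1 : ∀ β, I.thick C0 β (t + 1) → I.bn β F ≤ 3 * E * Real.sqrt (I.Nn C0 β t)
  h2 : ∀ β γ, ¬ I.frozen C0 β t → ¬ I.frozen C0 γ t →
    I.bn2 β γ (I.ms (fun w => ind U w - (2 : ℝ) ^ (-(I.lev C0 (t + 1) : ℤ)))) ≤ I.HH C0 E β γ (t + 1)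

theorem bn_nonneg (β : ℤ) (x : J → ℝ) : 0 ≤ I.bn β x := Real.sqrt_nonneg _

theorem bn_sq (β : ℤ) (x : J → ℝ) :
    I.bn β x ^ 2 = ∑ j ∈ Finset.univ.filter (fun j => I.b j = β), (x j) ^ 2 :=
  Real.sq_sqrt (Finset.sum_nonneg fun _ _ => sq_nonneg _)

/-- Cauchy-Schwarz inside a block -/
theorem abs_blk_le (β : ℤ) (x y : J → ℝ) :
    |∑ j ∈ Finset.univ.filter (fun j => I.b j = β), x j * y j| ≤ I.bn β x * I.bn β y := by
  rw [← Real.sqrt_sq_eq_abs, bn, bn, ← Real.sqrt_mul (Finset.sum_nonneg fun _ _ => sq_nonneg _)]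
  exact Real.sqrt_le_sqrt (Finset.sum_mul_sq_le_sq_mul_sq _ _ _)

theorem bn_smul_le {β : ℤ} {x y : J → ℝ} {r : ℝ} (hr : 0 ≤ r)
    (h : ∀ j, I.b j = β → |y j| ≤ r * |x j|) : I.bn β y ≤ r * I.bn β x := by
  rw [bn, bn, ← Real.sqrt_sq hr, ← Real.sqrt_mul (sq_nonneg r)]
  apply Real.sqrt_le_sqrt
  rw [Finset.mul_sum]
  refine Finset.sum_le_sum fun j hj => ?_
  have h1 := h j (Finset.mem_filter.mp hj).2
  calc (y j) ^ 2 = |y j| ^ 2 := (sq_abs _).symm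
    _ ≤ (r * |x j|) ^ 2 := pow_le_pow_left₀ (abs_nonneg _) h1 2
    _ = r ^ 2 * (x j) ^ 2 := by rw [mul_pow, sq_abs]

/-- `2^{-lev(t+1)} λ_l` -/
noncomputable def lamb (t : ℕ) (l : J) : ℝ :=
  (2 : ℝ) ^ (-(I.lev C0 (t + 1) : ℤ)) * ∑ w', (I.v w' l) ^ 2

/-- the exponent `x = β - lev(t+1)` as a real number -/
noncomputable def xx (t : ℕ) (β : ℤ) : ℝ := (β : ℝ) - I.lev C0 (t + 1)

theorem xx_eq_cast (t : ℕ) (β : ℤ) : I.xx C0 t β = ((β - (I.lev C0 (t + 1) : ℤ) : ℤ) : ℝ) := by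
  simp [xx]

theorem lamb_ge (t : ℕ) (l : J) : (2 : ℝ) ^ (I.xx C0 t (I.b l)) ≤ I.lamb C0 t l := by
  rw [xx_eq_cast, Real.rpow_intCast, sub_eq_add_neg, zpow_add₀ (by norm_num), mul_comm, lamb]
  exact mul_le_mul_of_nonneg_left (I.hb1 l) (zpow_nonneg (by norm_num) _)

theorem lamb_le (t : ℕ) (l : J) : I.lamb C0 t l ≤ 2 * (2 : ℝ) ^ (I.xx C0 t (I.b l)) := by
  have h1 : 2 * (2 : ℝ) ^ (I.xx C0 t (I.b l)) =
      (2 : ℝ) ^ (-(I.lev C0 (t + 1) : ℤ)) * (2 : ℝ) ^ (I.b l + 1) := by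
    rw [xx_eq_cast, Real.rpow_intCast, sub_eq_add_neg, zpow_add₀ (by norm_num),
      zpow_add₀ (by norm_num : (2 : ℝ) ≠ 0) (I.b l) 1]
    ring
  rw [h1, lamb]
  exact mul_le_mul_of_nonneg_left (I.hb2 l).le (zpow_nonneg (by norm_num) _)

theorem lamb_pos (t : ℕ) (l : J) : 0 < I.lamb C0 t l :=
  lt_of_lt_of_le (Real.rpow_pos_of_pos (by norm_num) _) (I.lamb_ge C0 t l)

/-- exponents of thick blocks at `t+1` -/
noncomputable def thickSet (t : ℕ) : Finset ℤ :=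
  (Finset.univ.image I.b).filter (fun β => I.thick C0 β (t + 1))

theorem mem_thickSet {t : ℕ} {β : ℤ} (h : β ∈ I.thickSet C0 t) : I.thick C0 β (t + 1) :=
  (Finset.mem_filter.mp h).2

/-- the contribution of one block to the tilt (without the sign) -/
noncomputable def tb (t : ℕ) (F : J → ℝ) (β : ℤ) (w : W) : ℝ :=
  ∑ l ∈ Finset.univ.filter (fun l => I.b l = β), I.v w l * (F l / I.lamb C0 t l)

/-- block decomposition of the tilt -/
theorem tilt_eq (t : ℕ) (F : J → ℝ) (w : W) :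
    I.tilt C0 t F w = - ∑ β ∈ I.thickSet C0 t, I.tb C0 t F β w := by
  have h1 : ∑ β ∈ I.thickSet C0 t, I.tb C0 t F β w =
      ∑ β ∈ Finset.univ.image I.b, ∑ l ∈ Finset.univ.filter (fun l => I.b l = β),
        if I.thick C0 (I.b l) (t + 1) then I.v w l * (F l / I.lamb C0 t l) else 0 := by
    rw [thickSet, Finset.sum_filter]
    refine Finset.sum_congr rfl fun β _ => ?_
    by_cases hβ : I.thick C0 β (t + 1)
    · rw [if_pos hβ, tb]
      refine Finset.sum_congr rfl fun l hl => ?_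
      rw [(Finset.mem_filter.mp hl).2, if_pos hβ]
    · rw [if_neg hβ]
      symm
      refine Finset.sum_eq_zero fun l hl => ?_
      rw [(Finset.mem_filter.mp hl).2, if_neg hβ]
  rw [h1, Finset.sum_fiberwise_of_maps_to (fun l _ => Finset.mem_image_of_mem _ (Finset.mem_univ l))]
  unfold tilt
  congr 1
  refine Finset.sum_congr rfl fun l _ => ?_
  by_cases hl : I.thick C0 (I.b l) (t + 1)
  · rw [if_pos hl, if_pos hl, lamb, mul_div_assoc]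
  · rw [if_neg hl, if_neg hl]

/-! ### thick blocks -/

theorem four_C0_le_xx {t : ℕ} {β : ℤ} (h : I.thick C0 β (t + 1)) : 4 * (C0 : ℝ) ≤ I.xx C0 t β :=
  (I.nb_thick C0 h).2

theorem four_C0_le_int {t : ℕ} {β : ℤ} (h : I.thick C0 β (t + 1)) :
    4 * (C0 : ℤ) ≤ β - (I.lev C0 (t + 1) : ℤ) := by
  have h1 := I.four_C0_le_xx C0 h
  rw [xx_eq_cast] at h1
  exact_mod_cast h1

theorem alt_le_xx {t : ℕ} {β : ℤ} (h : I.thick C0 β (t + 1)) :
    (I.alt C0 (t + 1) : ℝ) ≤ 4 * I.xx C0 t β := by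
  unfold thick at h
  have h1 : ((I.alt C0 (t + 1) : ℤ) : ℝ) ≤ ((4 * (β - (I.lev C0 (t + 1) : ℤ)) : ℤ) : ℝ) := by
    exact_mod_cast h
  rw [xx_eq_cast]
  push_cast at h1 ⊢
  exact h1

theorem nb_le_xx {t : ℕ} {β : ℤ} (h : I.thick C0 β (t + 1)) :
    (I.nb β : ℝ) ≤ (2 : ℝ) ^ (5 * I.xx C0 t β / 32) :=
  (I.nb_thick C0 h).1

/-- `5x ≤ 235 · 2^{x/32}` -/
theorem five_mul_le (x : ℝ) : 5 * x ≤ 240 * (2 : ℝ) ^ (x / 32) := by
  have h1 : (2 : ℝ) ^ (x / 32) = Real.exp (Real.log 2 * (x / 32)) := by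
    rw [Real.rpow_def_of_pos (by norm_num)]
  have h2 := Real.add_one_le_exp (Real.log 2 * (x / 32))
  have h3 := Real.log_two_gt_d9
  have h4 : 0 < (2 : ℝ) ^ (x / 32) := Real.rpow_pos_of_pos (by norm_num) _
  rw [← h1] at h2
  rcases le_or_gt x 0 with hx | hx
  · nlinarith
  · nlinarith

/-- small bound: `nb + alt(t+1) + x ≤ (1/2) 2^{x/4}` for thick blocks -/
theorem nb_add_le {t : ℕ} {β : ℤ} (hC : 64 ≤ C0) (h : I.thick C0 β (t + 1)) :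
    (I.nb β : ℝ) + I.alt C0 (t + 1) + I.xx C0 t β ≤ 1 / 2 * (2 : ℝ) ^ (I.xx C0 t β / 4) := by
  have hx := I.four_C0_le_xx C0 h
  have hn := I.nb_le_xx C0 h
  have ha := I.alt_le_xx C0 h
  have hC' : (64 : ℝ) ≤ C0 := by exact_mod_cast hC
  set x := I.xx C0 t β with hxdef
  have hx256 : 256 ≤ x := by linarith
  have h5 := five_mul_le x
  have hmono : (2 : ℝ) ^ (x / 32) ≤ (2 : ℝ) ^ (5 * x / 32) :=
    Real.rpow_le_rpow_of_exponent_le (by norm_num) (by linarith)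
  have hsplit : (2 : ℝ) ^ (x / 4) = (2 : ℝ) ^ (5 * x / 32) * (2 : ℝ) ^ (3 * x / 32) := by
    rw [← Real.rpow_add (by norm_num)]; congr 1; ring
  have hbig : (2 : ℝ) ^ (24 : ℝ) ≤ (2 : ℝ) ^ (3 * x / 32) :=
    Real.rpow_le_rpow_of_exponent_le (by norm_num) (by linarith)
  have h24 : (2 : ℝ) ^ (24 : ℝ) = 16777216 := by
    rw [show (24 : ℝ) = ((24 : ℕ) : ℝ) by norm_num, Real.rpow_natCast]; norm_num
  rw [h24] at hbig
  have hp : 0 < (2 : ℝ) ^ (5 * x / 32) := Real.rpow_pos_of_pos (by norm_num) _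
  rw [hsplit]
  nlinarith

theorem Nn_thick {t : ℕ} {β : ℤ} (hC : 64 ≤ C0) (h : I.thick C0 β (t + 1)) :
    I.Nn C0 β t ≤ (2 : ℝ) ^ (I.xx C0 t β / 4) := by
  have h1 := I.Nn_le_succ C0 β t
  have h2 := I.nb_add_le C0 hC h
  have hx := I.four_C0_le_xx C0 h
  have h3 : I.Nn C0 β (t + 1) = (I.nb β : ℝ) + I.alt C0 (t + 1) + I.xx C0 t β := by
    have h4 : 0 ≤ (β : ℝ) - I.lev C0 (t + 1) := by
      have : (0 : ℝ) ≤ C0 := Nat.cast_nonneg _
      have h5 : I.xx C0 t β = (β : ℝ) - I.lev C0 (t + 1) := rfl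
      linarith
    rw [Nn, abs_of_nonneg h4, xx]
  rw [h3] at h1
  have hp : 0 < (2 : ℝ) ^ (I.xx C0 t β / 4) := Real.rpow_pos_of_pos (by norm_num) _
  linarith

variable {I C0}

theorem F_thick {E : ℝ} (hB : Big E C0) {t : ℕ} {U : W → Prop} {F : J → ℝ}
    (h : I.TiltHyp C0 E t U F) {β : ℤ} (hβ : I.thick C0 β (t + 1)) :
    I.bn β F ≤ 3 * E * (2 : ℝ) ^ (I.xx C0 t β / 8) := by
  refine (h.h1 β hβ).trans ?_
  have hE : 0 ≤ 3 * E := by linarith [hB.1]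
  refine mul_le_mul_of_nonneg_left ?_ hE
  have h1 := Real.sqrt_le_sqrt (I.Nn_thick C0 hB.2.1 hβ)
  refine h1.trans (le_of_eq ?_)
  rw [Real.sqrt_eq_rpow, ← Real.rpow_mul (by norm_num)]
  congr 1
  ring

/-- the vector `λbar^{-1} F_β` -/
theorem Flam_thick {E : ℝ} (hB : Big E C0) {t : ℕ} {U : W → Prop} {F : J → ℝ}
    (h : I.TiltHyp C0 E t U F) {β : ℤ} (hβ : I.thick C0 β (t + 1)) :
    I.bn β (fun l => F l / I.lamb C0 t l) ≤ 3 * E * (2 : ℝ) ^ (-(7 / 8 * I.xx C0 t β)) := by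
  have h2 : (2 : ℝ) ^ (-I.xx C0 t β) * (3 * E * (2 : ℝ) ^ (I.xx C0 t β / 8)) =
      3 * E * (2 : ℝ) ^ (-(7 / 8 * I.xx C0 t β)) := by
    rw [show (2 : ℝ) ^ (-I.xx C0 t β) * (3 * E * (2 : ℝ) ^ (I.xx C0 t β / 8)) =
      3 * E * ((2 : ℝ) ^ (-I.xx C0 t β) * (2 : ℝ) ^ (I.xx C0 t β / 8)) by ring,
      ← Real.rpow_add (by norm_num)]
    congr 2
    ring
  rw [← h2]
  refine (I.bn_smul_le (x := F) (Real.rpow_nonneg (by norm_num) _) ?_).trans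
    (mul_le_mul_of_nonneg_left (F_thick hB h hβ) (Real.rpow_nonneg (by norm_num) _))
  intro j hj
  have h3 := I.lamb_ge C0 t j
  rw [hj] at h3
  have h4 := I.lamb_pos C0 t j
  rw [abs_div, abs_of_pos h4, div_eq_mul_inv, mul_comm, Real.rpow_neg (by norm_num)]
  exact mul_le_mul_of_nonneg_right
    (inv_anti₀ (Real.rpow_pos_of_pos (by norm_num) _) h3) (abs_nonneg _)

theorem abs_tb_le {E : ℝ} (hB : Big E C0) {t : ℕ} {U : W → Prop} {F : J → ℝ}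
    (h : I.TiltHyp C0 E t U F) {β : ℤ} (hβ : I.thick C0 β (t + 1)) (w : W) :
    |I.tb C0 t F β w| ≤ 3 * E * (2 : ℝ) ^ (-(7 / 8 * I.xx C0 t β)) := by
  refine (I.abs_blk_le β _ _).trans ?_
  calc I.bn β (I.v w) * I.bn β (fun l => F l / I.lamb C0 t l)
      ≤ 1 * I.bn β (fun l => F l / I.lamb C0 t l) :=
        mul_le_mul_of_nonneg_right (I.bn_v_le_one w β) (I.bn_nonneg _ _)
    _ ≤ _ := by rw [one_mul]; exact Flam_thick hB h hβ

/-- sums over thick blocks of `2^{-c x}` -/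
theorem sum_thick_le (t : ℕ) (S : Finset ℤ) (hS : ∀ β ∈ S, I.thick C0 β (t + 1)) {c : ℝ}
    (hc : 0 < c) : ∑ β ∈ S, (2 : ℝ) ^ (-(c * I.xx C0 t β)) ≤
      (2 : ℝ) ^ (-(c * (4 * (C0 : ℝ)))) / (1 - (2 : ℝ) ^ (-c)) := by
  have h1 : ∑ β ∈ S, (2 : ℝ) ^ (-(c * I.xx C0 t β)) =
      ∑ z ∈ S.image (fun β => β - (I.lev C0 (t + 1) : ℤ)), (2 : ℝ) ^ (-(c * (z : ℝ))) := by
    rw [Finset.sum_image (fun x _ y _ hxy => by
      have : x - (I.lev C0 (t + 1) : ℤ) = y - (I.lev C0 (t + 1) : ℤ) := hxy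
      omega)]
    exact Finset.sum_congr rfl fun β _ => by rw [xx_eq_cast]
  rw [h1]
  have h2 := sum_geom_int (S.image (fun β => β - (I.lev C0 (t + 1) : ℤ))) (4 * (C0 : ℤ)) (by
    intro z hz
    obtain ⟨β, hβ, rfl⟩ := Finset.mem_image.mp hz
    exact I.four_C0_le_int C0 (hS β hβ)) hc
  push_cast at h2
  exact h2

/-- numeric consequence of `Big` -/
theorem Big.mul_le {E : ℝ} (hB : Big E C0) : 10 ^ 4 * E * (2 : ℝ) ^ (-(C0 : ℝ) / 16) ≤ 1 := by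
  have h1 := hB.2.2
  have h2 : (0 : ℝ) ≤ (2 : ℝ) ^ (-(C0 : ℝ) / 16) := Real.rpow_nonneg (by norm_num) _
  calc 10 ^ 4 * E * (2 : ℝ) ^ (-(C0 : ℝ) / 16)
      ≤ (2 : ℝ) ^ ((C0 : ℝ) / 16) * (2 : ℝ) ^ (-(C0 : ℝ) / 16) :=
        mul_le_mul_of_nonneg_right h1 h2
    _ = 1 := by
        rw [← Real.rpow_add (by norm_num)]
        rw [show (C0 : ℝ) / 16 + -(C0 : ℝ) / 16 = 0 by ring, Real.rpow_zero]

/-- the tilt is bounded by 1/2 -/
theorem tilt_le_half {E : ℝ} (hB : Big E C0) {t : ℕ} {U : W → Prop} {F : J → ℝ}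
    (h : I.TiltHyp C0 E t U F) (w : W) : |I.tilt C0 t F w| ≤ 1 / 2 := by
  rw [tilt_eq, abs_neg]
  refine (Finset.abs_sum_le_sum_abs _ _).trans ?_
  have hE : 0 ≤ E := by linarith [hB.1]
  calc ∑ β ∈ I.thickSet C0 t, |I.tb C0 t F β w|
      ≤ ∑ β ∈ I.thickSet C0 t, 3 * E * (2 : ℝ) ^ (-(7 / 8 * I.xx C0 t β)) :=
        Finset.sum_le_sum fun β hβ => abs_tb_le hB h (I.mem_thickSet C0 hβ) w
    _ = 3 * E * ∑ β ∈ I.thickSet C0 t, (2 : ℝ) ^ (-(7 / 8 * I.xx C0 t β)) := by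
        rw [Finset.mul_sum]
    _ ≤ 3 * E * ((2 : ℝ) ^ (-(7 / 8 * (4 * (C0 : ℝ)))) / (1 - (2 : ℝ) ^ (-(7 / 8 : ℝ)))) :=
        mul_le_mul_of_nonneg_left
          (sum_thick_le t _ (fun β hβ => I.mem_thickSet C0 hβ) (by norm_num)) (by positivity)
    _ ≤ 1 / 2 := by
        have h1 : (2 : ℝ) ^ (-(7 / 8 : ℝ)) ≤ 3 / 4 := by
          have h2 : (2 : ℝ) ^ (-(7 / 8 : ℝ)) ≤ (2 : ℝ) ^ (-(1 / 2 : ℝ)) :=
            Real.rpow_le_rpow_of_exponent_le (by norm_num) (by norm_num)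
          have h3 : (2 : ℝ) ^ (-(1 / 2 : ℝ)) = (√2)⁻¹ := by
            rw [Real.rpow_neg (by norm_num), Real.sqrt_eq_rpow]
          have h4 : (4 / 3 : ℝ) ≤ √2 := Real.le_sqrt_of_sq_le (by norm_num)
          rw [h3] at h2
          refine h2.trans ?_
          rw [inv_le_comm₀ (by positivity) (by norm_num)]
          linarith
        have h5 : (2 : ℝ) ^ (-(7 / 8 * (4 * (C0 : ℝ)))) ≤ (2 : ℝ) ^ (-(C0 : ℝ) / 16) :=
          Real.rpow_le_rpow_of_exponent_le (by norm_num) (by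
            have : (0 : ℝ) ≤ C0 := Nat.cast_nonneg _
            linarith)
        have h6 : (2 : ℝ) ^ (-(7 / 8 * (4 * (C0 : ℝ)))) / (1 - (2 : ℝ) ^ (-(7 / 8 : ℝ)))
            ≤ 4 * (2 : ℝ) ^ (-(C0 : ℝ) / 16) := by
          rw [div_le_iff₀ (by linarith)]
          have : (0 : ℝ) < (2 : ℝ) ^ (-(C0 : ℝ) / 16) := Real.rpow_pos_of_pos (by norm_num) _
          nlinarith
        have h7 := Big.mul_le hB
        calc 3 * E * ((2 : ℝ) ^ (-(7 / 8 * (4 * (C0 : ℝ)))) / (1 - (2 : ℝ) ^ (-(7 / 8 : ℝ))))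
            ≤ 3 * E * (4 * (2 : ℝ) ^ (-(C0 : ℝ) / 16)) :=
              mul_le_mul_of_nonneg_left h6 (by positivity)
          _ ≤ 1 / 2 := by linarith

end Inst
end P262F
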