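import Vale.Agent.P262F.R2

/-!
P262, module R6a: `EngineFor`, existence of the refined assignment (`exists_q`) and of the new
assignment (`exists_c'`).
-/

open scoped BigOperators
open Classical

namespace P262F
namespace Inst

variable {W J : Type} [Fintype W] [Fintype J]

/-- conclusion of the engine for an instance (see `engine_inst`) -/
def EngineFor (I : Inst W J) (C0 : ℕ) (E : ℝ) (t T : ℕ) : Prop :=
      (∀ S : Finset W, ∃ q : W → ℕ, (∀ w, q w < 2 ^ (I.Lam C0 t + 1)) ∧
        ∀ i : ℕ, i ≤ 2 ^ (I.Lam C0 t + 1) →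
          I.Ctl C0 E t T (fun w => Inst.ind (fun w => w ∈ S ∧ q w < i) w
            - (i : ℝ) / 2 ^ (I.Lam C0 t + 1) * Inst.ind (fun w => w ∈ S) w)) ∧
      (∀ S : Finset W, ∀ x : W → ℝ, (∀ w, 0 ≤ x w ∧ x w ≤ 1) → ∃ X : Finset W, X ⊆ S ∧
          I.Ctl C0 E t T (fun w => Inst.ind (fun w => w ∈ X) w - Inst.ind (fun w => w ∈ S) w * x w))

omit [Fintype W] in
theorem ind_congr_r6a {P Q : W → Prop} {w : W} (h : P w ↔ Q w) : ind P w = ind Q w := by
  unfold ind
  by_cases hP : P w
  · rw [if_pos hP, if_pos (h.mp hP)]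
  · rw [if_neg hP, if_neg (fun hQ => hP (h.mpr hQ))]

/-- existence of the refined assignment `q`: all pieces are split at once -/
theorem exists_q (I : Inst W J) (C0 : ℕ) (E : ℝ) (t T : ℕ) (hE : I.EngineFor C0 E t T) (c : W → ℕ) :
    ∃ q : W → ℕ, (∀ w, q w / 2 ^ (I.Lam C0 t + 1) = c w) ∧
      ∀ r, ∀ i : ℕ, i ≤ 2 ^ (I.Lam C0 t + 1) → I.Ctl C0 E t T
        (fun w => ind (fun w => c w = r ∧ q w < 2 ^ (I.Lam C0 t + 1) * r + i) w
          - (i : ℝ) / 2 ^ (I.Lam C0 t + 1) * ind (fun w => c w = r) w) := by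
  choose q hq1 hq2 using fun r : ℕ => hE.1 (Finset.univ.filter (fun w => c w = r))
  refine ⟨fun w => 2 ^ (I.Lam C0 t + 1) * c w + q (c w) w, ?_, ?_⟩
  · intro w
    change (2 ^ (I.Lam C0 t + 1) * c w + q (c w) w) / 2 ^ (I.Lam C0 t + 1) = c w
    rw [Nat.mul_add_div (by positivity), Nat.div_eq_of_lt (hq1 (c w) w), add_zero]
  · intro r i hi
    have h := hq2 r i hi
    have e : (fun w => ind (fun w => c w = r ∧
          2 ^ (I.Lam C0 t + 1) * c w + q (c w) w < 2 ^ (I.Lam C0 t + 1) * r + i) w
          - (i : ℝ) / 2 ^ (I.Lam C0 t + 1) * ind (fun w => c w = r) w) =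
        (fun w => Inst.ind (fun w => w ∈ Finset.univ.filter (fun w => c w = r) ∧ q r w < i) w
            - (i : ℝ) / 2 ^ (I.Lam C0 t + 1)
              * Inst.ind (fun w => w ∈ Finset.univ.filter (fun w => c w = r)) w) := by
      funext w
      have e1 : (c w = r ∧ 2 ^ (I.Lam C0 t + 1) * c w + q (c w) w <
          2 ^ (I.Lam C0 t + 1) * r + i) ↔
          (w ∈ Finset.univ.filter (fun w => c w = r) ∧ q r w < i) := by
        constructor
        · rintro ⟨h1, h2⟩
          subst h1
          exact ⟨by simp, by omega⟩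
        · rintro ⟨h1, h2⟩
          have h3 : c w = r := by simpa using h1
          subst h3
          exact ⟨rfl, by omega⟩
      have e2 : (c w = r) ↔ (w ∈ Finset.univ.filter (fun w => c w = r)) := by simp
      rw [ind_congr_r6a (P := fun w => c w = r ∧
          2 ^ (I.Lam C0 t + 1) * c w + q (c w) w < 2 ^ (I.Lam C0 t + 1) * r + i)
          (Q := fun w => w ∈ Finset.univ.filter (fun w => c w = r) ∧ q r w < i) e1,
        ind_congr_r6a (P := fun w => c w = r)
          (Q := fun w => w ∈ Finset.univ.filter (fun w => c w = r)) e2]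
    rw [← e] at h
    exact h

/-- existence of the new assignment `c'` for given tilts -/
theorem exists_c' (I : Inst W J) (C0 : ℕ) (E : ℝ) (t T : ℕ) (hE : I.EngineFor C0 E t T)
    (m : ℕ) (hm : 1 ≤ m) (q : W → ℕ) (hq : ∀ w, q w < 2 * m) (tl : ℕ → W → ℝ)
    (htl : ∀ j w, |tl j w| ≤ 1 / 2) :
    ∃ c' : W → ℕ, (∀ w, c' w < m) ∧ (∀ w, q w ≤ 2 * c' w + 2) ∧ (∀ w, 2 * c' w ≤ q w + 1) ∧
      ∀ j, 1 ≤ j → j < m → I.Ctl C0 E t T
        (fun w => ind (fun w => inU q j w ∧ c' w < j) w - ind (inU q j) w * (1 / 2 + tl j w)) := by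
  have hx : ∀ j w, 0 ≤ 1 / 2 + tl j w ∧ 1 / 2 + tl j w ≤ 1 := by
    intro j w
    have := abs_le.mp (htl j w)
    constructor <;> linarith [this.1, this.2]
  choose X hX1 hX2 using fun j : ℕ =>
    hE.2 (Finset.univ.filter (fun w => inU q j w)) (fun w => 1 / 2 + tl j w) (hx j)
  let c' : W → ℕ := fun w =>
    if (q w + 1) / 2 = 0 then 0 else if (q w + 1) / 2 = m then m - 1 else
      if w ∈ X ((q w + 1) / 2) then (q w + 1) / 2 - 1 else (q w + 1) / 2
  have hc' : ∀ w, c' w = if (q w + 1) / 2 = 0 then 0 else if (q w + 1) / 2 = m then m - 1 else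
      if w ∈ X ((q w + 1) / 2) then (q w + 1) / 2 - 1 else (q w + 1) / 2 := fun w => rfl
  refine ⟨c', ?_, ?_, ?_, ?_⟩
  · intro w
    have := hq w
    rw [hc']
    split_ifs <;> omega
  · intro w
    have := hq w
    rw [hc']
    split_ifs <;> omega
  · intro w
    have := hq w
    rw [hc']
    split_ifs <;> omega
  · intro j h1 h2
    have h := hX2 j
    have e : (fun w => ind (fun w => inU q j w ∧ c' w < j) w
          - ind (inU q j) w * (1 / 2 + tl j w)) =
        (fun w => Inst.ind (fun w => w ∈ X j) w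
          - Inst.ind (fun w => w ∈ Finset.univ.filter (fun w => inU q j w)) w
            * (1 / 2 + tl j w)) := by
      funext w
      have e2 : inU q j w ↔ (w ∈ Finset.univ.filter (fun w => inU q j w)) := by simp
      have e1 : (inU q j w ∧ c' w < j) ↔ w ∈ X j := by
        constructor
        · rintro ⟨h3, h4⟩
          have h5 : (q w + 1) / 2 = j := by
            unfold inU at h3
            omega
          rw [hc', h5, if_neg (by omega), if_neg (by omega)] at h4
          by_contra h6
          rw [if_neg h6] at h4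
          omega
        · intro h3
          have h4 : inU q j w := e2.mpr (hX1 j h3)
          have h5 : (q w + 1) / 2 = j := by
            unfold inU at h4
            omega
          refine ⟨h4, ?_⟩
          rw [hc', h5, if_neg (by omega), if_neg (by omega), if_pos h3]
          omega
      rw [ind_congr_r6a (P := fun w => inU q j w ∧ c' w < j) (Q := fun w => w ∈ X j) e1,
        ind_congr_r6a (P := inU q j)
          (Q := fun w => w ∈ Finset.univ.filter (fun w => inU q j w)) e2]
    rw [← e] at h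
    exact h

end Inst
end P262F
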