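import Vale.Agent.P262F.R2
import Vale.Agent.P262F.R5b
import Vale.Agent.P262F.R6b

/-!
P262, module R6c: the data of one step (`StepCtx`) and the seminorm facts it gives.
-/

open scoped BigOperators
open Classical

namespace P262F
namespace Inst

variable {W J : Type} [Fintype W] [Fintype J]

/-- all the data of one step `t → t+1` -/
structure StepCtx (I : Inst W J) (C0 : ℕ) (E : ℝ) (t T : ℕ) (c q c' : W → ℕ) (tl : ℕ → W → ℝ)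
    (F : ℕ → J → ℝ) : Prop where
  hQ : QData (2 ^ I.lev C0 t) (I.Lam C0 t) c q
  hD : StepData (2 ^ I.lev C0 t) (I.Lam C0 t) q c'
  hq : ∀ r, ∀ i : ℕ, i ≤ 2 ^ (I.Lam C0 t + 1) → I.Ctl C0 E t T
        (fun w => ind (fun w => c w = r ∧ q w < 2 ^ (I.Lam C0 t + 1) * r + i) w
          - (i : ℝ) / 2 ^ (I.Lam C0 t + 1) * ind (fun w => c w = r) w)
  hc' : ∀ j, 1 ≤ j → j < 2 ^ I.lev C0 t * 2 ^ I.Lam C0 t → I.Ctl C0 E t T
        (fun w => ind (fun w => inU q j w ∧ c' w < j) w - ind (inU q j) w * (1 / 2 + tl j w))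
  hF : ∀ j l, F j l = 1 / 2 * (I.vs (ind (fun w => q w < 2 * j - 1)) l
        + I.vs (ind (fun w => q w < 2 * j + 1)) l)
  htl : ∀ j, 1 ≤ j → j < 2 ^ I.lev C0 t * 2 ^ I.Lam C0 t → ∀ w, tl j w = I.tilt C0 t (F j) w
  hT : ∀ j, 1 ≤ j → j < 2 ^ I.lev C0 t * 2 ^ I.Lam C0 t → I.TiltHyp C0 E t (inU q j) (F j)

variable {I : Inst W J} {C0 : ℕ} {E : ℝ} {t T : ℕ} {c q c' : W → ℕ} {tl : ℕ → W → ℝ}
  {F : ℕ → J → ℝ}

theorem N2_nonneg_r6c (β γ : ℤ) (t : ℕ) : 0 ≤ I.N2 C0 β γ t := by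
  unfold N2
  have h1 := abs_nonneg ((β : ℝ) - I.lev C0 t)
  have h2 := abs_nonneg ((γ : ℝ) - I.lev C0 t)
  have h3 : (0 : ℝ) ≤ (I.nb β : ℝ) * I.nb γ := by positivity
  have h4 : (0 : ℝ) ≤ (I.alt C0 t : ℝ) := Nat.cast_nonneg _
  linarith

/-- light sums -/
theorem StepCtx.qL (h : I.StepCtx C0 E t T c q c' tl F) (hE : 0 ≤ E) (β : ℤ) :
    QSemi (2 ^ I.lev C0 t) (I.Lam C0 t) c q (I.semiL C0 t β)
      (E * I.sg C0 β t * Real.sqrt (I.Nn C0 β t)) where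
  he := mul_nonneg (mul_nonneg hE (I.sg_pos C0 β t).le) (Real.sqrt_nonneg _)
  hpre := fun r _ i hi => (h.hq r i hi).1 β

/-- raw sums on non-frozen blocks -/
theorem StepCtx.qV (h : I.StepCtx C0 E t T c q c' tl F) (hE : 0 ≤ E) {β : ℤ}
    (hβ : ¬ I.frozen C0 β t) :
    QSemi (2 ^ I.lev C0 t) (I.Lam C0 t) c q (I.semiV β) (E * Real.sqrt (I.Nn C0 β t)) where
  he := mul_nonneg hE (Real.sqrt_nonneg _)
  hpre := fun r _ i hi => by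
    have h1 := (h.hq r i hi).1 β
    rw [I.ls_eq_vs C0 hβ, I.sg_eq_one C0 hβ, mul_one] at h1
    exact h1

/-- second moments on non-frozen blocks -/
theorem StepCtx.qM (h : I.StepCtx C0 E t T c q c' tl F) (hE : 0 ≤ E) {β γ : ℤ}
    (hβ : ¬ I.frozen C0 β t) (hγ : ¬ I.frozen C0 γ t) :
    QSemi (2 ^ I.lev C0 t) (I.Lam C0 t) c q (I.semiM β γ) (E * Real.sqrt (I.N2 C0 β γ t)) where
  he := mul_nonneg hE (Real.sqrt_nonneg _)
  hpre := fun r _ i hi => (h.hq r i hi).2.1 β γ hβ hγ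

/-- truncated loads -/
theorem StepCtx.qT (h : I.StepCtx C0 E t T c q c' tl F) (hE : 0 ≤ E) {κ : ℕ} (h1 : t < κ)
    (h2 : κ ≤ T) :
    QSemi (2 ^ I.lev C0 t) (I.Lam C0 t) c q (I.semiT C0 κ)
      (E * 2 ^ (κ - t) * Real.sqrt (1 + I.alt C0 t + ((κ : ℝ) - t))) where
  he := by positivity
  hpre := fun r _ i hi => (h.hq r i hi).2.2 κ h1 h2

/-- light sums, step -/
theorem StepCtx.sL (h : I.StepCtx C0 E t T c q c' tl F) (β : ℤ) {τ : ℝ} (hτ : 0 ≤ τ)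
    (ht : ∀ j, 1 ≤ j → j < 2 ^ I.lev C0 t * 2 ^ I.Lam C0 t →
      I.bn β (I.ls C0 t (fun w => ind (inU q j) w * tl j w)) ≤ τ) :
    StepSemi (2 ^ I.lev C0 t) (I.Lam C0 t) q c' tl (I.semiL C0 t β)
      (E * I.sg C0 β t * Real.sqrt (I.Nn C0 β t)) τ where
  hτ := hτ
  hsplit := fun j h1 h2 => (h.hc' j h1 h2).1 β
  htilt := ht

/-- raw sums on non-frozen blocks, step -/
theorem StepCtx.sV (h : I.StepCtx C0 E t T c q c' tl F) {β : ℤ} (hβ : ¬ I.frozen C0 β t)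
    {τ : ℝ} (hτ : 0 ≤ τ)
    (ht : ∀ j, 1 ≤ j → j < 2 ^ I.lev C0 t * 2 ^ I.Lam C0 t →
      I.bn β (I.vs (fun w => ind (inU q j) w * tl j w)) ≤ τ) :
    StepSemi (2 ^ I.lev C0 t) (I.Lam C0 t) q c' tl (I.semiV β)
      (E * Real.sqrt (I.Nn C0 β t)) τ where
  hτ := hτ
  hsplit := fun j h1 h2 => by
    have h3 := (h.hc' j h1 h2).1 β
    rw [I.ls_eq_vs C0 hβ, I.sg_eq_one C0 hβ, mul_one] at h3
    exact h3
  htilt := ht

/-- second moments, step -/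
theorem StepCtx.sM (h : I.StepCtx C0 E t T c q c' tl F) {β γ : ℤ}
    (hβ : ¬ I.frozen C0 β t) (hγ : ¬ I.frozen C0 γ t) {τ : ℝ} (hτ : 0 ≤ τ)
    (ht : ∀ j, 1 ≤ j → j < 2 ^ I.lev C0 t * 2 ^ I.Lam C0 t →
      I.bn2 β γ (I.ms (fun w => ind (inU q j) w * tl j w)) ≤ τ) :
    StepSemi (2 ^ I.lev C0 t) (I.Lam C0 t) q c' tl (I.semiM β γ)
      (E * Real.sqrt (I.N2 C0 β γ t)) τ where
  hτ := hτ
  hsplit := fun j h1 h2 => (h.hc' j h1 h2).2.1 β γ hβ hγ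
  htilt := ht

/-- truncated loads, step -/
theorem StepCtx.sT (h : I.StepCtx C0 E t T c q c' tl F) {κ : ℕ} (h1 : t < κ)
    (h2 : κ ≤ T) {τ : ℝ} (hτ : 0 ≤ τ)
    (ht : ∀ j, 1 ≤ j → j < 2 ^ I.lev C0 t * 2 ^ I.Lam C0 t →
      |I.ts C0 κ (fun w => ind (inU q j) w * tl j w)| ≤ τ) :
    StepSemi (2 ^ I.lev C0 t) (I.Lam C0 t) q c' tl (I.semiT C0 κ)
      (E * 2 ^ (κ - t) * Real.sqrt (1 + I.alt C0 t + ((κ : ℝ) - t))) τ where
  hτ := hτ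
  hsplit := fun j h3 h4 => (h.hc' j h3 h4).2.2 κ h1 h2
  htilt := ht

/-- the tilt in the form used by R5 -/
theorem StepCtx.tl_eq (h : I.StepCtx C0 E t T c q c' tl F) {j : ℕ} (h1 : 1 ≤ j)
    (h2 : j < 2 ^ I.lev C0 t * 2 ^ I.Lam C0 t) :
    (fun w => ind (inU q j) w * tl j w) = (fun w => ind (inU q j) w * I.tilt C0 t (F j) w) := by
  funext w
  rw [h.htl j h1 h2 w]

end Inst
end P262F
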