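import Vale.Agent.P262F.R3

open scoped BigOperators
open Classical

namespace P262F
namespace Inst

variable {W J : Type} [Fintype W] [Fintype J] (I : Inst W J) (C0 : ℕ)

theorem R7_lev_ge (t i : ℕ) :
    I.lev C0 (t + 1) + I.Lam C0 (t + 1) + C0 * i ≤ I.lev C0 (t + 2 + i) := by
  induction i with
  | zero =>
    have h := I.lev_succ C0 (t + 1)
    simp only [mul_zero, add_zero]
    exact h.ge
  | succ i ih =>
    have h := I.lev_succ C0 (t + 2 + i)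
    have h2 := I.C0_le_Lam C0 (t + 2 + i)
    have e : t + 2 + (i + 1) = t + 2 + i + 1 := by ring
    rw [e, h]
    have : C0 * (i + 1) = C0 * i + C0 := by ring
    omega


theorem R7_exp (m : ℕ) : (6 : ℝ) * 4 ^ m ≤ (2 : ℝ) ^ (3 + 2 * (m : ℝ)) := by
  rw [Real.rpow_add (by norm_num)]
  have h3 : (2 : ℝ) ^ (3 : ℝ) = 8 := by
    rw [show (3 : ℝ) = ((3 : ℕ) : ℝ) by norm_num, Real.rpow_natCast]; norm_num
  have h5 : (2 : ℝ) ^ (2 * (m : ℝ)) = 4 ^ m := by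
    rw [show 2 * (m : ℝ) = ((2 * m : ℕ) : ℝ) by push_cast; ring, Real.rpow_natCast, pow_mul]; norm_num
  rw [h3, h5]
  have : (0 : ℝ) < 4 ^ m := by positivity
  linarith

theorem R7_sqrt (A : ℝ) (L m i : ℕ) (hA : A ≤ 18 * ((L : ℝ) + 1)) (hm : m = i + 2) :
    Real.sqrt (1 + A + ((i : ℝ) + 2)) ≤ (2 : ℝ) ^ ((5 + (m : ℝ) + L) / 2) := by
  have hL1 : ((L : ℝ) + 1) ≤ (2 : ℝ) ^ (L : ℝ) := by
    rw [Real.rpow_natCast]
    have : L + 1 ≤ 2 ^ L := Nat.lt_two_pow_self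
    exact_mod_cast this
  have hm1 : ((m : ℝ) + 1) ≤ (2 : ℝ) ^ (m : ℝ) := by
    rw [Real.rpow_natCast]
    have : m + 1 ≤ 2 ^ m := Nat.lt_two_pow_self
    exact_mod_cast this
  have hin : (0 : ℝ) ≤ i := Nat.cast_nonneg i
  have hLn : (0 : ℝ) ≤ L := Nat.cast_nonneg L
  have hmR : (m : ℝ) = (i : ℝ) + 2 := by rw [hm]; push_cast; ring
  rw [Real.sqrt_le_left (by positivity), ← Real.rpow_natCast, ← Real.rpow_mul (by norm_num)]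
  have e : (5 + (m : ℝ) + L) / 2 * ((2 : ℕ) : ℝ) = 5 + (m : ℝ) + L := by push_cast; ring
  rw [e, Real.rpow_add (by norm_num), Real.rpow_add (by norm_num)]
  have h5 : (2 : ℝ) ^ (5 : ℝ) = 32 := by
    rw [show (5 : ℝ) = ((5 : ℕ) : ℝ) by norm_num, Real.rpow_natCast]; norm_num
  rw [h5]
  have h6 : ((m : ℝ) + 1) * ((L : ℝ) + 1) ≤ (2 : ℝ) ^ (m : ℝ) * (2 : ℝ) ^ (L : ℝ) := by
    apply mul_le_mul hm1 hL1 (by positivity) (by positivity)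
  have h8 := mul_nonneg hin hLn
  have h7 : 1 + A + ((i : ℝ) + 2) ≤ 19 * (((m : ℝ) + 1) * ((L : ℝ) + 1)) := by
    rw [hmR]
    nlinarith
  have h9 : 0 ≤ ((m : ℝ) + 1) * ((L : ℝ) + 1) := by positivity
  calc 1 + A + ((i : ℝ) + 2) ≤ 19 * (((m : ℝ) + 1) * ((L : ℝ) + 1)) := h7
    _ ≤ 32 * (((m : ℝ) + 1) * ((L : ℝ) + 1)) := by linarith
    _ ≤ 32 * ((2 : ℝ) ^ (m : ℝ) * (2 : ℝ) ^ (L : ℝ)) := by linarith
    _ = 32 * (2 : ℝ) ^ (m : ℝ) * (2 : ℝ) ^ (L : ℝ) := by ring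

theorem R7_claimA (E A : ℝ) (L K m i : ℕ) (hm : m = i + 2) (hE0 : 0 ≤ E)
    (hA : A ≤ 18 * ((L : ℝ) + 1)) (hEb : E ≤ (2 : ℝ) ^ ((L : ℝ) / 16 - 13))
    (hL64 : (64 : ℝ) ≤ L) (hKR : (L : ℝ) + 64 * i ≤ K) :
    6 * 4 ^ m * (E * 2 ^ m * Real.sqrt (1 + A + ((i : ℝ) + 2))) ≤ (2 : ℝ) ^ K := by
  have hmR : (m : ℝ) = (i : ℝ) + 2 := by rw [hm]; push_cast; ring
  have hin : (0 : ℝ) ≤ i := Nat.cast_nonneg i
  have hsq := R7_sqrt A L m i hA hm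
  have hPle : E * 2 ^ m * Real.sqrt (1 + A + ((i : ℝ) + 2))
      ≤ (2 : ℝ) ^ ((L : ℝ) / 16 - 13) * (2 : ℝ) ^ (m : ℝ) * (2 : ℝ) ^ ((5 + (m : ℝ) + L) / 2) := by
    rw [Real.rpow_natCast 2 m]
    apply mul_le_mul _ hsq (Real.sqrt_nonneg _) (by positivity)
    exact mul_le_mul_of_nonneg_right hEb (by positivity)
  calc 6 * 4 ^ m * (E * 2 ^ m * Real.sqrt (1 + A + ((i : ℝ) + 2))) ≤ (2 : ℝ) ^ (3 + 2 * (m : ℝ)) *
        ((2 : ℝ) ^ ((L : ℝ) / 16 - 13) * (2 : ℝ) ^ (m : ℝ) * (2 : ℝ) ^ ((5 + (m : ℝ) + L) / 2)) :=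
        mul_le_mul (R7_exp m) hPle (by positivity) (by positivity)
    _ = (2 : ℝ) ^ (3 + 2 * (m : ℝ) + ((L : ℝ) / 16 - 13 + m + (5 + (m : ℝ) + L) / 2)) := by
        rw [← Real.rpow_add (by norm_num), ← Real.rpow_add (by norm_num), ← Real.rpow_add (by norm_num)]
    _ ≤ (2 : ℝ) ^ (K : ℝ) := by
        apply Real.rpow_le_rpow_of_exponent_le (by norm_num)
        rw [hmR]
        linarith
    _ = (2 : ℝ) ^ K := Real.rpow_natCast 2 K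

theorem R7_claimB (a Y : ℝ) (K m i : ℕ) (hm : m = i + 2) (ha0 : 0 ≤ a) (ha : a ≤ 1)
    (hKR : 64 + 64 * (i : ℝ) ≤ K) (hY : Y ≤ 2 * (2 : ℝ) ^ K) :
    4 ^ m * (2 * (a * Real.sqrt Y)) ≤ (2 : ℝ) ^ K := by
  have hmR : (m : ℝ) = (i : ℝ) + 2 := by rw [hm]; push_cast; ring
  have hin : (0 : ℝ) ≤ i := Nat.cast_nonneg i
  have hsY : Real.sqrt Y ≤ (2 : ℝ) ^ (((K : ℝ) + 1) / 2) := by
    rw [Real.sqrt_le_left (by positivity), ← Real.rpow_natCast, ← Real.rpow_mul (by norm_num)]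
    have e : ((K : ℝ) + 1) / 2 * ((2 : ℕ) : ℝ) = (K : ℝ) + 1 := by push_cast; ring
    rw [e, Real.rpow_add (by norm_num), Real.rpow_natCast, Real.rpow_one]
    linarith
  have h1 : a * Real.sqrt Y ≤ 1 * (2 : ℝ) ^ (((K : ℝ) + 1) / 2) :=
    mul_le_mul ha hsY (Real.sqrt_nonneg _) (by norm_num)
  have h5 : (2 : ℝ) ^ (2 * (m : ℝ)) = 4 ^ m := by
    rw [show 2 * (m : ℝ) = ((2 * m : ℕ) : ℝ) by push_cast; ring, Real.rpow_natCast, pow_mul]; norm_num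
  calc 4 ^ m * (2 * (a * Real.sqrt Y))
      ≤ 4 ^ m * (2 * (1 * (2 : ℝ) ^ (((K : ℝ) + 1) / 2))) := by gcongr
    _ = (2 : ℝ) ^ (2 * (m : ℝ) + 1 + ((K : ℝ) + 1) / 2) := by
        rw [Real.rpow_add (by norm_num), Real.rpow_add (by norm_num), h5, Real.rpow_one]; ring
    _ ≤ (2 : ℝ) ^ (K : ℝ) := by
        apply Real.rpow_le_rpow_of_exponent_le (by norm_num)
        rw [hmR]
        linarith
    _ = (2 : ℝ) ^ K := Real.rpow_natCast 2 K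

theorem R7_final (X P S Y a : ℝ) (m i K : ℕ) (hm : m = i + 2) (hP0 : 0 ≤ P)
    (hX : X = (2 : ℝ) ^ K)
    (hA : 6 * 4 ^ m * P ≤ (2 : ℝ) ^ K) (ha0 : 0 ≤ a) (ha : a ≤ 1)
    (hKR : 64 + 64 * (i : ℝ) ≤ K)
    (hY : Y ≤ (1 + (1 / 4 : ℝ) ^ m) * X + 4 * P) (hS : S = a * Real.sqrt Y) :
    (1 + (1 / 4 : ℝ) ^ m) * X + 6 * P + 2 * S ≤ (1 + (1 / 4 : ℝ) ^ (i + 1)) * X := by
  subst hX
  have hKpos : (0 : ℝ) < (2 : ℝ) ^ K := by positivity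
  have h4m : (16 : ℝ) ≤ 4 ^ m := by
    have : (4 : ℝ) ^ 2 ≤ 4 ^ m := pow_le_pow_right₀ (by norm_num) (by omega)
    linarith
  have hq : (1 / 4 : ℝ) ^ m * 4 ^ m = 1 := by
    rw [← mul_pow]; norm_num
  have hq16 : (1 / 4 : ℝ) ^ m ≤ 1 / 16 := by
    have : (1 / 4 : ℝ) ^ m ≤ (1 / 4) ^ 2 := pow_le_pow_of_le_one (by norm_num) (by norm_num) (by omega)
    linarith
  have hqpos : (0 : ℝ) < (1 / 4 : ℝ) ^ m := by positivity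
  have hPs : 96 * P ≤ (2 : ℝ) ^ K := by
    have : 16 * P ≤ 4 ^ m * P := mul_le_mul_of_nonneg_right h4m hP0
    linarith
  have hYle : Y ≤ 2 * (2 : ℝ) ^ K := by
    have : (1 / 4 : ℝ) ^ m * (2 : ℝ) ^ K ≤ 1 / 16 * (2 : ℝ) ^ K :=
      mul_le_mul_of_nonneg_right hq16 hKpos.le
    linarith
  have hBb := R7_claimB a Y K m i hm ha0 ha hKR hYle
  rw [← hS] at hBb
  have hq1 : (1 / 4 : ℝ) ^ (i + 1) = 4 * (1 / 4 : ℝ) ^ m := by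
    rw [hm, pow_succ (1 / 4 : ℝ) (i + 1)]; ring
  rw [hq1]
  have h6P : 6 * P ≤ (1 / 4 : ℝ) ^ m * 2 ^ K := by
    have : (1 / 4 : ℝ) ^ m * (6 * 4 ^ m * P) ≤ (1 / 4 : ℝ) ^ m * 2 ^ K :=
      mul_le_mul_of_nonneg_left hA hqpos.le
    have e : (1 / 4 : ℝ) ^ m * (6 * 4 ^ m * P) = ((1 / 4 : ℝ) ^ m * 4 ^ m) * (6 * P) := by ring
    rw [e, hq, one_mul] at this
    exact this
  have hSS : 2 * S ≤ (1 / 4 : ℝ) ^ m * 2 ^ K := by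
    have : (1 / 4 : ℝ) ^ m * (4 ^ m * (2 * S)) ≤ (1 / 4 : ℝ) ^ m * 2 ^ K :=
      mul_le_mul_of_nonneg_left hBb hqpos.le
    have e : (1 / 4 : ℝ) ^ m * (4 ^ m * (2 * S)) = ((1 / 4 : ℝ) ^ m * 4 ^ m) * (2 * S) := by ring
    rw [e, hq, one_mul] at this
    exact this
  have hpp : 0 < (1 / 4 : ℝ) ^ m * 2 ^ K := by positivity
  linarith [h6P, hSS, hpp]

/-- numeric inequality for the truncated loads, `κ ≥ t + 2` -/
theorem num_load (E : ℝ) (hB : Big E C0) (t κ : ℕ) (hκ : t + 2 ≤ κ) (Y : ℝ) (hY0 : 0 ≤ Y)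
    (hY : Y ≤ (1 + (1 / 4 : ℝ) ^ (κ - t)) * (2 : ℝ) ^ ((I.lev C0 κ : ℤ) - I.lev C0 t) / 2 ^ (I.Lam C0 t)
      + 4 * (E * 2 ^ (κ - t) * Real.sqrt (1 + I.alt C0 t + ((κ : ℝ) - t)))) :
    (1 + (1 / 4 : ℝ) ^ (κ - t)) * (2 : ℝ) ^ ((I.lev C0 κ : ℤ) - I.lev C0 t) / 2 ^ (I.Lam C0 t)
      + 6 * (E * 2 ^ (κ - t) * Real.sqrt (1 + I.alt C0 t + ((κ : ℝ) - t)))
      + 2 * ((2 : ℝ) ^ (-(I.alt C0 (t + 1) : ℝ) / 16) * Real.sqrt Y)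
      ≤ (1 + (1 / 4 : ℝ) ^ (κ - (t + 1))) * (2 : ℝ) ^ ((I.lev C0 κ : ℤ) - I.lev C0 (t + 1)) := by
  obtain ⟨i, rfl⟩ : ∃ i, κ = t + 2 + i := ⟨κ - (t + 2), by omega⟩
  obtain ⟨hE1, hC64, hBig⟩ := hB
  set L : ℕ := I.Lam C0 (t + 1) with hL
  have hK0 := R7_lev_ge I C0 t i
  obtain ⟨K, hK⟩ : ∃ K, I.lev C0 (t + 2 + i) = I.lev C0 (t + 1) + K := ⟨I.lev C0 (t + 2 + i) - I.lev C0 (t + 1), by omega⟩
  have hKge : L + C0 * i ≤ K := by omega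
  have hLC : C0 ≤ L := I.C0_le_Lam C0 (t + 1)
  have hlev := I.lev_succ C0 t
  -- simplify the powers
  have e1 : t + 2 + i - t = i + 2 := by omega
  have e2 : t + 2 + i - (t + 1) = i + 1 := by omega
  have e3 : (((t + 2 + i : ℕ) : ℝ) - t) = (i : ℝ) + 2 := by push_cast; ring
  have hp1 : (2 : ℝ) ^ ((I.lev C0 (t + 2 + i) : ℤ) - I.lev C0 t) / 2 ^ (I.Lam C0 t) = 2 ^ K := by
    rw [hK, hlev]
    have : ((((I.lev C0 t + I.Lam C0 t + K : ℕ) : ℤ)) - (I.lev C0 t : ℤ)) = ((I.Lam C0 t + K : ℕ) : ℤ) := by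
      push_cast; ring
    rw [this, zpow_natCast, pow_add]
    field_simp
  have hp2 : (2 : ℝ) ^ ((I.lev C0 (t + 2 + i) : ℤ) - I.lev C0 (t + 1)) = 2 ^ K := by
    rw [hK]
    have : (((I.lev C0 (t + 1) + K : ℕ) : ℤ) - (I.lev C0 (t + 1) : ℤ)) = ((K : ℕ) : ℤ) := by
      push_cast; ring
    rw [this, zpow_natCast]
  rw [mul_div_assoc, hp1] at hY ⊢
  rw [hp2, e2]
  rw [e1, e3] at hY ⊢
  -- the bound on alt
  have hA1 := I.alt_le_succ C0 t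
  have hA2 := I.Lam_le C0 t
  have hA3 := I.lt_Lam C0 (t + 1)
  have hA5 : (I.alt C0 t : ℝ) ≤ 18 * ((L : ℝ) + 1) := by
    have : I.alt C0 t ≤ 18 * (L + 1) := by omega
    exact_mod_cast this
  have hL64 : (64 : ℝ) ≤ L := by
    have : 64 ≤ L := by omega
    exact_mod_cast this
  have hEb : E ≤ (2 : ℝ) ^ ((L : ℝ) / 16 - 13) := by
    have h1 : (2 : ℝ) ^ ((C0 : ℝ) / 16) ≤ (2 : ℝ) ^ ((L : ℝ) / 16) := by
      apply Real.rpow_le_rpow_of_exponent_le (by norm_num)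
      have : (C0 : ℝ) ≤ L := by exact_mod_cast hLC
      linarith
    have h2 : (2 : ℝ) ^ ((L : ℝ) / 16 - 13) = (2 : ℝ) ^ ((L : ℝ) / 16) / 8192 := by
      rw [Real.rpow_sub (by norm_num)]
      congr 1
      rw [show (13 : ℝ) = ((13 : ℕ) : ℝ) by norm_num, Real.rpow_natCast]; norm_num
    rw [h2, le_div_iff₀ (by norm_num)]
    linarith
  have hKR : (L : ℝ) + 64 * i ≤ K := by
    have h1 : 64 * i ≤ C0 * i := Nat.mul_le_mul_right i hC64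
    have : L + 64 * i ≤ K := by omega
    exact_mod_cast this
  have hAl : (2 : ℝ) ^ (-(I.alt C0 (t + 1) : ℝ) / 16) ≤ 1 := by
    apply Real.rpow_le_one_of_one_le_of_nonpos (by norm_num)
    have : (0 : ℝ) ≤ (I.alt C0 (t + 1) : ℝ) := Nat.cast_nonneg _
    linarith
  have hA := R7_claimA E (I.alt C0 t : ℝ) L K (i + 2) i rfl (by linarith) hA5 hEb hL64 hKR
  exact R7_final ((2 : ℝ) ^ K) _ _ Y ((2 : ℝ) ^ (-(I.alt C0 (t + 1) : ℝ) / 16)) (i + 2) i K rfl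
    (by positivity) rfl hA (by positivity) hAl (by linarith) hY rfl

end Inst
end P262F
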