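import Vale.Agent.P262F.R3
import Vale.Agent.P262F.R7a

open scoped BigOperators
open Classical

namespace P262F
namespace Inst

variable {W J : Type} [Fintype W] [Fintype J] (I : Inst W J) (C0 : ℕ)

/-- the tilt effect on frozen blocks is at most 1 (times the scale) -/
theorem num_light (E : ℝ) (hB : Big E C0) (t : ℕ) (Y : ℝ) (hY : Y ≤ 32 * E * Real.sqrt (I.alt C0 t)) :
    (2 : ℝ) ^ (-(I.alt C0 (t + 1) : ℝ) / 16) * Real.sqrt Y ≤ 1 / 2 := by
  obtain ⟨hE1, hC64, hBig⟩ := hB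
  set L : ℕ := I.Lam C0 (t + 1) with hL
  set P : ℝ := (2 : ℝ) ^ L with hP
  have hPpos : 0 < P := by positivity
  have hLC : C0 ≤ L := I.C0_le_Lam C0 (t + 1)
  -- the first factor
  have h1 : (2 : ℝ) ^ (-(I.alt C0 (t + 1) : ℝ) / 16) ≤ P⁻¹ := by
    have h := I.Lam_le C0 (t + 1)
    have h' : (16 : ℝ) * L ≤ I.alt C0 (t + 1) := by exact_mod_cast h
    rw [hP, ← Real.rpow_natCast, ← Real.rpow_neg (by norm_num)]
    apply Real.rpow_le_rpow_of_exponent_le (by norm_num)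
    linarith
  -- bound on E
  have hE2 : 10 ^ 4 * E ≤ P := by
    refine hBig.trans ?_
    rw [hP, ← Real.rpow_natCast]
    apply Real.rpow_le_rpow_of_exponent_le (by norm_num)
    have h2 : (C0 : ℝ) ≤ L := by exact_mod_cast hLC
    have h3 : (0 : ℝ) ≤ C0 := Nat.cast_nonneg _
    linarith
  -- bound on alt
  have hA1 := I.alt_le_succ C0 t
  have hA2 := I.Lam_le C0 t
  have hA3 := I.lt_Lam C0 (t + 1)
  have hA5 : (I.alt C0 t : ℝ) ≤ 18 * P := by
    have h2 : I.alt C0 t ≤ 18 * (L + 1) := by omega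
    have h3 : L + 1 ≤ 2 ^ L := Nat.lt_two_pow_self
    have h4 : I.alt C0 t ≤ 18 * 2 ^ L := by omega
    rw [hP]
    exact_mod_cast h4
  have hA6 : Real.sqrt (I.alt C0 t) ≤ 18 * P := by
    refine le_trans ?_ hA5
    have h2 : 16 * C0 ≤ I.alt C0 t := I.alt_ge C0 t
    have h3 : (1 : ℝ) ≤ I.alt C0 t := by
      have : 1 ≤ I.alt C0 t := by omega
      exact_mod_cast this
    rw [Real.sqrt_le_left (by linarith)]
    nlinarith
  have hY2 : Y ≤ (P / 2) ^ 2 := by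
    have h2 : 32 * E * Real.sqrt (I.alt C0 t) ≤ 32 * E * (18 * P) :=
      mul_le_mul_of_nonneg_left hA6 (by linarith)
    nlinarith
  have hsY : Real.sqrt Y ≤ P / 2 := by
    rw [Real.sqrt_le_left (by positivity)]
    exact hY2
  calc (2 : ℝ) ^ (-(I.alt C0 (t + 1) : ℝ) / 16) * Real.sqrt Y ≤ P⁻¹ * (P / 2) :=
        mul_le_mul h1 hsY (Real.sqrt_nonneg _) (by positivity)
    _ = 1 / 2 := by field_simp

/-- numeric inequality for the truncated loads, `κ = t + 1` -/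
theorem num_load_one (E : ℝ) (hB : Big E C0) (t : ℕ) (Y : ℝ) (hY0 : 0 ≤ Y)
    (hY : Y ≤ (1 + (1 / 4 : ℝ) ^ 1) * (2 : ℝ) ^ ((I.lev C0 (t + 1) : ℤ) - I.lev C0 t) / 2 ^ (I.Lam C0 t)
      + 4 * (E * 2 ^ 1 * Real.sqrt (1 + I.alt C0 t + 1))) :
    (1 + (1 / 4 : ℝ) ^ 1) * (2 : ℝ) ^ ((I.lev C0 (t + 1) : ℤ) - I.lev C0 t) / 2 ^ (I.Lam C0 t)
      + 6 * (E * 2 ^ 1 * Real.sqrt (1 + I.alt C0 t + 1))
      + 2 * ((2 : ℝ) ^ (-(I.alt C0 (t + 1) : ℝ) / 16) * Real.sqrt Y)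
      ≤ 16 * E * Real.sqrt (I.alt C0 (t + 1)) := by
  have hB' := hB
  obtain ⟨hE1, hC64, hBig⟩ := hB
  have hp : (1 + (1 / 4 : ℝ) ^ 1) * (2 : ℝ) ^ ((I.lev C0 (t + 1) : ℤ) - I.lev C0 t) / 2 ^ (I.Lam C0 t)
      = 5 / 4 := by
    have e : ((I.lev C0 (t + 1) : ℤ) - I.lev C0 t) = (I.Lam C0 t : ℤ) := by
      rw [I.lev_succ C0 t]; push_cast; ring
    rw [e, zpow_natCast]
    field_simp
    norm_num
  rw [hp] at hY ⊢
  -- notation
  set A : ℝ := (I.alt C0 t : ℝ) with hA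
  set A' : ℝ := (I.alt C0 (t + 1) : ℝ) with hA'
  have hA1 := I.alt_le_succ C0 t
  have hA2 := I.Lam_le C0 t
  have hA4 := I.alt_ge C0 t
  have hA5 := I.alt_ge C0 (t + 1)
  have k1 : 15 * A ≤ 16 * A' := by
    have : 15 * I.alt C0 t ≤ 16 * I.alt C0 (t + 1) := by omega
    rw [hA, hA']; exact_mod_cast this
  have k2 : 1024 ≤ A := by
    have : 1024 ≤ I.alt C0 t := by omega
    rw [hA]; exact_mod_cast this
  have k3 : 1024 ≤ A' := by
    have : 1024 ≤ I.alt C0 (t + 1) := by omega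
    rw [hA']; exact_mod_cast this
  have s1 : Real.sqrt (1 + A + 1) ≤ 1.01 * Real.sqrt A := by
    rw [Real.sqrt_le_left (by positivity), mul_pow, Real.sq_sqrt (by linarith)]
    norm_num
    linarith
  have s2 : Real.sqrt (1 + A + 1) ≤ 1.04 * Real.sqrt A' := by
    rw [Real.sqrt_le_left (by positivity), mul_pow, Real.sq_sqrt (by linarith)]
    norm_num
    linarith
  have s3 : (32 : ℝ) ≤ Real.sqrt A := by
    apply Real.le_sqrt_of_sq_le; linarith
  have s4 : (32 : ℝ) ≤ Real.sqrt A' := by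
    apply Real.le_sqrt_of_sq_le; linarith
  have hYl : Y ≤ 32 * E * Real.sqrt A := by
    refine hY.trans ?_
    nlinarith
  have hlight := I.num_light C0 E hB' t Y hYl
  have k4 : E * Real.sqrt (1 + A + 1) ≤ E * (1.04 * Real.sqrt A') :=
    mul_le_mul_of_nonneg_left s2 (by linarith)
  have k5 : 1 * 32 ≤ E * Real.sqrt A' := mul_le_mul hE1 s4 (by norm_num) (by linarith)
  nlinarith

end Inst
end P262F
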