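import Vale.Agent.P262F.R6c
import Vale.Agent.P262F.R7

/-!
P262, module R6i: existence of the step data (`exists_ctx`) and the invariants after one step
(`inv_of_ctx`).
-/

open scoped BigOperators
open Classical

namespace P262F
namespace Inst

variable {W J : Type} [Fintype W] [Fintype J]
variable {I : Inst W J} {C0 : ℕ} {E : ℝ} {t T : ℕ} {c q c' : W → ℕ} {tl : ℕ → W → ℝ}
  {F : ℕ → J → ℝ}

theorem lev_pow_r6i (I : Inst W J) (C0 t : ℕ) :
    (2 : ℝ) ^ (-(I.lev C0 t : ℤ)) / 2 ^ I.Lam C0 t = (2 : ℝ) ^ (-(I.lev C0 (t + 1) : ℤ)) := by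
  rw [I.lev_succ C0 t, div_eq_mul_inv, ← zpow_natCast, ← zpow_neg,
    ← zpow_add₀ (by norm_num : (2 : ℝ) ≠ 0)]
  congr 1
  push_cast
  ring

theorem pow_lev_r6i (I : Inst W J) (C0 t : ℕ) :
    2 ^ I.lev C0 t * 2 ^ I.Lam C0 t = 2 ^ I.lev C0 (t + 1) := by
  rw [I.lev_succ C0 t, pow_add]

theorem HH_nonneg_r6i (hE : 0 ≤ E) (β γ : ℤ) (t : ℕ) : 0 ≤ I.HH C0 E β γ t := by
  unfold HH
  positivity

theorem sqrt_Nn_le_r6i (I : Inst W J) (C0 : ℕ) (β : ℤ) (t : ℕ) :
    Real.sqrt (I.Nn C0 β t) ≤ 3 / 2 * Real.sqrt (I.Nn C0 β (t + 1)) := by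
  have h0 : 0 ≤ I.Nn C0 β (t + 1) := by
    have := I.Nn_ge C0 β (t + 1)
    have h : (0 : ℝ) ≤ C0 := Nat.cast_nonneg _
    linarith
  rw [show (3 / 2 : ℝ) * Real.sqrt (I.Nn C0 β (t + 1)) =
    Real.sqrt ((3 / 2) ^ 2 * I.Nn C0 β (t + 1)) by
      rw [Real.sqrt_mul (by norm_num), Real.sqrt_sq (by norm_num)]]
  apply Real.sqrt_le_sqrt
  have := I.Nn_le_succ C0 β t
  linarith

theorem exists_ctx (hB : Big E C0) (hI : I.Inv C0 E t T c)
    (hq : ∃ q : W → ℕ, (∀ w, q w / 2 ^ (I.Lam C0 t + 1) = c w) ∧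
      ∀ r, ∀ i : ℕ, i ≤ 2 ^ (I.Lam C0 t + 1) → I.Ctl C0 E t T
        (fun w => ind (fun w => c w = r ∧ q w < 2 ^ (I.Lam C0 t + 1) * r + i) w
          - (i : ℝ) / 2 ^ (I.Lam C0 t + 1) * ind (fun w => c w = r) w))
    (hc' : ∀ (m : ℕ) (_ : 1 ≤ m) (q : W → ℕ) (_ : ∀ w, q w < 2 * m) (tl : ℕ → W → ℝ)
      (_ : ∀ j w, |tl j w| ≤ 1 / 2),
      ∃ c' : W → ℕ, (∀ w, c' w < m) ∧ (∀ w, q w ≤ 2 * c' w + 2) ∧ (∀ w, 2 * c' w ≤ q w + 1) ∧
      ∀ j, 1 ≤ j → j < m → I.Ctl C0 E t T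
        (fun w => ind (fun w => inU q j w ∧ c' w < j) w - ind (inU q j) w * (1 / 2 + tl j w))) :
    ∃ (q c' : W → ℕ) (tl : ℕ → W → ℝ) (F : ℕ → J → ℝ), I.StepCtx C0 E t T c q c' tl F := by
  have hE0 : 0 ≤ E := by have := hB.1; linarith
  obtain ⟨q, hq1, hq2⟩ := hq
  have hQ : QData (2 ^ I.lev C0 t) (I.Lam C0 t) c q := ⟨hI.i0, hq1⟩
  set m : ℕ := 2 ^ I.lev C0 t * 2 ^ I.Lam C0 t with hm
  have hm1 : 1 ≤ m := Nat.one_le_iff_ne_zero.mpr (by positivity)
  have hqm : ∀ w, q w < 2 * m := by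
    intro w
    have h1 := hI.i0 w
    have h2 := hq1 w
    have h3 : q w / 2 ^ (I.Lam C0 t + 1) < 2 ^ I.lev C0 t := by rw [h2]; exact h1
    rw [Nat.div_lt_iff_lt_mul (by positivity)] at h3
    calc q w < 2 ^ I.lev C0 t * 2 ^ (I.Lam C0 t + 1) := h3
      _ = 2 * m := by rw [hm, pow_succ]; ring
  let F : ℕ → J → ℝ := fun j l => 1 / 2 * (I.vs (ind (fun w => q w < 2 * j - 1)) l
        + I.vs (ind (fun w => q w < 2 * j + 1)) l)
  have hT : ∀ j, 1 ≤ j → j < m → I.TiltHyp C0 E t (inU q j) (F j) := by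
    intro j h1 h2
    refine ⟨?_, ?_⟩
    · intro β hβ
      have hβt := I.thick_of_succ C0 hβ
      have hC1 : 1 ≤ C0 := by have := hB.2.1; omega
      have hβf := I.not_frozen_of_thick C0 hC1 hβt
      have hp : QSemi (2 ^ I.lev C0 t) (I.Lam C0 t) c q (I.semiV β)
          (E * Real.sqrt (I.Nn C0 β t)) := by
        refine ⟨mul_nonneg hE0 (Real.sqrt_nonneg _), ?_⟩
        intro r _ i hi
        have h3 := (hq2 r i hi).1 β
        rw [I.ls_eq_vs C0 hβf, I.sg_eq_one C0 hβf, mul_one] at h3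
        exact h3
      have hX : ∀ r, I.semiV β (ind (fun w => c w < r)) ≤ 2 * E * Real.sqrt (I.Nn C0 β t) :=
        fun r => hI.i1 β hβt r
      have a1 := semi_prefix_q hQ hp _ hX (2 * j - 1)
      have a2 := semi_prefix_q hQ hp _ hX (2 * j + 1)
      rw [semiV_apply] at a1 a2
      have a3 : I.bn β (F j) ≤ 1 / 2 * (I.bn β (I.vs (ind (fun w => q w < 2 * j - 1)))
          + I.bn β (I.vs (ind (fun w => q w < 2 * j + 1)))) := by
        have e1 := I.bn_smul_r6b β (1 / 2) (fun l => I.vs (ind (fun w => q w < 2 * j - 1)) l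
            + I.vs (ind (fun w => q w < 2 * j + 1)) l)
        have e2 := I.bn_add_le' β (I.vs (ind (fun w => q w < 2 * j - 1)))
          (I.vs (ind (fun w => q w < 2 * j + 1)))
        have e3 : |(1 / 2 : ℝ)| = 1 / 2 := abs_of_pos (by norm_num)
        rw [e3] at e1
        calc I.bn β (F j) = 1 / 2 * I.bn β (fun l => I.vs (ind (fun w => q w < 2 * j - 1)) l
            + I.vs (ind (fun w => q w < 2 * j + 1)) l) := e1
          _ ≤ _ := mul_le_mul_of_nonneg_left e2 (by norm_num)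
      linarith
    · intro β γ hβ hγ
      have hp : QSemi (2 ^ I.lev C0 t) (I.Lam C0 t) c q (I.semiM β γ)
          (E * Real.sqrt (I.N2 C0 β γ t)) := by
        refine ⟨mul_nonneg hE0 (Real.sqrt_nonneg _), ?_⟩
        intro r _ i hi
        exact (hq2 r i hi).2.1 β γ hβ hγ
      have a1 := semi_U hQ hp (fun _ => (2 : ℝ) ^ (-(I.lev C0 t : ℤ))) (I.HH C0 E β γ t)
        (fun r hr => hI.i3 β γ hβ hγ r hr) j h1 h2
      simp only [lev_pow_r6i] at a1
      have a2 := I.HH_succ C0 E hE0 hB.2.1 β γ t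
      have a3 : 0 ≤ E * Real.sqrt (I.N2 C0 β γ t) := mul_nonneg hE0 (Real.sqrt_nonneg _)
      have a4 : 0 ≤ I.HH C0 E β γ (t + 1) := HH_nonneg_r6i hE0 β γ (t + 1)
      rw [semiM_apply] at a1
      linarith
  let tl : ℕ → W → ℝ := fun j w => if 1 ≤ j ∧ j < m then I.tilt C0 t (F j) w else 0
  have htl : ∀ j w, |tl j w| ≤ 1 / 2 := by
    intro j w
    change |if 1 ≤ j ∧ j < m then I.tilt C0 t (F j) w else 0| ≤ 1 / 2
    split_ifs with h
    · exact tilt_le_half hB (hT j h.1 h.2) w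
    · norm_num
  obtain ⟨c', h1, h2, h3, h4⟩ := hc' m hm1 q hqm tl htl
  refine ⟨q, c', tl, F, hQ, ⟨h1, h2, h3⟩, hq2, h4, fun j l => rfl, ?_, hT⟩
  intro j hj1 hj2 w
  change (if 1 ≤ j ∧ j < m then I.tilt C0 t (F j) w else 0) = I.tilt C0 t (F j) w
  rw [if_pos ⟨hj1, hj2⟩]

/-- pieces, zero reference function -/
theorem semi_piece0 {m Λ : ℕ} {e τ : ℝ} {p : Seminorm ℝ (W → ℝ)}
    (hQ : QData m Λ c q) (hp : QSemi m Λ c q p e) (hD : StepData m Λ q c')
    (hS : StepSemi m Λ q c' tl p e τ) (X : ℝ)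
    (hX : ∀ r, r < m → p (ind (fun w => c w = r)) ≤ X) (j : ℕ) (hj : j < m * 2 ^ Λ) :
    p (ind (fun w => c' w = j)) ≤ X / 2 ^ Λ + 6 * e + 2 * τ := by
  have h := semi_piece hQ hp hD hS (fun _ => 0) X
    (by intro r hr; simpa only [sub_zero] using hX r hr) j hj
  simpa only [zero_div, sub_zero] using h

/-- `U_j`, zero reference function -/
theorem semi_U0 {m Λ : ℕ} {e : ℝ} {p : Seminorm ℝ (W → ℝ)}
    (hQ : QData m Λ c q) (hp : QSemi m Λ c q p e) (X : ℝ)
    (hX : ∀ r, r < m → p (ind (fun w => c w = r)) ≤ X) (j : ℕ) (h1 : 1 ≤ j) (hj : j < m * 2 ^ Λ) :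
    p (ind (inU q j)) ≤ X / 2 ^ Λ + 4 * e := by
  have h := semi_U hQ hp (fun _ => 0) X
    (by intro r hr; simpa only [sub_zero] using hX r hr) j h1 hj
  simpa only [zero_div, sub_zero] using h

theorem ts_ind_nonneg_r6i (I : Inst W J) (C0 κ : ℕ) (U : W → Prop) : 0 ≤ I.ts C0 κ (ind U) :=
  Finset.sum_nonneg (fun w _ => mul_nonneg (ind_nonneg_r5b U w) (I.tau_nonneg C0 κ w))

/-- truncated loads after the step -/
theorem StepCtx.load (h : I.StepCtx C0 E t T c q c' tl F) (hB : Big E C0) (hI : I.Inv C0 E t T c)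
    {κ : ℕ} (h1 : t < κ) (h2 : κ ≤ T) (r : ℕ) (hr : r < 2 ^ I.lev C0 t * 2 ^ I.Lam C0 t) :
    I.ts C0 κ (ind (fun w => c' w = r)) ≤
      (1 + (1 / 4 : ℝ) ^ (κ - t)) * (2 : ℝ) ^ ((I.lev C0 κ : ℤ) - I.lev C0 t) / 2 ^ (I.Lam C0 t)
      + 6 * (E * 2 ^ (κ - t) * Real.sqrt (1 + I.alt C0 t + ((κ : ℝ) - t)))
      + 2 * ((2 : ℝ) ^ (-(I.alt C0 (t + 1) : ℝ) / 16) * Real.sqrt
        ((1 + (1 / 4 : ℝ) ^ (κ - t)) * (2 : ℝ) ^ ((I.lev C0 κ : ℤ) - I.lev C0 t) / 2 ^ (I.Lam C0 t)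
      + 4 * (E * 2 ^ (κ - t) * Real.sqrt (1 + I.alt C0 t + ((κ : ℝ) - t))))) := by
  have hE0 : 0 ≤ E := by have := hB.1; linarith
  have hX : ∀ r, r < 2 ^ I.lev C0 t → I.semiT C0 κ (ind (fun w => c w = r)) ≤
      (1 + (1 / 4 : ℝ) ^ (κ - t)) * (2 : ℝ) ^ ((I.lev C0 κ : ℤ) - I.lev C0 t) := by
    intro r _
    rw [semiT_apply, abs_of_nonneg (ts_ind_nonneg_r6i I C0 κ _)]
    exact hI.i4 κ h1 h2 r
  have hq := h.qT hE0 h1 h2
  have hτ : ∀ j, 1 ≤ j → j < 2 ^ I.lev C0 t * 2 ^ I.Lam C0 t →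
      |I.ts C0 κ (fun w => ind (inU q j) w * tl j w)| ≤
      (2 : ℝ) ^ (-(I.alt C0 (t + 1) : ℝ) / 16) * Real.sqrt
        ((1 + (1 / 4 : ℝ) ^ (κ - t)) * (2 : ℝ) ^ ((I.lev C0 κ : ℤ) - I.lev C0 t) / 2 ^ (I.Lam C0 t)
      + 4 * (E * 2 ^ (κ - t) * Real.sqrt (1 + I.alt C0 t + ((κ : ℝ) - t)))) := by
    intro j hj1 hj2
    rw [h.tl_eq hj1 hj2]
    refine (tilt_ts hB (h.hT j hj1 hj2) κ).trans ?_
    refine mul_le_mul_of_nonneg_left (Real.sqrt_le_sqrt ?_) (by positivity)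
    have h3 := semi_U0 h.hQ hq _ hX j hj1 hj2
    rw [semiT_apply] at h3
    exact (le_abs_self _).trans h3
  have hS := h.sT h1 h2 (by positivity) hτ
  have h4 := semi_piece0 h.hQ hq h.hD hS _ hX r hr
  rw [semiT_apply] at h4
  exact (le_abs_self _).trans h4

theorem inv_of_ctx (hB : Big E C0) (ht : t < T) (hI : I.Inv C0 E t T c)
    (h : I.StepCtx C0 E t T c q c' tl F) : I.Inv C0 E (t + 1) T c' := by
  have hE1 : 1 ≤ E := hB.1
  have hE0 : 0 ≤ E := by linarith
  have hC64 : 64 ≤ C0 := hB.2.1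
  have hC1 : 1 ≤ C0 := by omega
  have hm := pow_lev_r6i I C0 t
  refine ⟨?_, ?_, ?_, ?_, ?_⟩
  · intro w
    rw [← hm]
    exact h.hD.hlt w
  · -- thick blocks
    intro β hβ r
    have hβt := I.thick_of_succ C0 hβ
    have hβf := I.not_frozen_of_thick C0 hC1 hβt
    have hsN := Real.sqrt_nonneg (I.Nn C0 β (t + 1))
    rcases Nat.eq_zero_or_pos r with hr0 | hr1
    · have e1 : I.bn β (I.vs (ind (fun w => c' w < r))) = 0 := by
        refine I.bn_zero' (fun j _ => ?_)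
        unfold vs
        refine Finset.sum_eq_zero (fun w _ => ?_)
        have : ¬ c' w < r := by omega
        unfold ind
        rw [if_neg this, zero_mul]
      rw [e1]
      positivity
    · rcases lt_or_ge r (2 ^ I.lev C0 t * 2 ^ I.Lam C0 t) with hrm | hrm
      · have e1 : ∀ l, I.vs (ind (fun w => c' w < r)) l =
            (F r l + I.vs (fun w => ind (inU q r) w * tl r w) l)
            + I.vs (fun w => ind (fun w => inU q r w ∧ c' w < r) w
                - ind (inU q r) w * (1 / 2 + tl r w)) l := by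
          intro l
          rw [h.hF r l]
          unfold vs
          rw [mul_add, Finset.mul_sum, Finset.mul_sum, ← Finset.sum_add_distrib,
            ← Finset.sum_add_distrib, ← Finset.sum_add_distrib]
          refine Finset.sum_congr rfl (fun w _ => ?_)
          rw [prefix_formula tl h.hQ h.hD r hr1 hrm w]
          ring
        have e2 : I.bn β (I.vs (ind (fun w => c' w < r))) ≤
            I.bn β (fun l => F r l + I.vs (fun w => ind (inU q r) w * tl r w) l)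
            + I.bn β (I.vs (fun w => ind (fun w => inU q r w ∧ c' w < r) w
                - ind (inU q r) w * (1 / 2 + tl r w))) := by
          rw [I.bn_congr' (fun l _ => e1 l)]
          exact I.bn_add_le' β _ _
        have e3 : I.bn β (fun l => F r l + I.vs (fun w => ind (inU q r) w * tl r w) l) ≤
            1 / 2 * Real.sqrt (I.Nn C0 β (t + 1)) := by
          have a1 := tilt_raw hB (h.hT r hr1 hrm) β hβf
          rw [← h.tl_eq hr1 hrm] at a1
          refine le_trans (le_of_eq ?_) a1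
          refine I.bn_congr' (fun l hl => ?_)
          rw [if_pos (by rw [hl]; exact hβ)]
          ring
        have e4 : I.bn β (I.vs (fun w => ind (fun w => inU q r w ∧ c' w < r) w
                - ind (inU q r) w * (1 / 2 + tl r w))) ≤ E * Real.sqrt (I.Nn C0 β t) := by
          have a1 := (h.hc' r hr1 hrm).1 β
          rw [I.ls_eq_vs C0 hβf, I.sg_eq_one C0 hβf, mul_one] at a1
          exact a1
        have e5 := sqrt_Nn_le_r6i I C0 β t
        have e6 : E * Real.sqrt (I.Nn C0 β t) ≤ E * (3 / 2 * Real.sqrt (I.Nn C0 β (t + 1))) :=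
          mul_le_mul_of_nonneg_left e5 hE0
        nlinarith
      · have e1 : I.bn β (I.vs (ind (fun w => c' w < r))) = 0 := by
          refine I.bn_zero' (fun j _ => ?_)
          have : ∀ w, ind (fun w => c' w < r) w = 1 := by
            intro w
            have h1 := h.hD.hlt w
            unfold ind
            rw [if_pos (by omega)]
          unfold vs
          simp only [this, one_mul]
          exact I.hsum j
        rw [e1]
        positivity
  · -- second moments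
    intro β γ hβ hγ r hr
    have hβt : ¬ I.frozen C0 β t := fun h0 => hβ (I.frozen_succ C0 h0)
    have hγt : ¬ I.frozen C0 γ t := fun h0 => hγ (I.frozen_succ C0 h0)
    have hτ : ∀ j, 1 ≤ j → j < 2 ^ I.lev C0 t * 2 ^ I.Lam C0 t →
        I.bn2 β γ (I.ms (fun w => ind (inU q j) w * tl j w)) ≤ 1 / 8 * I.HH C0 E β γ (t + 1) := by
      intro j hj1 hj2
      rw [h.tl_eq hj1 hj2]
      exact tilt_ms hB (h.hT j hj1 hj2) β γ hβt hγt
    have hHH0 : 0 ≤ I.HH C0 E β γ (t + 1) := HH_nonneg_r6i hE0 β γ (t + 1)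
    have hS := h.sM hβt hγt (by positivity) hτ
    have a1 := semi_piece h.hQ (h.qM hE0 hβt hγt) h.hD hS
      (fun _ => (2 : ℝ) ^ (-(I.lev C0 t : ℤ))) (I.HH C0 E β γ t)
      (fun r hr => hI.i3 β γ hβt hγt r hr) r (by rw [hm]; exact hr)
    simp only [lev_pow_r6i] at a1
    rw [semiM_apply] at a1
    have a2 := I.HH_succ C0 E hE0 hC64 β γ t
    linarith
  · -- later loads
    intro κ hκ1 hκ2 r
    rcases lt_or_ge r (2 ^ I.lev C0 t * 2 ^ I.Lam C0 t) with hrm | hrm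
    · have a1 := h.load hB hI (by omega : t < κ) hκ2 r hrm
      refine a1.trans (num_load I C0 E hB t κ (by omega) _ ?_ le_rfl)
      have h0 : (0 : ℝ) ≤ (κ : ℝ) - t := by
        have : (t : ℝ) < κ := by exact_mod_cast (by omega : t < κ)
        linarith
      positivity
    · have e1 : I.ts C0 κ (ind (fun w => c' w = r)) = 0 := by
        unfold ts
        refine Finset.sum_eq_zero (fun w _ => ?_)
        have h1 := h.hD.hlt w
        have : ¬ c' w = r := by omega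
        unfold ind
        rw [if_neg this, zero_mul]
      rw [e1]
      positivity
  · -- the load at time t + 1
    intro r
    rcases lt_or_ge r (2 ^ I.lev C0 t * 2 ^ I.Lam C0 t) with hrm | hrm
    · have a1 := h.load hB hI (Nat.lt_succ_self t) ht r hrm
      have e1 : t + 1 - t = 1 := by omega
      have e2 : (((t + 1 : ℕ) : ℝ) - t) = 1 := by push_cast; ring
      rw [Nat.succ_eq_add_one] at a1
      rw [e1, e2] at a1
      refine a1.trans (num_load_one I C0 E hB t _ ?_ le_rfl)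
      positivity
    · have e1 : I.ts C0 (t + 1) (ind (fun w => c' w = r)) = 0 := by
        unfold ts
        refine Finset.sum_eq_zero (fun w _ => ?_)
        have h1 := h.hD.hlt w
        have : ¬ c' w = r := by omega
        unfold ind
        rw [if_neg this, zero_mul]
      rw [e1]
      positivity

end Inst
end P262F
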