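import Vale.Agent.P262F.R6i

/-!
P262, module R6s: the relation `StepRel` from the data of one step.
-/

open scoped BigOperators
open Classical

namespace P262F
namespace Inst

variable {W J : Type} [Fintype W] [Fintype J]
variable {I : Inst W J} {C0 : ℕ} {E : ℝ} {t T : ℕ} {c q c' : W → ℕ} {tl : ℕ → W → ℝ}
  {F : ℕ → J → ℝ}

theorem one_le_sqrt_Nn_r6s (hC : 64 ≤ C0) (β : ℤ) (t : ℕ) :
    1 ≤ Real.sqrt (I.Nn C0 β t) := by
  rw [Real.one_le_sqrt]
  have h1 := I.Nn_ge C0 β t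
  have h2 : (64 : ℝ) ≤ C0 := by exact_mod_cast hC
  linarith

/-- load of `U_j` at time `t` -/
theorem StepCtx.loadU (h : I.StepCtx C0 E t T c q c' tl F) (hI : I.Inv C0 E t T c) (j : ℕ)
    (h1 : 1 ≤ j) : I.ts C0 t (ind (inU q j)) ≤ 32 * E * Real.sqrt (I.alt C0 t) := by
  have a1 := hI.i5 ((2 * j - 1) / 2 ^ (I.Lam C0 t + 1))
  have a2 := hI.i5 (2 * j / 2 ^ (I.Lam C0 t + 1))
  have a3 : I.ts C0 t (ind (inU q j)) ≤
      I.ts C0 t (ind (fun w => c w = (2 * j - 1) / 2 ^ (I.Lam C0 t + 1)))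
      + I.ts C0 t (ind (fun w => c w = 2 * j / 2 ^ (I.Lam C0 t + 1))) := by
    unfold ts
    rw [← Finset.sum_add_distrib]
    refine Finset.sum_le_sum (fun w _ => ?_)
    rw [← add_mul]
    refine mul_le_mul_of_nonneg_right ?_ (I.tau_nonneg C0 t w)
    have b1 := ind_nonneg_r5b (fun w => c w = (2 * j - 1) / 2 ^ (I.Lam C0 t + 1)) w
    have b2 := ind_nonneg_r5b (fun w => c w = 2 * j / 2 ^ (I.Lam C0 t + 1)) w
    by_cases hw : inU q j w
    · have e0 : ind (inU q j) w = 1 := by unfold ind; rw [if_pos hw]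
      rw [e0]
      rcases inU_piece h.hQ j h1 w hw with h2 | h2
      · have e1 : ind (fun w => c w = (2 * j - 1) / 2 ^ (I.Lam C0 t + 1)) w = 1 := by
          unfold ind; rw [if_pos h2]
        rw [e1]; linarith
      · have e1 : ind (fun w => c w = 2 * j / 2 ^ (I.Lam C0 t + 1)) w = 1 := by
          unfold ind; rw [if_pos h2]
        rw [e1]; linarith
    · have e0 : ind (inU q j) w = 0 := by unfold ind; rw [if_neg hw]
      rw [e0]
      linarith
  linarith

theorem rel_of_ctx (hB : Big E C0) (hI : I.Inv C0 E t T c)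
    (h : I.StepCtx C0 E t T c q c' tl F) : I.StepRel C0 E t c c' := by
  have hE1 : 1 ≤ E := hB.1
  have hE0 : 0 ≤ E := by linarith
  have hC64 : 64 ≤ C0 := hB.2.1
  have hlight : ∀ β, I.frozen C0 β t → ∀ j, 1 ≤ j → j < 2 ^ I.lev C0 t * 2 ^ I.Lam C0 t →
      I.bn β (I.ls C0 t (fun w => ind (inU q j) w * tl j w)) ≤ I.sg C0 β t * (1 / 2) := by
    intro β hβ j h1 h2
    rw [h.tl_eq h1 h2]
    refine (tilt_light hB (h.hT j h1 h2) β hβ).trans ?_
    rw [mul_assoc]
    refine mul_le_mul_of_nonneg_left ?_ (I.sg_pos C0 β t).le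
    exact num_light I C0 E hB t _ (h.loadU hI j h1)
  have hsgE : ∀ β, I.sg C0 β t ≤ E * I.sg C0 β t * Real.sqrt (I.Nn C0 β t) := by
    intro β
    have a1 := one_le_sqrt_Nn_r6s (I := I) hC64 β t
    have a2 := (I.sg_pos C0 β t).le
    have a3 : I.sg C0 β t ≤ E * I.sg C0 β t := by nlinarith
    have a4 : 0 ≤ E * I.sg C0 β t := mul_nonneg hE0 a2
    nlinarith
  refine ⟨?_, ?_, ?_, ?_⟩
  · intro β hβ hβ' R hR j
    have hτ : ∀ j, 1 ≤ j → j < 2 ^ I.lev C0 t * 2 ^ I.Lam C0 t →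
        I.bn β (I.vs (fun w => ind (inU q j) w * tl j w)) ≤ E * Real.sqrt (I.Nn C0 β t) := by
      intro j h1 h2
      rw [h.tl_eq h1 h2]
      have a1 := tilt_raw hB (h.hT j h1 h2) β hβ
      have a2 : I.bn β (I.vs (fun w => ind (inU q j) w * I.tilt C0 t (F j) w)) =
          I.bn β (fun l => I.vs (fun w => ind (inU q j) w * I.tilt C0 t (F j) w) l
            + if I.thick C0 (I.b l) (t + 1) then F j l else 0) := by
        refine I.bn_congr' (fun l hl => ?_)
        rw [if_neg (by rw [hl]; exact hβ'), add_zero]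
      rw [a2]
      refine a1.trans ?_
      have a3 : Real.sqrt (I.Nn C0 β (t + 1)) ≤ 2 * Real.sqrt (I.Nn C0 β t) := by
        have a4 := I.Nn_succ_le C0 β t
        have a5 := I.Nn_ge C0 β t
        have a6 : (64 : ℝ) ≤ C0 := by exact_mod_cast hC64
        rw [show (2 : ℝ) * Real.sqrt (I.Nn C0 β t) = Real.sqrt (2 ^ 2 * I.Nn C0 β t) by
          rw [Real.sqrt_mul (by norm_num), Real.sqrt_sq (by norm_num)]]
        apply Real.sqrt_le_sqrt
        linarith
      have a7 := Real.sqrt_nonneg (I.Nn C0 β t)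
      nlinarith
    have hS := h.sV hβ (mul_nonneg hE0 (Real.sqrt_nonneg _)) hτ
    have a1 := semi_prefix h.hQ (h.qV hE0 hβ) h.hD hS R (fun r => hR r) j
    rw [semiV_apply] at a1
    linarith
  · intro β hβ X hX j
    have hX0 : 0 ≤ X := (Real.sqrt_nonneg _).trans (hX 0)
    have he : 0 ≤ E * I.sg C0 β t * Real.sqrt (I.Nn C0 β t) :=
      mul_nonneg (mul_nonneg hE0 (I.sg_pos C0 β t).le) (Real.sqrt_nonneg _)
    rcases lt_or_ge j (2 ^ I.lev C0 t * 2 ^ I.Lam C0 t) with hj | hj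
    · have hS := h.sL β (mul_nonneg (I.sg_pos C0 β t).le (by norm_num)) (hlight β hβ)
      have a1 := semi_piece0 h.hQ (h.qL hE0 β) h.hD hS X (fun r _ => hX r) j hj
      rw [semiL_apply] at a1
      have a2 := hsgE β
      linarith
    · have e1 : I.bn β (I.ls C0 t (ind (fun w => c' w = j))) = 0 := by
        refine I.bn_zero' (fun l _ => ?_)
        unfold ls
        refine Finset.sum_eq_zero (fun w _ => ?_)
        have h1 := h.hD.hlt w
        have : ¬ c' w = j := by omega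
        unfold ind
        rw [if_neg this, zero_mul]
      rw [e1]
      have : 0 ≤ X / 2 ^ I.Lam C0 t := by positivity
      linarith
  · intro β hβ X hX j
    have hX0 : 0 ≤ X := (Real.sqrt_nonneg _).trans (hX 0)
    have hS := h.sL β (mul_nonneg (I.sg_pos C0 β t).le (by norm_num)) (hlight β hβ)
    have a1 := semi_diff h.hQ (h.qL hE0 β) h.hD hS X hX0 (fun r _ => hX r) j
    rw [semiL_apply] at a1
    have a2 := hsgE β
    have a3 := (I.sg_pos C0 β t).le
    linarith
  · intro w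
    exact ⟨q w, h.hQ.hq w, h.hD.h1 w, h.hD.h2 w⟩

end Inst
end P262F
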