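import Vale.Agent.P262F.R1
import Vale.Agent.P262F.R2
import Vale.Agent.P262F.R4
import Vale.Agent.P262F.R5b
import Vale.Agent.P262F.R6a
import Vale.Agent.P262F.R6b
import Vale.Agent.P262F.R6c
import Vale.Agent.P262F.R6i
import Vale.Agent.P262F.R6s

open scoped BigOperators
open Classical

namespace P262F
namespace Inst

variable {W J : Type} [Fintype W] [Fintype J]

/-- ONE STEP -/
theorem step (I : Inst W J) (C0 : ℕ) (E : ℝ) (hB : Big E C0) (t T : ℕ) (ht : t < T)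
    (hE : I.EngineFor C0 E t T) (c : W → ℕ) (hI : I.Inv C0 E t T c) :
    ∃ c' : W → ℕ, I.Inv C0 E (t + 1) T c' ∧ I.StepRel C0 E t c c' := by
  obtain ⟨q, c', tl, F, h⟩ := exists_ctx hB hI (exists_q I C0 E t T hE c)
    (exists_c' I C0 E t T hE)
  exact ⟨c', inv_of_ctx hB ht hI h, rel_of_ctx hB hI h⟩

/-- the whole run -/
theorem run (I : Inst W J) (C0 : ℕ) (E : ℝ) (hB : Big E C0) (T : ℕ)
    (hE : ∀ t, I.EngineFor C0 E t T) :
    ∃ c : ℕ → W → ℕ, c 0 = (fun _ => 0) ∧ (∀ t, t ≤ T → I.Inv C0 E t T (c t)) ∧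
      ∀ t, t < T → I.StepRel C0 E t (c t) (c (t + 1)) :=
  run_of_step I C0 E T (inv_zero I C0 E hB.1 hB.2.1 T)
    (fun t ht c hI => step I C0 E hB t T ht (hE t) c hI)

end Inst
end P262F
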