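import Vale.Agent.P262F.RDefs

/-!
# P262F.R8s: the sum of the block costs
-/

open scoped BigOperators
open Classical

namespace P262F
namespace Inst

variable {W J : Type} [Fintype W] [Fintype J]

namespace R8s

/-- `∑_β (A - |β - γ|)_+ ≤ A^2`. -/
theorem sum_tent (B : Finset ℤ) (γ : ℤ) (A : ℕ) :
    ∑ β ∈ B, ((A : ℤ) - |β - γ|).toNat ≤ A ^ 2 := by
  induction A with
  | zero =>
    have : ∀ β ∈ B, (((0 : ℕ) : ℤ) - |β - γ|).toNat = 0 := by
      intro β _
      have := abs_nonneg (β - γ)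
      omega
    rw [Finset.sum_congr rfl this]
    simp
  | succ A ih =>
    have h1 : ∀ β ∈ B, (((A + 1 : ℕ) : ℤ) - |β - γ|).toNat
        = ((A : ℤ) - |β - γ|).toNat + (if |β - γ| ≤ (A : ℤ) then 1 else 0) := by
      intro β _
      split_ifs with h <;> push_cast <;> omega
    rw [Finset.sum_congr rfl h1, Finset.sum_add_distrib]
    have h2 : ∑ β ∈ B, (if |β - γ| ≤ (A : ℤ) then 1 else 0) ≤ 2 * A + 1 := by
      rw [← Finset.card_filter]
      have h3 : B.filter (fun β => |β - γ| ≤ (A : ℤ)) ⊆ Finset.Icc (γ - A) (γ + A) := by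
        intro β hβ
        rw [Finset.mem_filter] at hβ
        have := abs_le.mp hβ.2
        rw [Finset.mem_Icc]
        omega
      have h4 := Finset.card_le_card h3
      rw [Int.card_Icc] at h4
      omega
    nlinarith

theorem sq_le_two_pow (p : ℕ) : (p + 1) ^ 2 ≤ 4 * 2 ^ p := by
  induction p with
  | zero => norm_num
  | succ p ih =>
    have h : p < 2 ^ p := Nat.lt_two_pow_self
    have h1 : (p + 1 + 1) ^ 2 = (p + 1) ^ 2 + (2 * p + 3) := by ring
    have h2 : 4 * 2 ^ (p + 1) = 4 * 2 ^ p + 4 * 2 ^ p := by ring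
    rw [h1, h2]
    omega

theorem clog_sq (n : ℕ) : (Nat.clog 2 n) ^ 2 ≤ 4 * n := by
  by_cases hn : 1 < n
  · have h := Nat.pow_pred_clog_lt_self (b := 2) (by norm_num) hn
    have hpos : 0 < Nat.clog 2 n := Nat.clog_pos (by norm_num) hn
    have h2 := sq_le_two_pow (Nat.clog 2 n).pred
    have h3 : (Nat.clog 2 n).pred + 1 = Nat.clog 2 n := Nat.succ_pred_eq_of_pos hpos
    rw [h3] at h2
    omega
  · have : Nat.clog 2 n = 0 := Nat.clog_of_right_le_one (by omega) 2
    rw [this]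
    simp

/-- pointwise bound of the scale function -/
theorem al_le (I : Inst W J) (C0 : ℕ) (β : ℤ) :
    I.al C0 β ≤ 16 * C0 +
      ∑ γ ∈ Finset.univ.image I.b, (((32 * Nat.clog 2 (I.nb γ) : ℕ) : ℤ) - |β - γ|).toNat := by
  unfold al
  apply max_le (Nat.le_add_right _ _)
  apply Finset.sup_le
  intro j _
  have h1 : (((32 * Nat.clog 2 (I.nb (I.b j)) : ℕ) : ℤ) - |β - I.b j|).toNat ≤
      ∑ γ ∈ Finset.univ.image I.b, (((32 * Nat.clog 2 (I.nb γ) : ℕ) : ℤ) - |β - γ|).toNat :=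
    Finset.single_le_sum
      (f := fun γ => (((32 * Nat.clog 2 (I.nb γ) : ℕ) : ℤ) - |β - γ|).toNat)
      (fun _ _ => Nat.zero_le _) (Finset.mem_image_of_mem _ (Finset.mem_univ j))
  refine le_trans ?_ (Nat.add_le_add_left h1 _)
  unfold ab
  push_cast
  omega

theorem sum_nb (I : Inst W J) : ∑ β ∈ Finset.univ.image I.b, I.nb β = Fintype.card J := by
  unfold nb
  rw [← Finset.card_univ]
  exact (Finset.card_eq_sum_card_image I.b Finset.univ).symm

end R8s

/-- sum of the block costs -/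
theorem sum_al (I : Inst W J) (C0 : ℕ) (hC : 1 ≤ C0) :
    ∑ β ∈ Finset.univ.image I.b, ((I.nb β : ℝ) + I.al C0 β) ≤
      (10 ^ 4 * (C0 : ℝ) ^ 2) * Fintype.card J := by
  have hcard : (Finset.univ.image I.b).card ≤ Fintype.card J := by
    rw [← Finset.card_univ]
    exact Finset.card_image_le
  have hsum : ∑ β ∈ Finset.univ.image I.b, I.al C0 β ≤
      16 * C0 * Fintype.card J + 4096 * Fintype.card J := by
    calc ∑ β ∈ Finset.univ.image I.b, I.al C0 β
        ≤ ∑ β ∈ Finset.univ.image I.b, (16 * C0 +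
            ∑ γ ∈ Finset.univ.image I.b,
              (((32 * Nat.clog 2 (I.nb γ) : ℕ) : ℤ) - |β - γ|).toNat) :=
          Finset.sum_le_sum (fun β _ => R8s.al_le I C0 β)
      _ = 16 * C0 * (Finset.univ.image I.b).card +
            ∑ γ ∈ Finset.univ.image I.b, ∑ β ∈ Finset.univ.image I.b,
              (((32 * Nat.clog 2 (I.nb γ) : ℕ) : ℤ) - |β - γ|).toNat := by
          rw [Finset.sum_add_distrib, Finset.sum_const, Finset.sum_comm, smul_eq_mul]
          ring
      _ ≤ 16 * C0 * Fintype.card J + ∑ γ ∈ Finset.univ.image I.b, 4096 * I.nb γ := by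
          apply Nat.add_le_add
          · exact Nat.mul_le_mul_left _ hcard
          · apply Finset.sum_le_sum
            intro γ _
            refine (R8s.sum_tent _ γ _).trans ?_
            have := R8s.clog_sq (I.nb γ)
            calc (32 * Nat.clog 2 (I.nb γ)) ^ 2 = 1024 * (Nat.clog 2 (I.nb γ)) ^ 2 := by ring
              _ ≤ 1024 * (4 * I.nb γ) := Nat.mul_le_mul_left _ this
              _ = 4096 * I.nb γ := by ring
      _ = 16 * C0 * Fintype.card J + 4096 * Fintype.card J := by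
          rw [← Finset.mul_sum, R8s.sum_nb]
  have hR : ∑ β ∈ Finset.univ.image I.b, ((I.nb β : ℝ) + I.al C0 β) =
      ((∑ β ∈ Finset.univ.image I.b, I.nb β : ℕ) : ℝ)
        + ((∑ β ∈ Finset.univ.image I.b, I.al C0 β : ℕ) : ℝ) := by
    push_cast
    rw [Finset.sum_add_distrib]
  rw [hR, R8s.sum_nb]
  have hs : ((∑ β ∈ Finset.univ.image I.b, I.al C0 β : ℕ) : ℝ) ≤
      16 * C0 * Fintype.card J + 4096 * Fintype.card J := by exact_mod_cast hsum
  have hC' : (1 : ℝ) ≤ C0 := by exact_mod_cast hC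
  have hd : (0 : ℝ) ≤ (Fintype.card J : ℝ) := Nat.cast_nonneg _
  have hcoef : (1 : ℝ) + (16 * C0 + 4096) ≤ 10 ^ 4 * (C0 : ℝ) ^ 2 := by nlinarith
  calc (Fintype.card J : ℝ) + ((∑ β ∈ Finset.univ.image I.b, I.al C0 β : ℕ) : ℝ)
      ≤ (1 + (16 * C0 + 4096)) * Fintype.card J := by nlinarith
    _ ≤ (10 ^ 4 * (C0 : ℝ) ^ 2) * Fintype.card J := mul_le_mul_of_nonneg_right hcoef hd

end Inst
end P262F
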