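import Vale.Agent.P262F.R8k
import Vale.Agent.P262F.R8n
import Vale.Agent.P262F.R8s

/-! P262 R8: the bound per block. -/

open scoped BigOperators
open Classical

namespace P262F
namespace Inst

variable {W J : Type} [Fintype W] [Fintype J]

theorem count_piece (I : Inst W J) (C0 : ℕ) {E : ℝ} {t T : ℕ} {c : W → ℕ}
    (hI : I.Inv C0 E t T c) (r : ℕ) (P : W → Prop)
    (hP : ∀ w, P w → c w = r ∧ I.tau C0 t w = 1) :
    ∑ w, ind P w ≤ 16 * E * Real.sqrt (I.alt C0 t) := by
  refine le_trans ?_ (hI.i5 r)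
  unfold ts
  refine Finset.sum_le_sum fun w _ => ?_
  by_cases hw : P w
  · obtain ⟨h1, h2⟩ := hP w hw
    rw [ind, if_pos hw, h2, ind, if_pos h1, mul_one]
  · rw [ind, if_neg hw]
    exact mul_nonneg (ind_nonneg _ _) (I.tau_nonneg C0 t w)

theorem count_near (I : Inst W J) (C0 : ℕ) {E : ℝ} {t T : ℕ} {c : W → ℕ}
    (hI : I.Inv C0 E t T c) (A : ℕ) (P : W → Prop)
    (hP : ∀ w, P w → (A ≤ c w + 2 ∧ c w ≤ A + 1) ∧ I.tau C0 t w = 1) :
    ∑ w, ind P w ≤ 64 * E * Real.sqrt (I.alt C0 t) := by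
  have h1 : ∀ w, ind P w ≤ ∑ x ∈ Finset.range 4, ind (fun w => P w ∧ c w + 2 = A + x) w := by
    intro w
    by_cases hw : P w
    · obtain ⟨⟨h1, h2⟩, h3⟩ := hP w hw
      have hx : c w + 2 - A ∈ Finset.range 4 := by rw [Finset.mem_range]; omega
      have := Finset.single_le_sum (f := fun x => ind (fun w => P w ∧ c w + 2 = A + x) w)
        (fun x _ => ind_nonneg _ _) hx
      refine le_trans ?_ this
      rw [ind, if_pos hw]
      simp only [ind]
      rw [if_pos ⟨hw, by omega⟩]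
    · rw [ind, if_neg hw]
      exact Finset.sum_nonneg fun x _ => ind_nonneg _ _
  have h2 : ∀ x, ∑ w, ind (fun w => P w ∧ c w + 2 = A + x) w ≤ 16 * E * Real.sqrt (I.alt C0 t) := by
    intro x
    refine I.count_piece C0 hI (A + x - 2) _ ?_
    rintro w ⟨hw, hc⟩
    exact ⟨by omega, (hP w hw).2⟩
  calc ∑ w, ind P w ≤ ∑ w, ∑ x ∈ Finset.range 4, ind (fun w => P w ∧ c w + 2 = A + x) w :=
        Finset.sum_le_sum fun w _ => h1 w
    _ = ∑ x ∈ Finset.range 4, ∑ w, ind (fun w => P w ∧ c w + 2 = A + x) w := Finset.sum_comm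
    _ ≤ ∑ x ∈ Finset.range 4, 16 * E * Real.sqrt (I.alt C0 t) :=
        Finset.sum_le_sum fun x _ => h2 x
    _ = 64 * E * Real.sqrt (I.alt C0 t) := by
        rw [Finset.sum_const, Finset.card_range, nsmul_eq_mul]
        push_cast
        ring

theorem count_zero (I : Inst W J) (C0 : ℕ) (hC : 64 ≤ C0) (P : W → Prop)
    (hP : ∀ w, P w → I.tau C0 0 w = 1) : ∑ w, ind P w ≤ 1 := by
  have h := I.tau_total C0 hC 0
  have h0 : (2 : ℝ) ^ (I.lev C0 0) = 1 := by
    show (2 : ℝ) ^ 0 = 1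
    norm_num
  rw [h0] at h
  refine le_trans (Finset.sum_le_sum fun w _ => ?_) h
  by_cases hw : P w
  · rw [ind, if_pos hw, hP w hw]
  · rw [ind, if_neg hw]
    exact I.tau_nonneg C0 0 w

theorem tau_first (I : Inst W J) (C0 : ℕ) {β : ℤ} {tb : ℕ} (hnf : ∀ t, t < tb → ¬ I.frozen C0 β t)
    {w : W} (h : I.drop C0 w β tb) : I.tau C0 tb w = 1 := by
  refine I.tau_of_new_drop C0 h ?_
  cases tb with
  | zero => exact fun h' => h'
  | succ s =>
    intro h'
    exact hnf s (Nat.lt_succ_self s) (I.frozen_of_drop C0 (show I.drop C0 w β s from h'))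

theorem ls_eq (I : Inst W J) (C0 : ℕ) {β : ℤ} (t : ℕ) (ω : W → ℝ) (j : J) (hj : I.b j = β) :
    I.ls C0 t ω j = I.vs ω j - ∑ w, (ω w * ind (fun w => I.drop C0 w β t) w) * I.v w j := by
  unfold ls vs
  rw [← Finset.sum_sub_distrib]
  refine Finset.sum_congr rfl fun w _ => ?_
  unfold lt ind
  rw [hj]
  split_ifs <;> ring

theorem ls_succ (I : Inst W J) (C0 : ℕ) {β : ℤ} (t : ℕ) (ω : W → ℝ) (j : J) (hj : I.b j = β) :
    I.ls C0 (t + 1) ω j = I.ls C0 t ω j -
      ∑ w, (ω w * ind (fun w => I.drop C0 w β (t + 1) ∧ ¬ I.drop C0 w β t) w) * I.v w j := by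
  unfold ls
  rw [← Finset.sum_sub_distrib]
  refine Finset.sum_congr rfl fun w _ => ?_
  unfold lt ind
  rw [hj]
  by_cases h1 : I.drop C0 w β t
  · have h2 : I.drop C0 w β (t + 1) := I.drop_mono C0 (Nat.le_succ t) h1
    simp [h1, h2]
  · by_cases h2 : I.drop C0 w β (t + 1)
    · simp [h1, h2]
    · simp [h1, h2]

omit [Fintype W] in
theorem abs_ind_le (P : W → Prop) (w : W) : |ind P w| ≤ 1 := by
  unfold ind
  split_ifs <;> norm_num

omit [Fintype W] in
theorem abs_ind_sub_le (P Q : W → Prop) (w : W) : |ind P w - ind Q w| ≤ 1 := by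
  unfold ind
  split_ifs <;> norm_num

omit [Fintype W] in
theorem abs_mul_ind_le {x : ℝ} (hx : |x| ≤ 1) (P : W → Prop) (w : W) : |x * ind P w| ≤ 1 := by
  rw [abs_mul]
  calc |x| * |ind P w| ≤ 1 * 1 := mul_le_mul hx (abs_ind_le P w) (abs_nonneg _) zero_le_one
    _ = 1 := one_mul 1

theorem one_le_sqrt_S (I : Inst W J) (C0 : ℕ) (hC : 64 ≤ C0) (β : ℤ) :
    1 ≤ Real.sqrt ((I.nb β : ℝ) + I.al C0 β) := by
  rw [Real.one_le_sqrt]
  have h1 : (16 * C0 : ℕ) ≤ I.al C0 β := I.al_ge C0 β
  have h2 : (1 : ℝ) ≤ I.al C0 β := by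
    have : 1 ≤ I.al C0 β := by omega
    exact_mod_cast this
  have h3 : (0 : ℝ) ≤ I.nb β := Nat.cast_nonneg _
  linarith

theorem count_first_piece (I : Inst W J) (C0 : ℕ) (E : ℝ) (hB : Big E C0) (T : ℕ) (c : ℕ → W → ℕ)
    (hR : I.Run C0 E T c) (β : ℤ) (tb : ℕ) (htb : tb ≤ T)
    (hnf : ∀ t, t < tb → ¬ I.frozen C0 β t) (hf : I.frozen C0 β tb) (r : ℕ) (P : W → Prop)
    (hP : ∀ w, P w → c tb w = r ∧ I.drop C0 w β tb) :
    ∑ w, ind P w ≤ 20 * (E * Real.sqrt ((I.nb β : ℝ) + I.al C0 β)) := by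
  obtain ⟨hE, hC, -⟩ := hB
  have hσ := I.one_le_sqrt_S C0 hC β
  set σ := Real.sqrt ((I.nb β : ℝ) + I.al C0 β) with hσd
  have hEσ : 1 ≤ E * σ := by nlinarith
  cases tb with
  | zero =>
    have := I.count_zero C0 hC P (fun w hw => I.tau_first C0 hnf (hP w hw).2)
    linarith
  | succ s =>
    have h1 := I.count_piece C0 (hR.hInv (s + 1) htb) r P
      (fun w hw => ⟨(hP w hw).1, I.tau_first C0 hnf (hP w hw).2⟩)
    have h2 := I.alt_first C0 hC (hnf s (Nat.lt_succ_self s)) hf
    have h3 := mul_le_mul_of_nonneg_left h2 (show (0 : ℝ) ≤ 16 * E by linarith)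
    refine h1.trans (h3.trans_eq ?_)
    ring

theorem count_first_near (I : Inst W J) (C0 : ℕ) (E : ℝ) (hB : Big E C0) (T : ℕ) (c : ℕ → W → ℕ)
    (hR : I.Run C0 E T c) (β : ℤ) (tb : ℕ) (htb : tb ≤ T)
    (hnf : ∀ t, t < tb → ¬ I.frozen C0 β t) (hf : I.frozen C0 β tb) (A : ℕ) (P : W → Prop)
    (hP : ∀ w, P w → (A ≤ c tb w + 2 ∧ c tb w ≤ A + 1) ∧ I.drop C0 w β tb) :
    ∑ w, ind P w ≤ 80 * (E * Real.sqrt ((I.nb β : ℝ) + I.al C0 β)) := by
  obtain ⟨hE, hC, -⟩ := hB
  have hσ := I.one_le_sqrt_S C0 hC β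
  set σ := Real.sqrt ((I.nb β : ℝ) + I.al C0 β) with hσd
  have hEσ : 1 ≤ E * σ := by nlinarith
  cases tb with
  | zero =>
    have := I.count_zero C0 hC P (fun w hw => I.tau_first C0 hnf (hP w hw).2)
    linarith
  | succ s =>
    have h1 := I.count_near C0 (hR.hInv (s + 1) htb) A P
      (fun w hw => ⟨(hP w hw).1, I.tau_first C0 hnf (hP w hw).2⟩)
    have h2 := I.alt_first C0 hC (hnf s (Nat.lt_succ_self s)) hf
    have h3 := mul_le_mul_of_nonneg_left h2 (show (0 : ℝ) ≤ 64 * E by linarith)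
    refine h1.trans (h3.trans_eq ?_)
    ring

theorem piece_zero (I : Inst W J) (C0 : ℕ) (E : ℝ) (hB : Big E C0) (T : ℕ) (c : ℕ → W → ℕ)
    (hR : I.Run C0 E T c) (β : ℤ) (tb : ℕ) (htb : tb ≤ T)
    (hnf : ∀ t, t < tb → ¬ I.frozen C0 β t) (hf : I.frozen C0 β tb) (r : ℕ) :
    I.bn β (I.ls C0 tb (ind (fun w => c tb w = r))) ≤
      156 * (E * Real.sqrt ((I.nb β : ℝ) + I.al C0 β)) := by
  have hw1 := I.window_bound68 C0 E hB T c hR β tb htb hnf hf r
  have hw2 := I.window_bound68 C0 E hB T c hR β tb htb hnf hf (r + 1)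
  have hc := I.count_first_piece C0 E hB T c hR β tb htb hnf hf r
    (fun w => c tb w = r ∧ I.drop C0 w β tb) (fun w hw => hw)
  set σ := Real.sqrt ((I.nb β : ℝ) + I.al C0 β) with hσd
  have h1 : I.bn β (I.ls C0 tb (ind (fun w => c tb w = r))) =
      I.bn β (fun j => I.vs (ind (fun w => c tb w = r)) j -
        ∑ w, (ind (fun w => c tb w = r) w * ind (fun w => I.drop C0 w β tb) w) * I.v w j) :=
    I.bn_congr' fun j hj => I.ls_eq C0 tb _ j hj
  have h2 : I.vs (ind (fun w => c tb w = r)) =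
      fun j => I.vs (ind (fun w => c tb w < r + 1)) j - I.vs (ind (fun w => c tb w < r)) j := by
    funext j
    rw [← I.vs_sub]
    unfold vs
    refine Finset.sum_congr rfl fun w _ => ?_
    congr 1
    simp only [ind]
    by_cases ha : c tb w < r
    · rw [if_neg (by omega), if_pos (by omega), if_pos ha]; norm_num
    · by_cases hb : c tb w = r
      · rw [if_pos hb, if_pos (by omega), if_neg ha]; norm_num
      · rw [if_neg hb, if_neg (by omega), if_neg ha]; norm_num
  have h3 : I.bn β (I.vs (ind (fun w => c tb w = r))) ≤ 136 * (E * σ) := by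
    rw [h2]
    refine (I.bn_sub_le' β _ _).trans ?_
    linarith
  have h4 : I.bn β (fun j => ∑ w, (ind (fun w => c tb w = r) w *
      ind (fun w => I.drop C0 w β tb) w) * I.v w j) ≤ 20 * (E * σ) := by
    refine (I.bn_weight_le β _ (fun w => abs_mul_ind_le (abs_ind_le _ w) _ w)
      (fun w => c tb w = r ∧ I.drop C0 w β tb) ?_ I.v (s := 1) (fun w _ => I.bn_v_le_one w β)
      zero_le_one).trans ?_
    · intro w hw
      constructor
      · by_contra h
        exact hw (by simp [ind, h])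
      · by_contra h
        exact hw (by simp [ind, h])
    · rw [mul_one]
      exact hc
  rw [h1]
  refine (I.bn_sub_le' β _ _).trans ?_
  linarith

/-- light sums of single pieces decay -/
theorem piece_bound (I : Inst W J) (C0 : ℕ) (E : ℝ) (hB : Big E C0) (T : ℕ) (c : ℕ → W → ℕ)
    (hR : I.Run C0 E T c) (β : ℤ) (tb : ℕ)
    (hnf : ∀ t, t < tb → ¬ I.frozen C0 β t) (hf : I.frozen C0 β tb) (n : ℕ) (hn : tb + n ≤ T) :
    ∀ r, I.bn β (I.ls C0 (tb + n) (ind (fun w => c (tb + n) w = r))) ≤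
      160 * (1 / 2) ^ n * (E * Real.sqrt ((I.nb β : ℝ) + I.al C0 β)) := by
  have hE : 1 ≤ E := hB.1
  have hC : 64 ≤ C0 := hB.2.1
  set σ := Real.sqrt ((I.nb β : ℝ) + I.al C0 β) with hσd
  have hσ : 1 ≤ σ := I.one_le_sqrt_S C0 hC β
  have hEσ : 1 ≤ E * σ := by nlinarith
  induction n with
  | zero =>
    intro r
    have h := I.piece_zero C0 E hB T c hR β tb (by omega) hnf hf r
    rw [add_zero, pow_zero, mul_one]
    refine h.trans ?_
    rw [← hσd]
    linarith
  | succ n ih =>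
    intro r
    have ih' := ih (by omega)
    have hft : I.frozen C0 β (tb + n) := I.frozen_mono C0 (Nat.le_add_right _ _) hf
    have hs5 := (hR.hStep (tb + n) (by omega)).s5 β hft _ ih' r
    have hdec := I.sg_Nn_decay C0 hC hf n
    rw [← hσd] at hdec
    have halt := I.alt_le_Nn C0 β (tb + n)
    have hsg := I.sg_pos C0 β (tb + n)
    have hrw : tb + (n + 1) = tb + n + 1 := by ring
    rw [hrw]
    have hp0 : (0 : ℝ) < (1 / 2) ^ n := by positivity
    -- the piece loses a factor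
    have hL : 64 ≤ I.Lam C0 (tb + n) := hC.trans (I.C0_le_Lam C0 _)
    have hpow : (160 : ℝ) ≤ 2 ^ (I.Lam C0 (tb + n)) := by
      calc (160 : ℝ) ≤ 2 ^ 64 := by norm_num
        _ ≤ 2 ^ (I.Lam C0 (tb + n)) := pow_le_pow_right₀ (by norm_num) hL
    have h1 : 160 * (1 / 2) ^ n * (E * σ) / 2 ^ (I.Lam C0 (tb + n)) ≤ (1 / 2) ^ n * (E * σ) := by
      rw [div_le_iff₀ (by positivity)]
      have h0 : 0 ≤ (1 / 2 : ℝ) ^ n * (E * σ) := by positivity
      nlinarith
    -- new drops
    have hcnt := I.count_piece C0 (hR.hInv (tb + n + 1) (by omega)) r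
      (fun w => c (tb + n + 1) w = r ∧ (I.drop C0 w β (tb + n + 1) ∧ ¬ I.drop C0 w β (tb + n)))
      (fun w hw => ⟨hw.1, I.tau_of_new_drop C0 hw.2.1 hw.2.2⟩)
    have h2 : I.bn β (fun j => ∑ w, (ind (fun w => c (tb + n + 1) w = r) w *
        ind (fun w => I.drop C0 w β (tb + n + 1) ∧ ¬ I.drop C0 w β (tb + n)) w) * I.v w j) ≤
        (16 * E * Real.sqrt (I.alt C0 (tb + n + 1))) * I.sg C0 β (tb + n) := by
      refine (I.bn_weight_le β _ (fun w => abs_mul_ind_le (abs_ind_le _ w) _ w)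
        (fun w => c (tb + n + 1) w = r ∧ (I.drop C0 w β (tb + n + 1) ∧ ¬ I.drop C0 w β (tb + n)))
        ?_ I.v (s := I.sg C0 β (tb + n)) (fun w hw => I.bn_le_sg C0 hft hw.2.2) hsg.le).trans ?_
      · intro w hw
        constructor
        · by_contra h
          exact hw (by simp [ind, h])
        · by_contra h
          exact hw (by rw [ind, ind, if_neg h, mul_zero])
      · exact mul_le_mul_of_nonneg_right hcnt hsg.le
    have h3 : I.bn β (I.ls C0 (tb + n + 1) (ind (fun w => c (tb + n + 1) w = r))) =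
        I.bn β (fun j => I.ls C0 (tb + n) (ind (fun w => c (tb + n + 1) w = r)) j -
          ∑ w, (ind (fun w => c (tb + n + 1) w = r) w *
            ind (fun w => I.drop C0 w β (tb + n + 1) ∧ ¬ I.drop C0 w β (tb + n)) w) * I.v w j) :=
      I.bn_congr' fun j hj => I.ls_succ C0 (tb + n) _ j hj
    rw [h3]
    refine (I.bn_sub_le' β _ _).trans ?_
    have h4 : (16 * E * Real.sqrt (I.alt C0 (tb + n + 1))) * I.sg C0 β (tb + n) ≤
        96 / 5 * E * (I.sg C0 β (tb + n) * Real.sqrt (I.Nn C0 β (tb + n))) := by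
      have := mul_le_mul_of_nonneg_left halt (show 0 ≤ 16 * E * I.sg C0 β (tb + n) by positivity)
      nlinarith
    have h5 : E * (I.sg C0 β (tb + n) * Real.sqrt (I.Nn C0 β (tb + n))) ≤
        3 / 2 * (1 / 2) ^ n * (E * σ) := by
      have := mul_le_mul_of_nonneg_left hdec (show 0 ≤ E by linarith)
      nlinarith
    have h6 : (1 / 2 : ℝ) ^ (n + 1) = 1 / 2 * (1 / 2) ^ n := by rw [pow_succ]; ring
    rw [h6]
    have h7 : 0 ≤ (1 / 2 : ℝ) ^ n * (E * σ) := by positivity
    nlinarith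

/-- the telescoping part: difference between the final prefix and its ancestor -/
theorem diff_bound (I : Inst W J) (C0 : ℕ) (E : ℝ) (hB : Big E C0) (T : ℕ) (c : ℕ → W → ℕ)
    (hR : I.Run C0 E T c) (β : ℤ) (r : ℕ) (B : W → Prop)
    (hB1 : ∀ w, c T w < r → B w) (hB2 : ∀ w, B w → c T w < r + 1) (tb : ℕ)
    (hnf : ∀ t, t < tb → ¬ I.frozen C0 β t) (hf : I.frozen C0 β tb) (k : ℕ) :
    ∀ n, tb + n + k = T → I.bn β (I.ls C0 (tb + n) (fun w => ind B w -
        ind (fun w => c (tb + n) w < I.anc C0 r T (tb + n)) w)) ≤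
      900 * (1 / 2) ^ n * (E * Real.sqrt ((I.nb β : ℝ) + I.al C0 β)) := by
  have hE : 1 ≤ E := hB.1
  have hC : 64 ≤ C0 := hB.2.1
  set σ := Real.sqrt ((I.nb β : ℝ) + I.al C0 β) with hσd
  have hσ : 1 ≤ σ := I.one_le_sqrt_S C0 hC β
  have hEσ : 1 ≤ E * σ := by nlinarith
  induction k with
  | zero =>
    intro n hn
    rw [add_zero] at hn
    rw [hn]
    rw [I.bn_zero' fun j hj => ?_]
    · positivity
    · unfold ls
      refine Finset.sum_eq_zero fun w _ => ?_
      unfold lt
      by_cases h : I.drop C0 w (I.b j) T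
      · rw [if_pos h, mul_zero]
      · rw [if_neg h]
        by_cases hv : I.v w j = 0
        · rw [hv, mul_zero]
        · exact absurd (hR.hT w j hv) h
  | succ k ih =>
    intro n hn
    have ih' := ih (n + 1) (by omega)
    have hrw : tb + (n + 1) = tb + n + 1 := by ring
    rw [hrw] at ih'
    have htT : tb + n < T := by omega
    have hft : I.frozen C0 β (tb + n) := I.frozen_mono C0 (Nat.le_add_right _ _) hf
    have hX := I.piece_bound C0 E hB T c hR β tb hnf hf n htT.le
    rw [← hσd] at hX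
    have hs6 := (hR.hStep (tb + n) htT).s6 β hft _ hX (I.anc C0 r T (tb + n + 1))
    rw [← I.anc_succ C0 r T (tb + n) htT] at hs6
    have hdec := I.sg_Nn_decay C0 hC hf n
    rw [← hσd] at hdec
    have halt := I.alt_le_Nn C0 β (tb + n)
    have hsg := I.sg_pos C0 β (tb + n)
    have hp0 : (0 : ℝ) < (1 / 2) ^ n := by positivity
    -- new drops
    have hcnt := I.count_near C0 (hR.hInv (tb + n + 1) (by omega)) (I.anc C0 r T (tb + n + 1))
      (fun w => (I.anc C0 r T (tb + n + 1) ≤ c (tb + n + 1) w + 2 ∧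
        c (tb + n + 1) w ≤ I.anc C0 r T (tb + n + 1) + 1) ∧
        (I.drop C0 w β (tb + n + 1) ∧ ¬ I.drop C0 w β (tb + n)))
      (fun w hw => ⟨hw.1, I.tau_of_new_drop C0 hw.2.1 hw.2.2⟩)
    have h2 : I.bn β (fun j => ∑ w, ((ind B w -
        ind (fun w => c (tb + n + 1) w < I.anc C0 r T (tb + n + 1)) w) *
        ind (fun w => I.drop C0 w β (tb + n + 1) ∧ ¬ I.drop C0 w β (tb + n)) w) * I.v w j) ≤
        (64 * E * Real.sqrt (I.alt C0 (tb + n + 1))) * I.sg C0 β (tb + n) := by
      refine (I.bn_weight_le β _ (fun w => abs_mul_ind_le (abs_ind_sub_le _ _ w) _ w)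
        (fun w => (I.anc C0 r T (tb + n + 1) ≤ c (tb + n + 1) w + 2 ∧
          c (tb + n + 1) w ≤ I.anc C0 r T (tb + n + 1) + 1) ∧
          (I.drop C0 w β (tb + n + 1) ∧ ¬ I.drop C0 w β (tb + n)))
        ?_ I.v (s := I.sg C0 β (tb + n)) (fun w hw => I.bn_le_sg C0 hft hw.2.2) hsg.le).trans ?_
      · intro w hw
        constructor
        · refine I.diff_near C0 E hB T c hR r (tb + n + 1) (by omega) w ?_
          by_contra h
          push Not at h
          apply hw
          have hBw : B w ↔ c (tb + n + 1) w < I.anc C0 r T (tb + n + 1) := by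
            rw [← h.1]
            constructor
            · intro hb
              have := hB2 w hb
              have := h.2
              omega
            · exact hB1 w
          have : ind B w = ind (fun w => c (tb + n + 1) w < I.anc C0 r T (tb + n + 1)) w := by
            by_cases hb : B w
            · rw [ind, ind, if_pos hb, if_pos (hBw.1 hb)]
            · rw [ind, ind, if_neg hb, if_neg (fun h' => hb (hBw.2 h'))]
          rw [this, sub_self, zero_mul]
        · by_contra h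
          exact hw (by rw [mul_eq_zero]; right; rw [ind, if_neg h])
      · exact mul_le_mul_of_nonneg_right hcnt hsg.le
    -- decomposition
    have h3 : I.bn β (I.ls C0 (tb + n) (fun w => ind B w -
        ind (fun w => c (tb + n) w < I.anc C0 r T (tb + n)) w)) =
        I.bn β (fun j => (I.ls C0 (tb + n + 1) (fun w => ind B w -
          ind (fun w => c (tb + n + 1) w < I.anc C0 r T (tb + n + 1)) w) j +
          I.ls C0 (tb + n) (fun w => ind (fun w => c (tb + n + 1) w < I.anc C0 r T (tb + n + 1)) w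
            - ind (fun w => c (tb + n) w < I.anc C0 r T (tb + n)) w) j) +
          ∑ w, ((ind B w - ind (fun w => c (tb + n + 1) w < I.anc C0 r T (tb + n + 1)) w) *
            ind (fun w => I.drop C0 w β (tb + n + 1) ∧ ¬ I.drop C0 w β (tb + n)) w) * I.v w j) := by
      refine I.bn_congr' fun j hj => ?_
      rw [I.ls_succ C0 (tb + n) _ j hj, I.ls_sub, I.ls_sub, I.ls_sub]
      ring
    rw [h3]
    refine (I.bn_add_le' β _ _).trans ?_
    refine (add_le_add (I.bn_add_le' β _ _) le_rfl).trans ?_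
    have h4 : (64 * E * Real.sqrt (I.alt C0 (tb + n + 1))) * I.sg C0 β (tb + n) ≤
        384 / 5 * E * (I.sg C0 β (tb + n) * Real.sqrt (I.Nn C0 β (tb + n))) := by
      have := mul_le_mul_of_nonneg_left halt (show 0 ≤ 64 * E * I.sg C0 β (tb + n) by positivity)
      nlinarith
    have h5 : E * (I.sg C0 β (tb + n) * Real.sqrt (I.Nn C0 β (tb + n))) ≤
        3 / 2 * (1 / 2) ^ n * (E * σ) := by
      have := mul_le_mul_of_nonneg_left hdec (show 0 ≤ E by linarith)
      nlinarith
    have h6 : (1 / 2 : ℝ) ^ (n + 1) = 1 / 2 * (1 / 2) ^ n := by rw [pow_succ]; ring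
    rw [h6] at ih'
    have h7 : 0 ≤ (1 / 2 : ℝ) ^ n * (E * σ) := by positivity
    nlinarith

/-- PER BLOCK BOUND. `B` is any final prefix (between two consecutive boundaries of the last level). -/
theorem block_bound (I : Inst W J) (C0 : ℕ) (E : ℝ) (hB : Big E C0) (T : ℕ) (c : ℕ → W → ℕ)
    (hR : I.Run C0 E T c) (β : ℤ) (r : ℕ) (B : W → Prop)
    (hB1 : ∀ w, c T w < r → B w) (hB2 : ∀ w, B w → c T w < r + 1) :
    I.bn β (I.vs (ind B)) ≤ 2000 * E * Real.sqrt ((I.nb β : ℝ) + I.al C0 β) := by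
  have hE : 1 ≤ E := hB.1
  have hC : 64 ≤ C0 := hB.2.1
  set σ := Real.sqrt ((I.nb β : ℝ) + I.al C0 β) with hσd
  have hσ : 1 ≤ σ := I.one_le_sqrt_S C0 hC β
  have hEσ : 1 ≤ E * σ := by nlinarith
  by_cases hfT : I.frozen C0 β T
  · -- first frozen time
    have hex : ∃ t, I.frozen C0 β t := ⟨T, hfT⟩
    obtain ⟨tb, hf, hnf⟩ : ∃ tb, I.frozen C0 β tb ∧ ∀ t, t < tb → ¬ I.frozen C0 β t :=
      ⟨Nat.find hex, Nat.find_spec hex, fun t ht => Nat.find_min hex ht⟩
    have htb : tb ≤ T := by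
      by_contra h
      exact hnf T (by omega) hfT
    have hw := I.window_bound68 C0 E hB T c hR β tb htb hnf hf (I.anc C0 r T tb)
    have hd := I.diff_bound C0 E hB T c hR β r B hB1 hB2 tb hnf hf (T - tb) 0 (by omega)
    rw [add_zero, pow_zero, mul_one] at hd
    rw [← hσd] at hw hd
    have hcnt := I.count_first_near C0 E hB T c hR β tb htb hnf hf (I.anc C0 r T tb)
      (fun w => (I.anc C0 r T tb ≤ c tb w + 2 ∧ c tb w ≤ I.anc C0 r T tb + 1) ∧ I.drop C0 w β tb)
      (fun w hw => hw)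
    rw [← hσd] at hcnt
    have h2 : I.bn β (fun j => ∑ w, ((ind B w - ind (fun w => c tb w < I.anc C0 r T tb) w) *
        ind (fun w => I.drop C0 w β tb) w) * I.v w j) ≤ 80 * (E * σ) := by
      refine (I.bn_weight_le β _ (fun w => abs_mul_ind_le (abs_ind_sub_le _ _ w) _ w)
        (fun w => (I.anc C0 r T tb ≤ c tb w + 2 ∧ c tb w ≤ I.anc C0 r T tb + 1) ∧
          I.drop C0 w β tb) ?_ I.v (s := 1) (fun w _ => I.bn_v_le_one w β) zero_le_one).trans ?_
      · intro w hw
        constructor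
        · refine I.diff_near C0 E hB T c hR r tb htb w ?_
          by_contra h
          push Not at h
          apply hw
          have hBw : B w ↔ c tb w < I.anc C0 r T tb := by
            rw [← h.1]
            constructor
            · intro hb
              have := hB2 w hb
              have := h.2
              omega
            · exact hB1 w
          have : ind B w = ind (fun w => c tb w < I.anc C0 r T tb) w := by
            by_cases hb : B w
            · rw [ind, ind, if_pos hb, if_pos (hBw.1 hb)]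
            · rw [ind, ind, if_neg hb, if_neg (fun h' => hb (hBw.2 h'))]
          rw [this, sub_self, zero_mul]
        · by_contra h
          exact hw (by rw [mul_eq_zero]; right; rw [ind, if_neg h])
      · rw [mul_one]
        exact hcnt
    have h3 : I.bn β (I.vs (ind B)) =
        I.bn β (fun j => (I.vs (ind (fun w => c tb w < I.anc C0 r T tb)) j +
          I.ls C0 tb (fun w => ind B w - ind (fun w => c tb w < I.anc C0 r T tb) w) j) +
          ∑ w, ((ind B w - ind (fun w => c tb w < I.anc C0 r T tb) w) *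
            ind (fun w => I.drop C0 w β tb) w) * I.v w j) := by
      refine I.bn_congr' fun j hj => ?_
      rw [I.ls_eq C0 tb _ j hj, I.vs_sub]
      ring
    rw [h3]
    refine (I.bn_add_le' β _ _).trans ?_
    refine (add_le_add (I.bn_add_le' β _ _) le_rfl).trans ?_
    nlinarith
  · rw [I.bn_zero' fun j hj => ?_]
    · positivity
    · unfold vs
      refine Finset.sum_eq_zero fun w _ => ?_
      by_cases hv : I.v w j = 0
      · rw [hv, mul_zero]
      · have := hR.hT w j hv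
        rw [hj] at this
        exact absurd (I.frozen_of_drop C0 this) hfT

end Inst
end P262F
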