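import Vale.Agent.P262F.R1a
import Vale.Agent.P262F.R4

open scoped BigOperators
open Classical

namespace P262F
namespace Inst

variable {W J : Type} [Fintype W] [Fintype J]

/-- a full run -/
structure Run (I : Inst W J) (C0 : ℕ) (E : ℝ) (T : ℕ) (c : ℕ → W → ℕ) : Prop where
  h0 : c 0 = (fun _ => 0)
  hInv : ∀ t, t ≤ T → I.Inv C0 E t T (c t)
  hStep : ∀ t, t < T → I.StepRel C0 E t (c t) (c (t + 1))
  hT : ∀ w j, I.v w j ≠ 0 → I.drop C0 w (I.b j) T

/-- ancestors of a boundary: `anc T r t` is the boundary index at level `t` below the boundary `r` at level `T` -/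
noncomputable def anc (I : Inst W J) (C0 : ℕ) (r T : ℕ) (t : ℕ) : ℕ :=
  r / 2 ^ (I.lev C0 T - I.lev C0 t)

theorem lev_mono_R8 (I : Inst W J) (C0 : ℕ) {s t : ℕ} (h : s ≤ t) : I.lev C0 s ≤ I.lev C0 t := by
  induction h with
  | refl => exact le_rfl
  | step _ ih => exact ih.trans (by rw [lev_succ]; exact Nat.le_add_right _ _)

theorem anc_T (I : Inst W J) (C0 : ℕ) (r T : ℕ) : I.anc C0 r T T = r := by
  simp [anc]

theorem anc_succ (I : Inst W J) (C0 : ℕ) (r T t : ℕ) (ht : t < T) :
    I.anc C0 r T t = I.anc C0 r T (t + 1) / 2 ^ (I.Lam C0 t) := by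
  unfold anc
  rw [Nat.div_div_eq_div_mul, ← pow_add]
  congr 2
  have h1 := I.lev_succ C0 t
  have h2 := I.lev_mono_R8 C0 (show t + 1 ≤ T from ht)
  omega

theorem diff_near_aux (L j' c c' q cc jj : ℕ) (hL : 2 ≤ L) (hq : q / 2 ^ (L + 1) = c) (hq1 : q ≤ 2 * c' + 2)
    (hq2 : 2 * c' ≤ q + 1) (hjj : jj = j' / 2 ^ L) (hcc : cc = c)
    (h : (j' ≤ c' + 2 ∧ c' ≤ j' + 1) ∨ ¬ (c' < j' ↔ cc < jj)) :
    jj ≤ c + 2 ∧ c ≤ jj + 1 := by
  subst hcc
  have hm : 4 ≤ 2 ^ L := by
    calc 4 = 2 ^ 2 := by norm_num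
      _ ≤ 2 ^ L := Nat.pow_le_pow_right (by norm_num) hL
  set M := 2 ^ L with hM
  have hM2 : 2 ^ (L + 1) = 2 * M := by rw [pow_succ]; ring
  rw [hM2] at hq
  have hMpos : 0 < M := by omega
  have a1 : M * (j' / M) ≤ j' := Nat.mul_div_le j' M
  have a2 : j' < M * (j' / M) + M := by
    have := Nat.lt_mul_div_succ j' hMpos
    rw [Nat.mul_succ] at this
    exact this
  have b1 : 2 * M * (q / (2 * M)) ≤ q := Nat.mul_div_le q (2 * M)
  have b2 : q < 2 * M * (q / (2 * M)) + 2 * M := by
    have := Nat.lt_mul_div_succ q (show 0 < 2 * M by omega)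
    rw [Nat.mul_succ] at this
    exact this
  rw [← hjj] at a1 a2
  rw [hq] at b1 b2
  -- main facts
  have key1 : 2 * M * jj ≤ q + 5 → jj ≤ cc + 1 := by
    intro h1
    by_contra hcon
    push Not at hcon
    have : cc + 2 ≤ jj := hcon
    have h3 : 2 * M * (cc + 2) ≤ 2 * M * jj := Nat.mul_le_mul_left _ this
    have h4 : 2 * M * (cc + 2) = 2 * M * cc + 4 * M := by ring
    omega
  have key2 : q ≤ 2 * M * jj + 2 * M + 2 → cc ≤ jj + 1 := by
    intro h1
    by_contra hcon
    push Not at hcon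
    have : jj + 2 ≤ cc := hcon
    have h3 : 2 * M * (jj + 2) ≤ 2 * M * cc := Nat.mul_le_mul_left _ this
    have h4 : 2 * M * (jj + 2) = 2 * M * jj + 4 * M := by ring
    omega
  have e1 : 2 * M * jj = 2 * (M * jj) := by ring
  rcases h with ⟨h1, h2⟩ | h
  · constructor
    · have := key1 (by omega)
      omega
    · exact key2 (by omega)
  · by_cases hc : c' < j'
    · have hcc' : ¬ cc < jj := fun h' => h ⟨fun _ => h', fun _ => hc⟩
      constructor
      · omega
      · exact key2 (by omega)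
    · have hcc' : cc < jj := by
        by_contra h'
        exact h ⟨fun h1 => absurd h1 hc, fun h1 => absurd h1 h'⟩
      constructor
      · have := key1 (by omega)
        omega
      · omega

/-- containment of differences: everything between the boundary `r` at the final time and its ancestor
at time `t` lies in four pieces at time `t` -/
theorem diff_near (I : Inst W J) (C0 : ℕ) (E : ℝ) (hB : Big E C0) (T : ℕ) (c : ℕ → W → ℕ)
    (hR : I.Run C0 E T c) (r : ℕ) (t : ℕ) (ht : t ≤ T) (w : W)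
    (hw : ¬ (c T w < r ↔ c t w < I.anc C0 r T t) ∨ c T w = r) :
    I.anc C0 r T t ≤ c t w + 2 ∧ c t w ≤ I.anc C0 r T t + 1 := by
  obtain ⟨k, hk⟩ := Nat.exists_eq_add_of_le ht
  clear ht
  induction k generalizing t with
  | zero =>
    have : t = T := by omega
    subst this
    rw [anc_T] at hw ⊢
    rcases hw with hw | hw
    · exact absurd Iff.rfl hw
    · omega
  | succ k ih =>
    have ih' := ih (t + 1)
    have htT : t < T := by omega
    obtain ⟨q, hq, hq1, hq2⟩ := (hR.hStep t htT).s7 w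
    have hL : 2 ≤ I.Lam C0 t := by
      have h1 := I.C0_le_Lam C0 t
      have h2 := hB.2.1
      omega
    refine diff_near_aux (I.Lam C0 t) (I.anc C0 r T (t + 1)) (c t w) (c (t + 1) w) q (c t w)
      (I.anc C0 r T t) hL hq hq1 hq2 (I.anc_succ C0 r T t htT) rfl ?_
    by_cases hw' : ¬ (c T w < r ↔ c (t + 1) w < I.anc C0 r T (t + 1)) ∨ c T w = r
    · exact Or.inl (ih' hw' (by omega))
    · right
      push Not at hw'
      rcases hw with hw | hw
      · intro h3
        exact hw (hw'.1.trans h3)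
      · exact absurd hw hw'.2

/-- comparisons in the window -/
theorem window_facts (I : Inst W J) (C0 : ℕ) (hC : 64 ≤ C0) (β : ℤ) (t : ℕ)
    (h1 : ¬ I.frozen C0 β t) (h2 : ¬ I.thick C0 β t) :
    3 * (I.alt C0 t : ℤ) ≤ 4 * (I.al C0 β : ℤ) ∧ 4 * (I.al C0 β : ℤ) ≤ 5 * (I.alt C0 t : ℤ) ∧
    4 * |β - (I.lev C0 t : ℤ)| ≤ (I.alt C0 t : ℤ) ∧ (I.al C0 β : ℤ) ≤ 22 * (I.Lam C0 t : ℤ) ∧
    I.Nn C0 β t ≤ 5 / 3 * ((I.nb β : ℝ) + I.al C0 β) := by
  unfold frozen at h1
  unfold thick at h2
  push Not at h1 h2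
  have hl := I.al_lip C0 (I.lev C0 t) β
  have hal := I.al_ge C0 β
  have halt : (I.alt C0 t : ℤ) = I.al C0 (I.lev C0 t) := rfl
  have hL := I.lt_Lam C0 t
  have hab : 4 * |β - (I.lev C0 t : ℤ)| ≤ (I.alt C0 t : ℤ) := by
    rcases abs_cases (β - (I.lev C0 t : ℤ)) with ⟨h, _⟩ | ⟨h, _⟩ <;> rw [h] <;> omega
  have hab' : |(I.lev C0 t : ℤ) - β| = |β - (I.lev C0 t : ℤ)| := abs_sub_comm _ _
  rw [hab'] at hl
  rw [← halt] at hl
  obtain ⟨hl1, hl2⟩ := abs_le.1 hl
  have e1 : 3 * (I.alt C0 t : ℤ) ≤ 4 * (I.al C0 β : ℤ) := by omega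
  have e2 : 4 * (I.al C0 β : ℤ) ≤ 5 * (I.alt C0 t : ℤ) := by omega
  refine ⟨e1, e2, hab, by omega, ?_⟩
  unfold Nn
  have e1' : 3 * (I.alt C0 t : ℝ) ≤ 4 * (I.al C0 β : ℝ) := by exact_mod_cast e1
  have hab2 : 4 * |(β : ℝ) - (I.lev C0 t : ℝ)| ≤ (I.alt C0 t : ℝ) := by
    have : ((4 * |β - (I.lev C0 t : ℤ)| : ℤ) : ℝ) ≤ ((I.alt C0 t : ℤ) : ℝ) := by exact_mod_cast hab
    push_cast at this
    exact this
  have hn0 : (0 : ℝ) ≤ I.nb β := Nat.cast_nonneg _
  linarith

/-- window phase: bound of all prefixes at the first frozen time -/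
theorem window_bound68 (I : Inst W J) (C0 : ℕ) (E : ℝ) (hB : Big E C0) (T : ℕ) (c : ℕ → W → ℕ)
    (hR : I.Run C0 E T c) (β : ℤ) (tb : ℕ) (htb : tb ≤ T)
    (hnf : ∀ t, t < tb → ¬ I.frozen C0 β t) (hf : I.frozen C0 β tb) (r : ℕ) :
    I.bn β (I.vs (ind (fun w => c tb w < r))) ≤ 68 * (E * Real.sqrt ((I.nb β : ℝ) + I.al C0 β)) := by
  obtain ⟨hE, hC, -⟩ := hB
  set S : ℝ := Real.sqrt ((I.nb β : ℝ) + I.al C0 β) with hS
  have hS0 : 0 ≤ S := Real.sqrt_nonneg _
  have hES : 0 ≤ E * S := mul_nonneg (by linarith) hS0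
  -- first non-thick time
  have hntb : ¬ I.thick C0 β tb := fun h => I.not_frozen_of_thick C0 (by omega) h hf
  have hex : ∃ t, ¬ I.thick C0 β t := ⟨tb, hntb⟩
  set t1 := Nat.find hex with ht1
  have ht1n : ¬ I.thick C0 β t1 := Nat.find_spec hex
  have ht1tb : t1 ≤ tb := Nat.find_min' hex hntb
  have hnt : ∀ t, t1 ≤ t → ¬ I.thick C0 β t := by
    intro t ht
    induction ht with
    | refl => exact ht1n
    | step _ ih => exact fun h => ih (I.thick_of_succ C0 h)
  -- the start
  have hsqrt : ∀ x : ℝ, x ≤ 5 / 3 * ((I.nb β : ℝ) + I.al C0 β) → 3 * Real.sqrt x ≤ 4 * S := by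
    intro x hx
    have h1 : Real.sqrt x ≤ 4 / 3 * S := by
      have h0 : 0 ≤ 4 / 3 * S := by positivity
      rw [Real.sqrt_le_left h0]
      rw [mul_pow, hS, Real.sq_sqrt (by positivity)]
      have : (0 : ℝ) ≤ (I.nb β : ℝ) + I.al C0 β := by positivity
      nlinarith
    linarith
  have hsqrt2 : ∀ x : ℝ, x ≤ 2 * ((I.nb β : ℝ) + I.al C0 β) → 5 * Real.sqrt x ≤ 8 * S := by
    intro x hx
    have h1 : Real.sqrt x ≤ 8 / 5 * S := by
      have h0 : 0 ≤ 8 / 5 * S := by positivity
      rw [Real.sqrt_le_left h0]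
      rw [mul_pow, hS, Real.sq_sqrt (by positivity)]
      have : (0 : ℝ) ≤ (I.nb β : ℝ) + I.al C0 β := by positivity
      nlinarith
    linarith
  have hstart : ∀ r, I.bn β (I.vs (ind (fun w => c t1 w < r))) ≤ 8 * (E * S) := by
    intro r
    rcases Nat.eq_zero_or_pos t1 with h0 | hpos
    · have hz : I.vs (ind (fun w => c t1 w < r)) = fun _ => 0 := by
        funext j
        unfold vs
        by_cases hr : 0 < r
        · have : ∀ w, ind (fun w => c t1 w < r) w = 1 := by
            intro w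
            unfold ind
            rw [h0, hR.h0, if_pos hr]
          simp only [this, one_mul]
          exact I.hsum j
        · have : ∀ w, ind (fun w => c t1 w < r) w = 0 := by
            intro w
            unfold ind
            rw [h0, hR.h0, if_neg hr]
          simp only [this, zero_mul, Finset.sum_const_zero]
      rw [hz]
      have : I.bn β (fun _ => (0 : ℝ)) = 0 := by
        unfold bn
        simp
      rw [this]
      positivity
    · obtain ⟨s, hs⟩ := Nat.exists_eq_add_of_lt hpos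
      rw [zero_add] at hs
      have hthick : I.thick C0 β s := by
        by_contra hcon
        have := Nat.find_min' hex hcon
        omega
      have hnfs : ¬ I.frozen C0 β s := I.not_frozen_of_thick C0 (by omega) hthick
      have hlt : t1 < tb := by
        rcases lt_or_eq_of_le ht1tb with h | h
        · exact h
        · exfalso
          rw [← h, hs] at hf
          unfold frozen at hf
          unfold thick at hthick
          have e1 := I.lev_succ C0 s
          have e2 := I.Lam_le C0 s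
          have e3 := I.alt_ge C0 s
          have e4 := I.alt_ge C0 (s + 1)
          omega
      have hwin := I.window_facts C0 hC β t1 (hnf t1 hlt) ht1n
      have hNs : I.Nn C0 β s ≤ 2 * ((I.nb β : ℝ) + I.al C0 β) := by
        have h1 := I.Nn_le_succ C0 β s
        have h2 := hwin.2.2.2.2
        rw [hs] at h2
        linarith
      have hsT : s < T := by omega
      have hi1 := (hR.hInv s hsT.le).i1 β hthick
      have hs2 := (hR.hStep s hsT).s2 β hnfs (by rw [← hs]; exact ht1n) (2 * E * Real.sqrt (I.Nn C0 β s)) hi1 r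
      rw [← hs] at hs2
      refine hs2.trans ?_
      have h5 := hsqrt2 _ hNs
      have h6 := mul_le_mul_of_nonneg_left h5 (show (0 : ℝ) ≤ E by linarith)
      nlinarith
  -- induction in the window
  have hind : ∀ k, t1 + k ≤ tb → ∀ r, I.bn β (I.vs (ind (fun w => c (t1 + k) w < r))) ≤ (8 + 4 * k) * (E * S) := by
    intro k
    induction k with
    | zero =>
      intro _ r
      simpa using hstart r
    | succ k ih =>
      intro hk r
      have ih' := ih (by omega)
      have hT' : t1 + k < T := by omega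
      have hnf' := hnf (t1 + k) (by omega)
      have hs2 := (hR.hStep (t1 + k) hT').s2 β hnf' (hnt _ (by omega)) _ ih' r
      have hwin := I.window_facts C0 hC β (t1 + k) hnf' (hnt _ (by omega))
      have h5 := hsqrt _ hwin.2.2.2.2
      have h6 := mul_le_mul_of_nonneg_left h5 (show (0 : ℝ) ≤ E by linarith)
      have e : t1 + k + 1 = t1 + (k + 1) := by ring
      rw [e] at hs2
      refine hs2.trans ?_
      push_cast
      nlinarith
  -- number of steps
  obtain ⟨k, hk⟩ := Nat.exists_eq_add_of_le ht1tb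
  have hk15 : k ≤ 15 := by
    rcases Nat.eq_zero_or_pos k with h0 | hpos
    · omega
    · have hw1 := I.window_facts C0 hC β t1 (hnf t1 (by omega)) ht1n
      have hlev : ∀ i, t1 + i < tb → (I.lev C0 t1 : ℤ) * 22 + i * (I.al C0 β : ℤ) ≤ 22 * (I.lev C0 (t1 + i) : ℤ) := by
        intro i
        induction i with
        | zero => intro _; simp; linarith
        | succ i ih =>
          intro hi
          have ih' := ih (by omega)
          have hw := I.window_facts C0 hC β (t1 + i) (hnf _ (by omega)) (hnt _ (by omega))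
          have e1 := I.lev_succ C0 (t1 + i)
          have e2 : t1 + (i + 1) = t1 + i + 1 := by ring
          rw [e2, e1]
          push_cast
          have := hw.2.2.2.1
          linarith
      have hk1 := hlev (k - 1) (by omega)
      have hw2 := I.window_facts C0 hC β (t1 + (k - 1)) (hnf _ (by omega)) (hnt _ (by omega))
      have hal := I.al_ge C0 β
      have a1 := hw1.1
      have a2 := hw1.2.2.1
      have b1 := hw2.1
      have b2 := hw2.2.2.1
      have a3 : β - (I.lev C0 t1 : ℤ) ≤ |β - (I.lev C0 t1 : ℤ)| := le_abs_self _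
      have b3 : -(β - (I.lev C0 (t1 + (k - 1)) : ℤ)) ≤ |β - (I.lev C0 (t1 + (k - 1)) : ℤ)| := neg_le_abs _
      by_contra hcon
      push Not at hcon
      have hk2 : (15 : ℤ) ≤ ((k - 1 : ℕ) : ℤ) := by omega
      have hk3 : (15 : ℤ) * (I.al C0 β : ℤ) ≤ ((k - 1 : ℕ) : ℤ) * (I.al C0 β : ℤ) :=
        mul_le_mul_of_nonneg_right hk2 (by positivity)
      have hal' : (1 : ℤ) ≤ I.al C0 β := by omega
      linarith
  have hfin := hind k (by omega) r
  rw [← hk] at hfin
  refine hfin.trans ?_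
  have : (k : ℝ) ≤ 15 := by exact_mod_cast hk15
  nlinarith

theorem window_bound (I : Inst W J) (C0 : ℕ) (E : ℝ) (hB : Big E C0) (T : ℕ) (c : ℕ → W → ℕ)
    (hR : I.Run C0 E T c) (β : ℤ) (tb : ℕ) (htb : tb ≤ T)
    (hnf : ∀ t, t < tb → ¬ I.frozen C0 β t) (hf : I.frozen C0 β tb) (r : ℕ) :
    I.bn β (I.vs (ind (fun w => c tb w < r))) ≤ 300 * E * Real.sqrt ((I.nb β : ℝ) + I.al C0 β) := by
  have h := I.window_bound68 C0 E hB T c hR β tb htb hnf hf r
  have h0 : 0 ≤ E * Real.sqrt ((I.nb β : ℝ) + I.al C0 β) :=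
    mul_nonneg (by linarith [hB.1]) (Real.sqrt_nonneg _)
  linarith

end Inst
end P262F
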