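import Vale.Agent.P262F.R8a

/-! P262 R8, numerical facts for the block bound. -/

open scoped BigOperators
open Classical

namespace P262F
namespace Inst

variable {W J : Type} [Fintype W] [Fintype J] (I : Inst W J) (C0 : ℕ)

theorem age_ge (hC : 64 ≤ C0) {β : ℤ} {tb : ℕ} (hf : I.frozen C0 β tb) (n : ℕ) :
    (192 * n : ℤ) ≤ I.age C0 β (tb + n) := by
  induction n with
  | zero =>
    simp only [Nat.cast_zero, mul_zero, add_zero]
    exact le_max_left _ _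
  | succ n ih =>
    have h1 := I.age_succ C0 (I.frozen_mono C0 (Nat.le_add_right tb n) hf)
    have h2 := I.C0_le_Lam C0 (tb + n)
    have h3 : tb + (n + 1) = tb + n + 1 := by ring
    rw [h3]
    push_cast
    have h4 : (64 : ℤ) ≤ I.Lam C0 (tb + n) := by exact_mod_cast hC.trans h2
    linarith

theorem one_add_le_rpow {x : ℝ} (hx : 0 ≤ x) : 1 + x / 128 ≤ (2 : ℝ) ^ x := by
  have h1 : (2 : ℝ) ^ x = Real.exp (Real.log 2 * x) := by
    rw [Real.rpow_def_of_pos (by norm_num)]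
  rw [h1]
  have h2 := Real.add_one_le_exp (Real.log 2 * x)
  have h3 := Real.log_two_gt_d9
  nlinarith

/-- decay of the frozen error scale. -/
theorem sg_Nn_decay (hC : 64 ≤ C0) {β : ℤ} {tb : ℕ} (hf : I.frozen C0 β tb) (n : ℕ) :
    I.sg C0 β (tb + n) * Real.sqrt (I.Nn C0 β (tb + n)) ≤
      3 / 2 * Real.sqrt ((I.nb β : ℝ) + I.al C0 β) * (1 / 2) ^ n := by
  have hN := I.Nn_frozen C0 (I.frozen_mono C0 (Nat.le_add_right tb n) hf)
  have ha := I.age_ge C0 hC hf n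
  set a : ℝ := (I.age C0 β (tb + n) : ℝ) with hadef
  have ha' : 192 * (n : ℝ) ≤ a := by
    rw [hadef]
    exact_mod_cast ha
  have hn0 : (0 : ℝ) ≤ n := Nat.cast_nonneg n
  have ha0 : 0 ≤ a := by linarith
  set S : ℝ := (I.nb β : ℝ) + I.al C0 β with hS
  have hS1 : 1024 ≤ S := by
    have h1 := I.al_ge C0 β
    have h2 : (1024 : ℝ) ≤ I.al C0 β := by
      have : 1024 ≤ I.al C0 β := by omega
      exact_mod_cast this
    have h3 : (0 : ℝ) ≤ I.nb β := Nat.cast_nonneg _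
    linarith
  have hx0 : 0 ≤ a / 16 := by positivity
  have h2x := one_add_le_rpow hx0
  have hNn : I.Nn C0 β (tb + n) ≤ 2 * S * (2 : ℝ) ^ (a / 16) := by
    have h1 : I.Nn C0 β (tb + n) ≤ 2 * S + a := by
      have : (0 : ℝ) ≤ I.nb β := Nat.cast_nonneg _
      linarith
    have h2 : 2 * S + a ≤ 2 * S * (1 + a / 16 / 128) := by nlinarith
    exact h1.trans (h2.trans (mul_le_mul_of_nonneg_left h2x (by linarith)))
  have hsg : I.sg C0 β (tb + n) = (2 : ℝ) ^ (-(a / 16)) := by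
    unfold sg
    rw [neg_div]
  have hsqrt : Real.sqrt (I.Nn C0 β (tb + n)) ≤ 3 / 2 * Real.sqrt S * (2 : ℝ) ^ (a / 32) := by
    rw [Real.sqrt_le_left (by positivity)]
    refine hNn.trans ?_
    rw [mul_pow, mul_pow, Real.sq_sqrt (by linarith), ← Real.rpow_natCast ((2 : ℝ) ^ (a / 32)) 2,
      ← Real.rpow_mul (by norm_num)]
    have h3 : a / 32 * ((2 : ℕ) : ℝ) = a / 16 := by push_cast; ring
    rw [h3]
    have h4 : 0 ≤ S * (2 : ℝ) ^ (a / 16) := by positivity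
    nlinarith
  rw [hsg]
  have h5 : (2 : ℝ) ^ (-(a / 16)) * (2 : ℝ) ^ (a / 32) ≤ (1 / 2) ^ n := by
    rw [← Real.rpow_add (by norm_num)]
    have h6 : ((1 : ℝ) / 2) ^ n = (2 : ℝ) ^ (-(n : ℝ)) := by
      rw [Real.rpow_neg (by norm_num), Real.rpow_natCast, one_div, inv_pow]
    rw [h6]
    exact Real.rpow_le_rpow_of_exponent_le (by norm_num) (by linarith)
  calc (2 : ℝ) ^ (-(a / 16)) * Real.sqrt (I.Nn C0 β (tb + n))
      ≤ (2 : ℝ) ^ (-(a / 16)) * (3 / 2 * Real.sqrt S * (2 : ℝ) ^ (a / 32)) :=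
        mul_le_mul_of_nonneg_left hsqrt (by positivity)
    _ = 3 / 2 * Real.sqrt S * ((2 : ℝ) ^ (-(a / 16)) * (2 : ℝ) ^ (a / 32)) := by ring
    _ ≤ 3 / 2 * Real.sqrt S * (1 / 2) ^ n := mul_le_mul_of_nonneg_left h5 (by positivity)

/-- for the first frozen time. -/
theorem alt_first (_hC : 64 ≤ C0) {β : ℤ} {s : ℕ} (h0 : ¬ I.frozen C0 β s)
    (hf : I.frozen C0 β (s + 1)) :
    Real.sqrt (I.alt C0 (s + 1)) ≤ 5 / 4 * Real.sqrt ((I.nb β : ℝ) + I.al C0 β) := by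
  unfold frozen at h0 hf
  push Not at h0
  have h1 := I.lev_succ C0 s
  have h2 := I.Lam_le C0 s
  have h3 := I.alt_le_succ C0 s
  have h4 := I.al_lip C0 (I.lev C0 (s + 1)) β
  have h5 : (I.alt C0 (s + 1) : ℤ) = I.al C0 (I.lev C0 (s + 1)) := rfl
  rw [← h5] at h4
  have h6 : (0 : ℤ) ≤ (I.lev C0 (s + 1) : ℤ) - β := by
    have : (0 : ℤ) ≤ I.alt C0 (s + 1) := by positivity
    linarith
  rw [abs_of_nonneg h6] at h4
  have h7 := (abs_le.1 h4).2
  have h8 : (I.lev C0 (s + 1) : ℤ) = I.lev C0 s + I.Lam C0 s := by exact_mod_cast h1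
  have h9 : 2 * (I.alt C0 (s + 1) : ℤ) ≤ 3 * (I.al C0 β : ℤ) := by omega
  have h10 : 2 * (I.alt C0 (s + 1) : ℝ) ≤ 3 * (I.al C0 β : ℝ) := by exact_mod_cast h9
  have h11 : (0 : ℝ) ≤ I.nb β := Nat.cast_nonneg _
  have h12 : (0 : ℝ) ≤ I.al C0 β := Nat.cast_nonneg _
  rw [Real.sqrt_le_left (by positivity), mul_pow, Real.sq_sqrt (by positivity)]
  nlinarith

theorem alt_le_Nn (β : ℤ) (t : ℕ) :
    Real.sqrt (I.alt C0 (t + 1)) ≤ 6 / 5 * Real.sqrt (I.Nn C0 β t) := by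
  have h1 := I.alt_succ_le C0 t
  have h2 := I.Lam_le C0 t
  have h3 : 16 * I.alt C0 (t + 1) ≤ 17 * I.alt C0 t := by omega
  have h4 : 16 * (I.alt C0 (t + 1) : ℝ) ≤ 17 * (I.alt C0 t : ℝ) := by exact_mod_cast h3
  have h5 : (I.alt C0 t : ℝ) ≤ I.Nn C0 β t := by
    unfold Nn
    have h6 : (0 : ℝ) ≤ I.nb β := Nat.cast_nonneg _
    have h7 : 0 ≤ |(β : ℝ) - I.lev C0 t| := abs_nonneg _
    linarith
  have h8 : (0 : ℝ) ≤ I.alt C0 t := Nat.cast_nonneg _
  rw [Real.sqrt_le_left (by positivity), mul_pow, Real.sq_sqrt (h8.trans h5)]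
  nlinarith

end Inst
end P262F
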