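import Vale.Agent.P262F.R6
import Vale.Agent.P262F.R8

open scoped BigOperators
open Classical

namespace P262F

theorem exists_big (E : ℝ) (hE : 1 ≤ E) : ∃ C0 : ℕ, Big E C0 := by
  refine ⟨64 + 16 * ⌈10 ^ 4 * E⌉₊, hE, Nat.le_add_right _ _, ?_⟩
  set k := ⌈10 ^ 4 * E⌉₊ with hk
  have h1 : 10 ^ 4 * E ≤ k := Nat.le_ceil _
  have h2 : (k : ℝ) ≤ (2 : ℝ) ^ k := by
    exact_mod_cast (Nat.lt_two_pow_self (n := k)).le
  have h3 : (2 : ℝ) ^ k ≤ (2 : ℝ) ^ (((64 + 16 * k : ℕ) : ℝ) / 16) := by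
    rw [← Real.rpow_natCast]
    refine Real.rpow_le_rpow_of_exponent_le (by norm_num) ?_
    push_cast
    linarith
  linarith

/-- the main theorem for diagonalized instances -/
theorem inst_order : ∃ C : ℝ, 0 < C ∧ ∀ (W J : Type) [Fintype W] [Fintype J] (I : Inst W J),
    ∃ c : W → ℕ, Function.Injective c ∧ ∀ r : ℕ,
      ∑ j, (∑ w ∈ Finset.univ.filter (fun w => c w < r), I.v w j) ^ 2 ≤ C * Fintype.card J := by
  obtain ⟨E, hE, heng⟩ := engine_inst
  obtain ⟨C0, hB⟩ := exists_big E hE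
  have hC : 64 ≤ C0 := hB.2.1
  have hC' : (0 : ℝ) < C0 := by
    have : 0 < C0 := by omega
    exact_mod_cast this
  refine ⟨(2000 * E) ^ 2 * (10 ^ 4 * (C0 : ℝ) ^ 2), by positivity, ?_⟩
  intro W J _ _ I
  obtain ⟨T, hT⟩ := I.exists_T C0 hC
  obtain ⟨c, hc0, hc1, hc2⟩ := I.run C0 E hB T (fun t => heng W J I C0 hC t T)
  have hR : I.Run C0 E T c := ⟨hc0, hc1, hc2, hT⟩
  -- refine to an injective order
  set M := Fintype.card W + 1 with hM
  let e : W ≃ Fin (Fintype.card W) := Fintype.equivFin W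
  have heM : ∀ w, (e w : ℕ) < M := fun w => (e w).2.trans (Nat.lt_succ_self _)
  refine ⟨fun w => c T w * M + e w, ?_, ?_⟩
  · intro w w' h
    have h' : c T w * M + e w = c T w' * M + e w' := h
    have h1 : (e w : ℕ) = e w' := by
      have := congrArg (· % M) h'
      simpa [Nat.mul_add_mod_of_lt, Nat.mod_eq_of_lt (heM w), Nat.mod_eq_of_lt (heM w'),
        Nat.add_mod] using this
    exact e.injective (Fin.ext h1)
  · intro r'
    have hMpos : 0 < M := Nat.succ_pos _
    have hb1 : ∀ w, c T w < r' / M → c T w * M + e w < r' := by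
      intro w hw
      have h1 : (c T w + 1) * M ≤ r' := (Nat.mul_le_mul_right M hw).trans (Nat.div_mul_le_self _ _)
      have h2 := heM w
      rw [add_mul, one_mul] at h1
      omega
    have hb2 : ∀ w, c T w * M + e w < r' → c T w < r' / M + 1 := by
      intro w hw
      rw [Nat.lt_succ_iff, Nat.le_div_iff_mul_le hMpos]
      omega
    have hblock : ∀ β, I.bn β (I.vs (Inst.ind (fun w => c T w * M + e w < r'))) ≤
        2000 * E * Real.sqrt ((I.nb β : ℝ) + I.al C0 β) := fun β =>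
      I.block_bound C0 E hB T c hR β (r' / M) (fun w => c T w * M + e w < r') hb1 hb2
    have hsq : ∀ β, (∑ j ∈ Finset.univ.filter (fun j => I.b j = β),
        (I.vs (Inst.ind (fun w => c T w * M + e w < r')) j) ^ 2) ≤
        (2000 * E) ^ 2 * ((I.nb β : ℝ) + I.al C0 β) := by
      intro β
      have h1 := hblock β
      have h2 : 0 ≤ I.bn β (I.vs (Inst.ind (fun w => c T w * M + e w < r'))) := I.bn_nonneg' _ _
      have h3 := pow_le_pow_left₀ h2 h1 2
      rw [mul_pow, Real.sq_sqrt (by positivity)] at h3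
      rwa [Inst.bn, Real.sq_sqrt (Finset.sum_nonneg fun _ _ => sq_nonneg _)] at h3
    have hvs : ∀ j, ∑ w ∈ Finset.univ.filter (fun w => c T w * M + e w < r'), I.v w j =
        I.vs (Inst.ind (fun w => c T w * M + e w < r')) j := by
      intro j
      rw [Finset.sum_filter]
      unfold Inst.vs Inst.ind
      refine Finset.sum_congr rfl fun w _ => ?_
      split_ifs <;> simp
    calc ∑ j, (∑ w ∈ Finset.univ.filter (fun w => c T w * M + e w < r'), I.v w j) ^ 2
        = ∑ j, (I.vs (Inst.ind (fun w => c T w * M + e w < r')) j) ^ 2 :=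
          Finset.sum_congr rfl fun j _ => by rw [hvs]
      _ = ∑ β ∈ Finset.univ.image I.b, ∑ j ∈ Finset.univ.filter (fun j => I.b j = β),
            (I.vs (Inst.ind (fun w => c T w * M + e w < r')) j) ^ 2 :=
          (Finset.sum_fiberwise_of_maps_to (fun j _ => Finset.mem_image_of_mem _ (Finset.mem_univ j))
            _).symm
      _ ≤ ∑ β ∈ Finset.univ.image I.b, (2000 * E) ^ 2 * ((I.nb β : ℝ) + I.al C0 β) :=
          Finset.sum_le_sum fun β _ => hsq β
      _ = (2000 * E) ^ 2 * ∑ β ∈ Finset.univ.image I.b, ((I.nb β : ℝ) + I.al C0 β) := by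
          rw [Finset.mul_sum]
      _ ≤ (2000 * E) ^ 2 * ((10 ^ 4 * (C0 : ℝ) ^ 2) * Fintype.card J) :=
          mul_le_mul_of_nonneg_left (I.sum_al C0 (by omega)) (sq_nonneg _)
      _ = (2000 * E) ^ 2 * (10 ^ 4 * (C0 : ℝ) ^ 2) * Fintype.card J := by ring

end P262F
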