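import Vale.Agent.P262F.Defs

/-!
Definitions for the multi-scale recursion (full Steinitz bound).
See notes/P262_full.md.
-/

open scoped BigOperators
open Classical

namespace P262F

/-- Diagonalized instance: vectors `v w : J → ℝ`, `w : W`, of norm ≤ 1, zero sum, with diagonal
second moment matrix; `b j` is the dyadic exponent of the `j`-th diagonal entry. -/
structure Inst (W J : Type) [Fintype W] [Fintype J] where
  v : W → J → ℝ
  b : J → ℤ
  hv : ∀ w, ∑ j, (v w j) ^ 2 ≤ 1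
  hsum : ∀ j, ∑ w, v w j = 0
  horth : ∀ j l, j ≠ l → ∑ w, v w j * v w l = 0
  hb1 : ∀ j, (2 : ℝ) ^ (b j) ≤ ∑ w, (v w j) ^ 2
  hb2 : ∀ j, ∑ w, (v w j) ^ 2 < (2 : ℝ) ^ (b j + 1)

namespace Inst

variable {W J : Type} [Fintype W] [Fintype J] (I : Inst W J) (C0 : ℕ)

/-- size of the block `β` -/
noncomputable def nb (β : ℤ) : ℕ := (Finset.univ.filter (fun j => I.b j = β)).card

/-- logarithmic weight of the block `β` -/
noncomputable def ab (β : ℤ) : ℕ := C0 + 2 * Nat.clog 2 (I.nb β)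

/-- the 1-Lipschitz scale function -/
noncomputable def al (k : ℤ) : ℕ :=
  max (16 * C0) (Finset.univ.sup (fun j => (16 * (I.ab C0 (I.b j) : ℤ) - |k - I.b j|).toNat))

/-- the levels of the super-levels -/
noncomputable def lev : ℕ → ℕ
  | 0 => 0
  | t + 1 => lev t + I.al C0 (lev t) / 16

/-- value of the scale function at super-level `t` -/
noncomputable def alt (t : ℕ) : ℕ := I.al C0 (I.lev C0 t)

/-- length of super-level `t` -/
noncomputable def Lam (t : ℕ) : ℕ := I.alt C0 t / 16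

def frozen (β : ℤ) (t : ℕ) : Prop := (I.alt C0 t : ℤ) ≤ 4 * ((I.lev C0 t : ℤ) - β)

def thick (β : ℤ) (t : ℕ) : Prop := (I.alt C0 t : ℤ) ≤ 4 * (β - (I.lev C0 t : ℤ))

/-- the age `s = 4 (lev - β) - alt`, positive part -/
noncomputable def age (β : ℤ) (t : ℕ) : ℤ := max 0 (4 * ((I.lev C0 t : ℤ) - β) - I.alt C0 t)

/-- scale of frozen blocks; equals `1` when not frozen -/
noncomputable def sg (β : ℤ) (t : ℕ) : ℝ := (2 : ℝ) ^ (-(I.age C0 β t : ℝ) / 16)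

/-- load of `w` at time `t` on frozen blocks not in `D` -/
noncomputable def load (w : W) (t : ℕ) (D : ℤ → Prop) : ℝ :=
  ∑ j, if I.frozen C0 (I.b j) t ∧ ¬ D (I.b j) then (I.v w j) ^ 2 / (I.sg C0 (I.b j) t) ^ 2 else 0

/-- blocks dropped for `w` strictly before time `t` -/
noncomputable def dropPrev (w : W) : ℕ → ℤ → Prop
  | 0 => fun _ => False
  | t + 1 => fun β => dropPrev w t β ∨ (I.frozen C0 β t ∧ 1 < I.load C0 w t (dropPrev w t))

/-- blocks dropped for `w` up to and including time `t` -/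
noncomputable def drop (w : W) (β : ℤ) (t : ℕ) : Prop := I.dropPrev C0 w (t + 1) β

/-- truncated load -/
noncomputable def tau (t : ℕ) (w : W) : ℝ := min 1 (I.load C0 w t (I.dropPrev C0 w t))

/-- light vector at time `t` (raw on non-frozen blocks) -/
noncomputable def lt (t : ℕ) (w : W) (j : J) : ℝ := if I.drop C0 w (I.b j) t then 0 else I.v w j

/-- norm of the block `β` -/
noncomputable def bn (β : ℤ) (x : J → ℝ) : ℝ :=
  Real.sqrt (∑ j ∈ Finset.univ.filter (fun j => I.b j = β), (x j) ^ 2)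

/-- Frobenius norm of the block pair `(β, γ)` -/
noncomputable def bn2 (β γ : ℤ) (x : J → J → ℝ) : ℝ :=
  Real.sqrt (∑ j ∈ Finset.univ.filter (fun j => I.b j = β),
    ∑ l ∈ Finset.univ.filter (fun l => I.b l = γ), (x j l) ^ 2)

noncomputable def Nn (β : ℤ) (t : ℕ) : ℝ :=
  (I.nb β : ℝ) + I.alt C0 t + |(β : ℝ) - I.lev C0 t|

noncomputable def N2 (β γ : ℤ) (t : ℕ) : ℝ :=
  (I.nb β : ℝ) * I.nb γ + I.alt C0 t + |(β : ℝ) - I.lev C0 t| + |(γ : ℝ) - I.lev C0 t|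

/-- allowed error of second moments -/
noncomputable def HH (E : ℝ) (β γ : ℤ) (t : ℕ) : ℝ :=
  28 * E * Real.sqrt (I.N2 C0 β γ t) *
    (2 : ℝ) ^ (((max 0 (min β γ - (I.lev C0 t : ℤ)) : ℤ) : ℝ) / 2)

/-- block sums against a weight `ω` -/
noncomputable def vs (ω : W → ℝ) (j : J) : ℝ := ∑ w, ω w * I.v w j
noncomputable def ls (t : ℕ) (ω : W → ℝ) (j : J) : ℝ := ∑ w, ω w * I.lt C0 t w j
noncomputable def ms (ω : W → ℝ) (j l : J) : ℝ := ∑ w, ω w * (I.v w j * I.v w l)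
noncomputable def ts (κ : ℕ) (ω : W → ℝ) : ℝ := ∑ w, ω w * I.tau C0 κ w

/-- `ω` is a controlled error at step `t` -/
def Ctl (E : ℝ) (t T : ℕ) (ω : W → ℝ) : Prop :=
  (∀ β, I.bn β (I.ls C0 t ω) ≤ E * I.sg C0 β t * Real.sqrt (I.Nn C0 β t)) ∧
  (∀ β γ, ¬ I.frozen C0 β t → ¬ I.frozen C0 γ t →
    I.bn2 β γ (I.ms ω) ≤ E * Real.sqrt (I.N2 C0 β γ t)) ∧
  (∀ κ, t < κ → κ ≤ T →
    |I.ts C0 κ ω| ≤ E * 2 ^ (κ - t) * Real.sqrt (1 + I.alt C0 t + ((κ : ℝ) - t)))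

/-- the tilt correcting the position `F` on blocks thick at `t+1` -/
noncomputable def tilt (t : ℕ) (F : J → ℝ) (w : W) : ℝ :=
  - ∑ l, if I.thick C0 (I.b l) (t + 1) then
      I.v w l * F l / ((2 : ℝ) ^ (-(I.lev C0 (t + 1) : ℤ)) * ∑ w', (I.v w' l) ^ 2) else 0

/-- indicator weight -/
noncomputable def ind (P : W → Prop) (w : W) : ℝ := if P w then 1 else 0

/-- state invariant at time `t` for the piece assignment `c` -/
structure Inv (E : ℝ) (t T : ℕ) (c : W → ℕ) : Prop where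
  i0 : ∀ w, c w < 2 ^ (I.lev C0 t)
  i1 : ∀ β, I.thick C0 β t → ∀ r, I.bn β (I.vs (ind (fun w => c w < r))) ≤ 2 * E * Real.sqrt (I.Nn C0 β t)
  i3 : ∀ β γ, ¬ I.frozen C0 β t → ¬ I.frozen C0 γ t → ∀ r, r < 2 ^ (I.lev C0 t) →
    I.bn2 β γ (I.ms (fun w => ind (fun w => c w = r) w - (2 : ℝ) ^ (-(I.lev C0 t : ℤ)))) ≤ I.HH C0 E β γ t
  i4 : ∀ κ, t < κ → κ ≤ T → ∀ r, I.ts C0 κ (ind (fun w => c w = r)) ≤
    (1 + (1 / 4 : ℝ) ^ (κ - t)) * (2 : ℝ) ^ ((I.lev C0 κ : ℤ) - I.lev C0 t)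
  i5 : ∀ r, I.ts C0 t (ind (fun w => c w = r)) ≤ 16 * E * Real.sqrt (I.alt C0 t)

/-- relation between consecutive assignments -/
structure StepRel (E : ℝ) (t : ℕ) (c c' : W → ℕ) : Prop where
  /-- window blocks -/
  s2 : ∀ β, ¬ I.frozen C0 β t → ¬ I.thick C0 β (t + 1) → ∀ R : ℝ,
    (∀ r, I.bn β (I.vs (ind (fun w => c w < r))) ≤ R) →
    ∀ j, I.bn β (I.vs (ind (fun w => c' w < j))) ≤ R + 3 * E * Real.sqrt (I.Nn C0 β t)
  /-- frozen blocks: light piece sums -/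
  s5 : ∀ β, I.frozen C0 β t → ∀ X : ℝ,
    (∀ r, I.bn β (I.ls C0 t (ind (fun w => c w = r))) ≤ X) →
    ∀ j, I.bn β (I.ls C0 t (ind (fun w => c' w = j))) ≤
      X / 2 ^ (I.Lam C0 t) + 7 * E * I.sg C0 β t * Real.sqrt (I.Nn C0 β t)
  /-- frozen blocks: light prefix differences -/
  s6 : ∀ β, I.frozen C0 β t → ∀ X : ℝ,
    (∀ r, I.bn β (I.ls C0 t (ind (fun w => c w = r))) ≤ X) →
    ∀ j, I.bn β (I.ls C0 t (fun w => ind (fun w => c' w < j) w
        - ind (fun w => c w < j / 2 ^ (I.Lam C0 t)) w)) ≤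
      2 * X + 7 * E * I.sg C0 β t * Real.sqrt (I.Nn C0 β t)
  /-- geometry: the position in the order moves by less than one old piece -/
  s7 : ∀ w, ∃ q : ℕ, q / 2 ^ (I.Lam C0 t + 1) = c w ∧ q ≤ 2 * c' w + 2 ∧ 2 * c' w ≤ q + 1

end Inst

end P262F
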